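import Vale.Agent.P006.A.Stm
import Vale.Agent.P026.M.VI

/-! P006 branch A: analytic continuation with its pole. -/

noncomputable section
open Complex MeasureTheory Filter Topology
open scoped Classical ComplexConjugate

namespace Vale.Agent.P026.Z

open VIM

/-- weighted bound for the dual functions -/
def DW (h : O) (Ψ : O → ℂ) (σ M : ℝ) : Prop := ∀ (e : O) (n : ℕ), IsUnit e →
  ∑' D, ‖bb D‖ * N D ^ (-(1 / 2 + σ)) * ‖fs h (dl h Ψ (e * lam ^ n)) D‖ ≤ M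

def AC2Stmt : Prop := ∃ (ρ : O → O → ℂ) (K : ℝ), 0 ≤ K ∧ ∀ (r h : O) (Ψ : O → ℂ), Cf h Ψ →
  ∃ F : ℂ → ℂ, DifferentiableOn ℂ F {s | s.re < 3 / 2} ∧
    (∀ a : ℝ, ∃ C : ℝ, ∀ s : ℂ, a ≤ s.re → s.re ≤ 5 / 4 → ‖F s‖ ≤ C * Real.exp (8 * |s.im|)) ∧
    F (5 / 6) = ρ r h * ∑ a ∈ Rs h, Ψ a * cub a h ∧
    (∀ s : ℂ, 1 < s.re → s.re < 3 / 2 → F s = (s - 5 / 6) * DP 0 r h Ψ s) ∧
    ∀ (M : ℝ) (s : ℂ), DW h Ψ (1 - s.re) M → s.re < 0 →
      ‖F s‖ ≤ K * M * (‖s - 5 / 6‖ * ‖gg s‖ * N h ^ (1 - 2 * s.re) * 3 ^ (-18 * s.re))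

namespace ACM

lemma DP_eq (hB : Bas) (hb : BB) (J : ℤ) (r h : O) (Φ : O → ℂ) {s : ℂ} (hs : 1 < s.re) :
    DP J r h Φ s = ∑' k, if (27 : O) ∣ k - r then
      bb k * ang J (toC k) * fs h Φ k * (N k : ℂ) ^ (-(1 / 2 + s)) else 0 := by
  have : DP J r h Φ s = ∑ a ∈ Rs h, ∑' k, Φ a * tm J r h a s k := by
    simp only [tsum_mul_left]; rfl
  rw [this, ← Summable.tsum_finsetSum fun a _ => (summ_tm hB hb J r h a hs).mul_left _]
  refine tsum_congr fun k => ?_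
  unfold tm
  split_ifs
  · rw [fs, Finset.mul_sum, Finset.sum_mul]
    exact Finset.sum_congr rfl fun a _ => by ring
  · simp

lemma fs_le (hB : Bas) (h : O) (Φ : O → ℂ) (k : O) : ‖fs h Φ k‖ ≤ ∑ a ∈ Rs h, ‖Φ a‖ := by
  refine norm_sum_le_of_le _ fun a _ => ?_
  rw [norm_mul, eQ, hB.b1.norm_psi, mul_one]

lemma summW (hb : BB) {σ : ℝ} (hs : 1 < σ) {w : O → ℝ} {M : ℝ} (h0 : ∀ k, 0 ≤ w k)
    (h1 : ∀ k, w k ≤ M) : Summable fun k => ‖bb k‖ * N k ^ (-(1 / 2 + σ)) * w k :=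
  ((summ_DD hb hs).mul_right M).of_nonneg_of_le
    (fun k => by have := N0 k; have := h0 k; positivity)
    fun k => mul_le_mul_of_nonneg_left (h1 k) (by have := N0 k; positivity)

lemma DP_le2 (hB : Bas) (hb : BB) (J : ℤ) (r h : O) (Φ : O → ℂ) {s : ℂ} (hs : 1 < s.re) :
    ‖DP J r h Φ s‖ ≤ ∑' k, ‖bb k‖ * N k ^ (-(1 / 2 + s.re)) * ‖fs h Φ k‖ := by
  rw [DP_eq hB hb J r h Φ hs]
  refine tsum_of_norm_bounded (summW hb hs (fun k => norm_nonneg _) (fs_le hB h Φ)).hasSum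
    fun k => ?_
  have := N0 k
  split_ifs
  · rw [norm_mul, norm_mul, norm_mul,
      Complex.norm_cpow_eq_rpow_re_of_nonneg this (by simp; linarith)]
    have e : (-(1 / 2 + s)).re = -(1 / 2 + s.re) := by simp
    rw [e]
    calc _ ≤ ‖bb k‖ * 1 * ‖fs h Φ k‖ * N k ^ (-(1 / 2 + s.re)) := by
          gcongr; exact norm_ang _ _
      _ = _ := by ring
  · rw [norm_zero]; positivity

def q : ℝ := 3 ^ (-1 / 4 : ℝ)
lemma q0 : 0 ≤ q := by unfold q; positivity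
lemma q1 : q < 1 := Real.rpow_lt_one_of_one_lt_of_neg (by norm_num) (by norm_num)

lemma n3n {s : ℂ} (hs : s.re < 0) (n : ℕ) : ‖(3 : ℂ) ^ (n * (s - 1 / 2))‖ ≤ q ^ n := by
  have e : ((n : ℂ) * (s - 1 / 2)).re = (s.re - 1 / 2) * n := by simp; ring
  rw [n3, e, Real.rpow_mul_natCast (by norm_num)]
  exact pow_le_pow_left₀ (by positivity)
    (Real.rpow_le_rpow_of_exponent_le (by norm_num) (by linarith)) n

lemma n3v {s : ℂ} (hs : s.re < 0) (v : ℕ) : ‖(3 : ℂ) ^ (v * (2 * s - 1))‖ ≤ 1 := by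
  have e : ((v : ℂ) * (2 * s - 1)).re = v * (2 * s.re - 1) := by simp
  rw [n3, e]
  exact Real.rpow_le_one_of_one_le_of_nonpos (by norm_num)
    (mul_nonpos_of_nonneg_of_nonpos (Nat.cast_nonneg _) (by linarith))

lemma summ_QQ (hB : Bas) (hb : BB) (J : ℤ) (h m : O) {B : ℕ → ℕ → O → O → ℂ} {K : ℝ}
    (hK : ∀ n v e r', ‖B n v e r'‖ ≤ K) {s : ℂ} (hs : s.re < 0) : Summable (QQ J h m B s) := by
  refine summable_sum fun v _ => summable_sum fun e _ => summable_sum fun r' _ => ?_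
  refine .of_norm_bounded ((summable_geometric_of_lt_one q0 q1).mul_left (K * DD (1 - s).re))
    fun n => ?_
  have h1 := Ds_le hB hb J r' h (e * lam ^ (2 * v + n) * m) (s := 1 - s) (by simp; linarith)
  have h2 := n3v hs v
  have h3 := hK n v e r'
  have h4 := (norm_nonneg _).trans h3
  have h5 := n3n hs n
  have h6 := pow_nonneg q0 n
  rw [norm_mul, norm_mul, norm_mul]
  calc _ ≤ K * q ^ n * 1 * DD (1 - s).re := by gcongr
    _ = _ := by ring

def SK : ℝ := ∑' n : ℕ, ∑ _v ∈ Finset.range 7, ∑ _e ∈ U6, ∑ _r ∈ Rs 27, q ^ n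

lemma SK_summ : Summable fun n : ℕ => ∑ _v ∈ Finset.range 7, ∑ _e ∈ U6, ∑ _r ∈ Rs 27, q ^ n :=
  summable_sum fun _ _ => summable_sum fun _ _ => summable_sum fun _ _ =>
    summable_geometric_of_lt_one q0 q1

lemma SK0 : 0 ≤ SK := tsum_nonneg fun n => by have := q0; positivity

lemma dualb (hB : Bas) (hb : BB) {h : O} {Ψ : O → ℂ} (hC : Cf h Ψ) {b : O → O}
    (hb' : ∀ a, IsCoprime a h → h ∣ lam ^ 18 * a * b a - 1) {B : ℕ → ℕ → O → O → ℂ} {K : ℝ}
    (hK : ∀ n v e r', ‖B n v e r'‖ ≤ K) (i : ℕ) {s : ℂ} (hs : s.re < 0) {M : ℝ}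
    (hM : DW h Ψ (1 - s.re) M) :
    ‖∑ a ∈ Rs h, Ψ a * cub a h * ∑' n : ℕ, QQ 0 h (b a * lam ^ i) B s n‖ ≤ K * M * SK := by
  simp only [← tsum_mul_left]
  rw [← Summable.tsum_finsetSum fun a _ => (summ_QQ hB hb 0 h _ hK hs).mul_left _, SK,
    ← tsum_mul_left]
  refine tsum_of_norm_bounded (SK_summ.mul_left _).hasSum fun n => ?_
  simp only [QQ, Finset.mul_sum]
  rw [sum4]
  refine norm_sum_le_of_le _ fun v _ => norm_sum_le_of_le _ fun e he =>
    norm_sum_le_of_le _ fun r' _ => ?_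
  have e1 : ∑ a ∈ Rs h, Ψ a * cub a h * (B n v e r' * 3 ^ (n * (s - 1 / 2)) *
      3 ^ (v * (2 * s - 1)) * Ds 0 r' h (e * lam ^ (2 * v + n) * (b a * lam ^ i)) (1 - s)) =
      B n v e r' * 3 ^ (n * (s - 1 / 2)) * 3 ^ (v * (2 * s - 1)) *
        DP 0 r' h (dl h Ψ (e * lam ^ (2 * v + n + i))) (1 - s) := by
    rw [dl_sum hB 0 _ hC hb', Finset.mul_sum]
    refine Finset.sum_congr rfl fun a _ => ?_
    rw [show e * lam ^ (2 * v + n) * (b a * lam ^ i) = e * lam ^ (2 * v + n + i) * b a by ring]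
    ring
  have h1 := (DP_le2 hB hb 0 r' h (dl h Ψ (e * lam ^ (2 * v + n + i))) (s := 1 - s)
    (by simp; linarith)).trans (by simpa using hM e (2 * v + n + i) ((hB.b1.units e).2 he))
  have h2 := n3v hs v
  have h3 := hK n v e r'
  have h4 := (norm_nonneg _).trans h3
  have h5 := n3n hs n
  have h6 := pow_nonneg q0 n
  rw [e1, norm_mul, norm_mul, norm_mul]
  calc _ ≤ K * q ^ n * 1 * M := by gcongr
    _ = _ := by ring

lemma geo {z : ℂ} (hz : ‖z‖ ≤ q) {m : ℕ} (hm : 0 < m) :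
    1 - z ^ m ≠ 0 ∧ ∀ (G : ℕ → ℂ) (A : ℝ), (∀ i < m, ‖G i‖ ≤ A) →
      ‖(1 - z ^ m)⁻¹ * ∑ i ∈ Finset.range m, z ^ i * G i‖ ≤ (1 - q)⁻¹ * (1 - q)⁻¹ * A := by
  have a0 : 0 < 1 - q := by linarith [q1]
  have a1 : 1 - q ≤ ‖1 - z ^ m‖ := by
    have b1 : ‖z ^ m‖ ≤ q := by
      rw [norm_pow]
      exact (pow_le_pow_left₀ (norm_nonneg _) hz m).trans (pow_le_of_le_one q0 q1.le hm.ne')
    have := norm_sub_norm_le (1 : ℂ) (z ^ m)
    rw [norm_one] at this
    linarith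
  refine ⟨norm_pos_iff.1 (a0.trans_le a1), fun G A hA => ?_⟩
  have A0 : 0 ≤ A := (norm_nonneg _).trans (hA 0 hm)
  rw [norm_mul, norm_inv, mul_assoc]
  refine mul_le_mul (inv_anti₀ a0 a1) ?_ (norm_nonneg _) (by positivity)
  rw [← tsum_geometric_of_lt_one q0 q1]
  refine le_trans (norm_sum_le_of_le _ (n := fun i => q ^ i * A) fun i hi => ?_) ?_
  · rw [norm_mul, norm_pow]
    exact mul_le_mul (pow_le_pow_left₀ (norm_nonneg _) hz i) (hA i (Finset.mem_range.1 hi))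
      (norm_nonneg _) (pow_nonneg q0 _)
  · rw [← Finset.sum_mul]
    exact mul_le_mul_of_nonneg_right ((summable_geometric_of_lt_one q0 q1).sum_le_tsum _
      fun i _ => pow_nonneg q0 _) A0

lemma order (hB : Bas) {h : O} (hh : Prim h) : ∃ (l : O) (m : ℕ), 0 < m ∧ h ∣ lam * l - 1 ∧
    h ∣ l ^ m - 1 := by
  have h0 := hB.b2.ne h hh
  have cl : IsCoprime lam h :=
    (hB.b1.prime_lam.irreducible.coprime_iff_not_dvd).2 ((hB.b2.cop_iff h).1 (hB.b2.cop h hh))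
  obtain ⟨l, l', hl⟩ := cl
  choose f f1 f2 using fun i : ℕ => hB.b4.ex h (l ^ i) h0
  obtain ⟨i, j, ij, e⟩ := Finite.exists_ne_map_eq_of_infinite
    (fun i : ℕ => (⟨f i, f1 i⟩ : {x // x ∈ Rs h}))
  have e' : f i = f j := congrArg Subtype.val e
  have cl : IsCoprime h l := ⟨l', lam, by linear_combination hl⟩
  have key : ∀ i j : ℕ, i < j → f i = f j → h ∣ l ^ (j - i) - 1 := fun i j ij e => by
    refine (cl.pow_right (n := i)).dvd_of_dvd_mul_left ?_
    have := (f2 j).sub (f2 i)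
    rw [e, sub_sub_sub_cancel_right] at this
    rwa [mul_sub, ← pow_add, Nat.add_sub_cancel' ij.le, mul_one]
  have h1 : h ∣ lam * l - 1 := ⟨-l', by linear_combination hl⟩
  rcases lt_or_gt_of_ne ij with c | c
  · exact ⟨l, j - i, by omega, h1, key i j c e'⟩
  · exact ⟨l, i - j, by omega, h1, key j i c e'.symm⟩

end ACM

open ACM in
theorem ac2S (hB : Bas) (hb : BB) (hF : FEStmt) : AC2Stmt := by
  obtain ⟨K, hF⟩ := hF
  have a0 : 0 < 1 - q := by linarith [q1]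
  have main : ∀ r h : O, ∃ ρ : ℂ, ∀ Ψ : O → ℂ, Cf h Ψ →
      ∃ F : ℂ → ℂ, DifferentiableOn ℂ F {s | s.re < 3 / 2} ∧
      (∀ a : ℝ, ∃ C : ℝ, ∀ s : ℂ, a ≤ s.re → s.re ≤ 5 / 4 → ‖F s‖ ≤ C * Real.exp (8 * |s.im|)) ∧
      F (5 / 6) = ρ * ∑ a ∈ Rs h, Ψ a * cub a h ∧
      (∀ s : ℂ, 1 < s.re → s.re < 3 / 2 → F s = (s - 5 / 6) * DP 0 r h Ψ s) ∧
      ∀ (M : ℝ) (s : ℂ), DW h Ψ (1 - s.re) M → s.re < 0 →
        ‖F s‖ ≤ (1 - q)⁻¹ * (1 - q)⁻¹ * (max K 0 * SK) * M *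
          (‖s - 5 / 6‖ * ‖gg s‖ * N h ^ (1 - 2 * s.re) * 3 ^ (-18 * s.re)) := by
    intro r h
    by_cases hh : Prim h
    swap
    · exact ⟨0, fun Ψ hC => absurd hC.1 hh⟩
    by_cases hr : Prim r
    swap
    · refine ⟨0, fun Ψ hC => ⟨0, differentiableOn_const _, fun a => ⟨0, fun s _ _ => by simp⟩,
        by simp, fun s h1 _ => ?_, fun M s hM _ => ?_⟩⟩
      · rw [DP_eq hB hb 0 r h Ψ h1, tsum_congr (g := fun _ => 0), tsum_zero, mul_zero, Pi.zero_apply]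
        intro k
        split_ifs with c
        · rw [bb0 hB hb (k := k)]
          · simp
          · intro hk
            refine hr ?_
            have e : r - 1 = (k - 1) - (k - r) := by ring
            unfold Prim at hk ⊢
            rw [e]
            exact dvd_sub hk (dvd_trans ⟨9, by norm_num⟩ c)
        · rfl
      · have M0 : 0 ≤ M := le_trans (tsum_nonneg fun k => by have := N0 k; positivity)
          (hM 1 0 isUnit_one)
        have := N0 h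
        have := SK0
        rw [Pi.zero_apply, norm_zero]
        positivity
    obtain ⟨θ, ρ, B, hθ, hK, hR⟩ := hF r h hr hh
    have hK' : ∀ n v e r', ‖B n v e r'‖ ≤ max K 0 := fun n v e r' =>
      (hK n v e r').trans (le_max_left _ _)
    have c3 := hB.b2.cop h hh
    obtain ⟨l, m, hm, hl1, hlm⟩ := order hB hh
    have hli : ∀ i : ℕ, h ∣ (lam * l) ^ i - 1 := fun i =>
      hl1.trans (by simpa using sub_dvd_pow_sub_pow (lam * l) 1 i)
    have cl : IsCoprime lam h :=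
      (hB.b1.prime_lam.irreducible.coprime_iff_not_dvd).2 ((hB.b2.cop_iff h).1 c3)
    have hbe : ∀ a : O, ∃ b, IsCoprime a h → h ∣ lam ^ 18 * a * b - 1 := fun a => by
      by_cases c : IsCoprime a h
      · obtain ⟨x, y, hxy⟩ := (IsCoprime.pow_left (m := 18) cl).mul_left c
        exact ⟨x, fun _ => ⟨-y, by linear_combination hxy⟩⟩
      · exact ⟨0, fun d => absurd d c⟩
    choose b hb' using hbe
    have hRe : ∀ (i : ℕ) (a : O), ∃ R : ℂ → ℂ, Differentiable ℂ R ∧ Gr8 R ∧ (IsCoprime a h →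
        R (5 / 6) = ρ * (cub a h * cub l h ^ i) ∧
        (∀ s : ℂ, 1 < s.re → R s = (s - 5 / 6) * (Ds 0 r h (a * l ^ i) s -
          θ * 3 ^ (s - 3 / 2) * Ds 0 r h (a * l ^ (i + 1)) s)) ∧
        ∀ s : ℂ, s.re < 0 → R s = (s - 5 / 6) * (gg s * (N h : ℂ) ^ (1 - 2 * s) * 3 ^ (-18 * s) *
          (cub a h * cub l h ^ i) * ∑' n : ℕ, QQ 0 h (b a * lam ^ i) B s n)) := fun i a => by
      by_cases c : IsCoprime a h
      · obtain ⟨R, h1, h2, h5, h3, h4⟩ := hR (a * l ^ i) (a * l ^ (i + 1)) (b a * lam ^ i)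
          (by
            have e : lam * (a * l ^ (i + 1)) - a * l ^ i = a * l ^ i * (lam * l - 1) := by ring
            rw [e]; exact hl1.mul_left _)
          (by
            have e : lam ^ 18 * (a * l ^ i) * (b a * lam ^ i) - 1 =
              lam ^ 18 * a * b a * ((lam * l) ^ i - 1) + (lam ^ 18 * a * b a - 1) := by ring
            rw [e]; exact dvd_add ((hli i).mul_left _) (hb' a c))
        rw [hB.b6.mul_l _ _ _ c3, hB.b6.pow_l _ _ _ c3] at h5 h4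
        exact ⟨R, h1, h2, fun _ => ⟨h5, h3, h4⟩⟩
      · exact ⟨0, differentiable_const _, fun _ _ => ⟨0, fun _ _ _ => by simp⟩, fun d => absurd d c⟩
    choose R R1 R2 R3 using hRe
    have zq : ∀ s : ℂ, s.re ≤ 5 / 4 → ‖θ * 3 ^ (s - 3 / 2)‖ ≤ q := fun s hs => by
      rw [norm_mul, hθ, one_mul, n3]
      exact Real.rpow_le_rpow_of_exponent_le (by norm_num) (by simp; linarith)
    have zne : ∀ s : ℂ, s.re < 3 / 2 → 1 - (θ * 3 ^ (s - 3 / 2)) ^ m ≠ 0 := fun s hs e => by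
      have : ‖(θ * 3 ^ (s - 3 / 2)) ^ m‖ < 1 := by
        rw [norm_pow, norm_mul, hθ, one_mul, n3]
        exact pow_lt_one₀ (by positivity)
          (Real.rpow_lt_one_of_one_lt_of_neg (by norm_num) (by simp; linarith)) hm.ne'
      rw [← sub_eq_zero.1 e, norm_one] at this
      exact lt_irrefl _ this
    have zd : Differentiable ℂ fun s : ℂ => θ * 3 ^ (s - 3 / 2) :=
      (Differentiable.const_cpow (by fun_prop) (Or.inl (by norm_num))).const_mul _
    refine ⟨(1 - (θ * 3 ^ ((5 / 6 : ℂ) - 3 / 2)) ^ m)⁻¹ * ∑ i ∈ Finset.range m,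
      (θ * 3 ^ ((5 / 6 : ℂ) - 3 / 2)) ^ i * (ρ * cub l h ^ i), fun Ψ hC =>
      ⟨fun s => (1 - (θ * 3 ^ (s - 3 / 2)) ^ m)⁻¹ * ∑ i ∈ Finset.range m,
        (θ * 3 ^ (s - 3 / 2)) ^ i * ∑ a ∈ Rs h, Ψ a * R i a s, ?_, fun a => ?_, ?_,
        fun s h1 h2 => ?_, fun M s hM hs => ?_⟩⟩
    · refine DifferentiableOn.mul (DifferentiableOn.inv
        ((zd.pow m).const_sub 1).differentiableOn zne) (Differentiable.differentiableOn ?_)
      exact Differentiable.fun_sum fun i _ => (zd.pow i).mul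
        (Differentiable.fun_sum fun a _ => (R1 i a).const_mul _)
    · choose C hC using fun i x => R2 i x a (5 / 4)
      refine ⟨(1 - q)⁻¹ * (1 - q)⁻¹ * ∑ i ∈ Finset.range m, ∑ x ∈ Rs h, ‖Ψ x‖ * |C i x|,
        fun s h1 h2 => ?_⟩
      rw [mul_assoc _ _ (Real.exp _)]
      refine (geo (zq s h2) hm).2 _ _ fun i hi => ?_
      refine le_trans ?_ (mul_le_mul_of_nonneg_right (Finset.single_le_sum
        (f := fun i => ∑ x ∈ Rs h, ‖Ψ x‖ * |C i x|) (fun _ _ => by positivity)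
        (Finset.mem_range.2 hi)) (Real.exp_pos _).le)
      rw [Finset.sum_mul]
      refine norm_sum_le_of_le _ fun x _ => ?_
      rw [norm_mul, mul_assoc]
      exact mul_le_mul_of_nonneg_left ((hC i x s h1 h2).trans
        (mul_le_mul_of_nonneg_right (le_abs_self _) (Real.exp_pos _).le)) (norm_nonneg _)
    · beta_reduce
      rw [mul_assoc, Finset.sum_mul]
      congr 1
      refine Finset.sum_congr rfl fun i _ => ?_
      rw [mul_assoc]
      congr 1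
      rw [Finset.mul_sum]
      refine Finset.sum_congr rfl fun x _ => ?_
      by_cases c : IsCoprime x h
      · rw [(R3 i x c).1]; ring
      · simp [hC.2.2 x c]
    · beta_reduce
      have e : ∀ i, (θ * 3 ^ (s - 3 / 2)) ^ i * ∑ a ∈ Rs h, Ψ a * R i a s =
          (θ * 3 ^ (s - 3 / 2)) ^ i * ((s - 5 / 6) * ∑ a ∈ Rs h, Ψ a * Ds 0 r h (a * l ^ i) s) -
          (θ * 3 ^ (s - 3 / 2)) ^ (i + 1) *
            ((s - 5 / 6) * ∑ a ∈ Rs h, Ψ a * Ds 0 r h (a * l ^ (i + 1)) s) := fun i => by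
        simp only [Finset.mul_sum, ← Finset.sum_sub_distrib]
        refine Finset.sum_congr rfl fun x _ => ?_
        by_cases c : IsCoprime x h
        · rw [(R3 i x c).2.1 s h1]; ring
        · simp [hC.2.2 x c]
      have e2 : ∀ x, Ds 0 r h (x * l ^ m) s = Ds 0 r h x s := fun x =>
        Ds_per hB 0 r (by simpa [mul_sub] using hlm.mul_left x) s
      simp only [e]
      rw [Finset.sum_range_sub' (fun i => (θ * 3 ^ (s - 3 / 2)) ^ i *
        ((s - 5 / 6) * ∑ a ∈ Rs h, Ψ a * Ds 0 r h (a * l ^ i) s)),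
        inv_mul_eq_iff_eq_mul₀ (zne s h2)]
      simp only [e2, pow_zero, mul_one, DP]
      ring
    · have hN : 0 < N h := lt_of_lt_of_le one_pos (hB.b1.N_one_le h (hB.b2.ne h hh))
      beta_reduce
      rw [mul_assoc _ M, mul_assoc (_ * _)]
      refine (geo (zq s (by linarith)) hm).2 _ _ fun i _ => ?_
      have e : ∑ a ∈ Rs h, Ψ a * R i a s = ((s - 5 / 6) * gg s * (N h : ℂ) ^ (1 - 2 * s) *
          3 ^ (-18 * s)) * (cub l h ^ i *
            ∑ a ∈ Rs h, Ψ a * cub a h * ∑' n : ℕ, QQ 0 h (b a * lam ^ i) B s n) := by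
        simp only [Finset.mul_sum]
        refine Finset.sum_congr rfl fun x _ => ?_
        by_cases c : IsCoprime x h
        · rw [(R3 i x c).2.2 s hs]; ring
        · simp [hC.2.2 x c]
      have e1 : (1 - 2 * s).re = 1 - 2 * s.re := by simp
      have e2 : (-18 * s).re = -18 * s.re := by simp
      have d := dualb hB hb hC hb' hK' i hs hM
      have d1 : ‖cub l h ^ i‖ ≤ 1 := by
        rw [norm_pow]; exact pow_le_one₀ (norm_nonneg _) (hB.b6.norm_le _ _)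
      rw [e, norm_mul, norm_mul, norm_mul, norm_mul, norm_mul,
        Complex.norm_cpow_eq_rpow_re_of_pos hN, n3, e1, e2]
      calc _ ≤ ‖s - 5 / 6‖ * ‖gg s‖ * N h ^ (1 - 2 * s.re) * 3 ^ (-18 * s.re) *
            (1 * (max K 0 * M * SK)) := by gcongr
        _ = _ := by ring
  choose ρ hρ using main
  exact ⟨ρ, _, by have := SK0; positivity, hρ⟩

open ACM in
theorem acS (hB : Bas) (hb : BB) (hF : FEStmt) : ACStmt := by
  obtain ⟨ρ, K, hK, H⟩ := ac2S hB hb hF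
  refine ⟨ρ, K * DD (3 / 2), mul_nonneg hK (DD0 _), fun r h Ψ hC => ?_⟩
  obtain ⟨F, h1, h2, h3, h4, h5⟩ := H r h Ψ hC
  refine ⟨F, h1, h2, h3, h4, fun M s hM hs => ?_⟩
  rw [mul_assoc K]
  refine h5 _ s (fun e n he => ?_) (by linarith)
  rw [DD, ← tsum_mul_right]
  refine (summW hb (by linarith) (fun k => norm_nonneg _) (fs_le hB h _)).tsum_le_tsum
    (fun k => ?_) ((summ_DD hb (by norm_num)).mul_right M)
  by_cases hk : Prim k
  · have := hB.b1.N_one_le k (hB.b2.ne k hk)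
    exact mul_le_mul (mul_le_mul_of_nonneg_left (Real.rpow_le_rpow_of_exponent_le this
      (by linarith)) (norm_nonneg _)) (hM e n k he hk) (norm_nonneg _) (by positivity)
  · simp [bb0 hB hb hk]

end Vale.Agent.P026.Z
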