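import Vale.Agent.P026.M.VIa

/-! P006 branch A: the theta functional equation for angular mode zero, with its pole. -/

noncomputable section
open Complex MeasureTheory Filter Topology
open scoped Classical ComplexConjugate

namespace Vale.Agent.P026.Z

/-- the theta identity with constant term `cub a h * k` -/
def ThId (r h : O) (ν : ℕ → O → O → O → O → ℂ) (β1 β2 : ℂ → ℂ) (k : ℂ) : Prop := ∀ a a2 : O,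
  (729 : O) ∣ a → h ∣ lam ^ 18 * a * a2 - 1 →
  Theta (nu0 r) (toC (lam ^ 6 * a) / toC h) (K0 β1 β2) = (∑ v ∈ Finset.range 7, ∑ e ∈ U6,
    cub (e * lam ^ (6 - v) * a) h *
      Theta (ν v e) (-(toC (729 * lam ^ (2 * v) * e ^ 4 * a2) / toC h))
        (K0 (fun C => β2 (C / muC v e h)) (fun E => β1 (-(muC v e h * E))))) + cub a h * k

/-- the Gaussian -/
def G0 (z : ℂ) : ℂ := cexp (-(‖z‖ ^ 2 : ℝ))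

def TH1Stmt : Prop := ∀ (r h : O) (ν : ℕ → O → O → O → O → ℂ), Prim r → Prim h →
  (∀ v < 7, ∀ e ∈ U6, InvP r v e h (ν v e)) → ∃ c : ℂ, ∀ y : ℝ, 0 < y →
  ThId r h ν G0 (fun E => G0 (E / y)) (c * ((y ^ (2 / 3 : ℝ) : ℝ) : ℂ))

def KGStmt : Prop := ∀ m1 m2 d : ℂ, m1 ≠ 0 → m2 ≠ 0 → d ≠ 0 →
  K0 (fun C => G0 (C / m1)) (fun E => G0 (E / m2)) d =
    ((Real.pi * ‖d‖ ^ (2 / 3 : ℝ) * ‖m1‖ ^ (2 / 3 : ℝ) * ‖m2‖ ^ 2 *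
      (kk (‖d‖ * ‖m2‖ / (729 * ‖m1‖)) / (‖d‖ * ‖m2‖ / (729 * ‖m1‖))) : ℝ) : ℂ)

def Th {ι : Type} (A : ι → ℂ) (x : ι → ℝ) (y : ℝ) : ℂ :=
  ∑' i, A i * ((x i ^ (-1 / 3 : ℝ) * (kk (y * x i) / (y * x i)) : ℝ) : ℂ)

/-- gamma factor -/
def gg (s : ℂ) : ℂ := (sg : ℂ) ^ (2 * s - 1) * (Gamma (5 / 6 - s) * Gamma (7 / 6 - s)) *
  ((Gamma (s - 1 / 6))⁻¹ * (Gamma (s + 1 / 6))⁻¹)

structure GAM : Prop where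
  diff : DifferentiableOn ℂ gg {s | s.re < 5 / 6}
  half : ∀ t : ℝ, ‖gg (1 / 2 + t * I)‖ ≤ 1
  ln : ∀ n : ℕ, ∃ C : ℝ, ∀ t : ℝ, ‖gg (1 / 2 - n + t * I)‖ ≤ C * (1 + |t|) ^ (4 * n)

/-- exponential growth in vertical strips -/
def Gr8 (R : ℂ → ℂ) : Prop :=
  ∀ a b : ℝ, ∃ C : ℝ, ∀ s : ℂ, a ≤ s.re → s.re ≤ b → ‖R s‖ ≤ C * Real.exp (8 * |s.im|)

def MELStmt : Prop := ∃ c : ℂ, ∀ (ι ι' : Type) [Countable ι] [Countable ι'] (A : ι → ℂ) (x : ι → ℝ)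
  (A' : ι' → ℂ) (x' : ι' → ℝ) (k : ℂ), (∀ i, 0 < x i) → (∀ i, 0 < x' i) →
  (∀ σ : ℝ, 1 < σ → Summable fun i => ‖A i‖ * x i ^ (-2 * σ)) →
  (∀ σ : ℝ, 1 < σ → Summable fun i => ‖A' i‖ * x' i ^ (-2 * σ)) →
  (∀ y : ℝ, 0 < y → Th A x y = ((y ^ (-4 / 3 : ℝ) : ℝ) : ℂ) * (Th A' x' y⁻¹ + k)) →
  ∃ F : ℂ → ℂ, Differentiable ℂ F ∧ Gr8 F ∧ F (5 / 6) = c * k ∧
    (∀ s : ℂ, 1 < s.re → F s = (s - 5 / 6) * Dir A x s) ∧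
    ∀ s : ℂ, s.re < 0 → F s = (s - 5 / 6) * (gg s * Dir A' x' (1 - s))

def FEStmt : Prop := ∃ K : ℝ, ∀ r h : O, Prim r → Prim h →
  ∃ (θ ρ : ℂ) (B : ℕ → ℕ → O → O → ℂ), ‖θ‖ = 1 ∧ (∀ n v e r', ‖B n v e r'‖ ≤ K) ∧
  ∀ a a1 a2 : O, h ∣ lam * a1 - a → h ∣ lam ^ 18 * a * a2 - 1 →
  ∃ F : ℂ → ℂ, Differentiable ℂ F ∧ Gr8 F ∧ F (5 / 6) = ρ * cub a h ∧
    (∀ s : ℂ, 1 < s.re →
      F s = (s - 5 / 6) * (Ds 0 r h a s - θ * 3 ^ (s - 3 / 2) * Ds 0 r h a1 s)) ∧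
    ∀ s : ℂ, s.re < 0 → F s = (s - 5 / 6) * (gg s * (N h : ℂ) ^ (1 - 2 * s) * 3 ^ (-18 * s) * cub a h *
      ∑' n : ℕ, ∑ v ∈ Finset.range 7, ∑ e ∈ U6, ∑ r' ∈ Rs 27,
        B n v e r' * 3 ^ (n * (s - 1 / 2)) * 3 ^ (v * (2 * s - 1)) *
          Ds 0 r' h (e * lam ^ (2 * v + n) * a2) (1 - s))

/-- `M` bounds the dual functions -/
def DB (h : O) (Ψ : O → ℂ) (M : ℝ) : Prop :=
  ∀ (e : O) (n : ℕ) (D : O), IsUnit e → Prim D → ‖fs h (dl h Ψ (e * lam ^ n)) D‖ ≤ M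

/-- continuation of `(s - 5/6) * DP 0 r h Ψ s` -/
def ACStmt : Prop := ∃ (ρ : O → O → ℂ) (K : ℝ), 0 ≤ K ∧ ∀ (r h : O) (Ψ : O → ℂ), Cf h Ψ →
  ∃ F : ℂ → ℂ, DifferentiableOn ℂ F {s | s.re < 3 / 2} ∧
    (∀ a : ℝ, ∃ C : ℝ, ∀ s : ℂ, a ≤ s.re → s.re ≤ 5 / 4 → ‖F s‖ ≤ C * Real.exp (8 * |s.im|)) ∧
    F (5 / 6) = ρ r h * ∑ a ∈ Rs h, Ψ a * cub a h ∧
    (∀ s : ℂ, 1 < s.re → s.re < 3 / 2 → F s = (s - 5 / 6) * DP 0 r h Ψ s) ∧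
    ∀ (M : ℝ) (s : ℂ), DB h Ψ M → s.re ≤ -1 / 2 →
      ‖F s‖ ≤ K * M * (‖s - 5 / 6‖ * ‖gg s‖ * N h ^ (1 - 2 * s.re) * 3 ^ (-18 * s.re))

/-- crossing the pole -/
def RESStmt : Prop := ∃ κ : ℂ, ∀ (F : ℂ → ℂ) (a C : ℝ), a ≤ -1 / 2 → DifferentiableOn ℂ F {s | s.re < 3 / 2} →
  (∀ s : ℂ, a ≤ s.re → s.re ≤ 5 / 4 → ‖F s‖ ≤ C * Real.exp (-|s.im|)) →
  ∫ t : ℝ, F ((5 / 4 : ℝ) + t * I) / ((5 / 4 : ℝ) + t * I - 5 / 6) =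
    (∫ t : ℝ, F (a + t * I) / (a + t * I - 5 / 6)) + κ * F (5 / 6)

/-- Voronoi: main term and a bound for the rest -/
def VIAStmt : Prop := ∃ ρ : O → O → ℂ, ∀ A : ℕ, 1 ≤ A → ∃ C : ℝ, 0 ≤ C ∧
  ∀ (r h : O) (Ψ : O → ℂ) (Y t0 M : ℝ), Cf h Ψ → 0 < Y → DB h Ψ M →
  ‖TT 0 r (fs h Ψ) Y (1 / 2 + t0 * I) -
      ρ r h * (∑ a ∈ Rs h, Ψ a * cub a h) * VIM.EW Y t0 (5 / 6)‖ ≤
    C * M * (N h ^ 2 * (1 + |t0|) ^ 4 / Y) ^ A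

end Vale.Agent.P026.Z
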