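import Vale.Agent.P026.M.FE
import Vale.Agent.P006.A.Stm

/-! P006 branch A: the functional equation with its pole. -/

noncomputable section
open Complex MeasureTheory Filter Topology
open scoped Classical ComplexConjugate

namespace Vale.Agent.P026.Z

namespace FEZ
open FEM

theorem summT0 {ι : Type} {A : ι → ℂ} {x : ι → ℝ} (hx : ∀ i, 0 < x i)
    (h : ∀ σ : ℝ, 1 < σ → Summable fun i => ‖A i‖ * x i ^ (-2 * σ)) {y : ℝ} (hy : 0 < y) :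
    Summable fun i => ‖A i * ((x i ^ (-1 / 3 : ℝ) * (kk (y * x i) / (y * x i)) : ℝ) : ℂ)‖ := by
  obtain ⟨C, hC⟩ := kkS.dec (5 / 3) (by norm_num)
  refine Summable.of_nonneg_of_le (fun _ => norm_nonneg _) (fun i => ?_)
    ((h (3 / 2) (by norm_num)).mul_left (C * y ^ (-(8 / 3) : ℝ)))
  have h0 := hx i
  have h2 := mul_pos hy h0
  have h1 := kkS.nonneg _ h2
  rw [norm_mul, norm_real, Real.norm_of_nonneg (by positivity),
    show (-2 * (3 / 2) : ℝ) = -1 / 3 + -(8 / 3) by norm_num, Real.rpow_add h0]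
  calc _ ≤ ‖A i‖ * (x i ^ (-1 / 3 : ℝ) * (C * (y * x i) ^ (-(5 / 3) : ℝ) / (y * x i))) := by
        gcongr
        exact hC _ h2
    _ = _ := by
      rw [mul_div_assoc, ← Real.rpow_sub_one h2.ne', Real.mul_rpow hy.le h0.le,
        show (-(5 / 3) - 1 : ℝ) = -(8 / 3) by norm_num]
      ring

theorem theta (hB : Bas) (hK : KGStmt)
    (ν : O → O → O → ℂ) (z : ℂ) (m1 m2 w : ℂ) (m y : ℝ)
    (h1 : m1 ≠ 0) (h2 : m2 ≠ 0) (hm : 0 < m) (hy : ‖m2‖ / ‖m1‖ = y / m) :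
    Theta ν z (K0 (fun C => G0 (C / m1)) (fun E => G0 (E / m2))) =
      Real.pi * ((‖m1‖ ^ (2 / 3 : ℝ) * ‖m2‖ ^ 2 * m ^ (-1 / 3 : ℝ) / 9 : ℝ) : ℂ) *
        Th (AA ν z 0 w) (xx m) y := by
  rw [Theta, Th, ← tsum_mul_left]
  refine tsum_congr fun d => ?_
  rw [AA, xx]
  split_ifs with hd
  · simp
  have h3 := norm_pos_iff.2 (toC_ne hB hd)
  have h4 : ‖toC d‖ ^ (2 / 3 : ℝ) =
      ‖toC d‖ * (m ^ (-1 / 3 : ℝ) / 9) * (‖toC d‖ / (729 * m)) ^ (-1 / 3 : ℝ) := by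
    rw [Real.div_rpow h3.le (by positivity), Real.mul_rpow (by norm_num) hm.le,
      show (2 / 3 : ℝ) = 1 + -1 / 3 by norm_num, Real.rpow_add h3, Real.rpow_one,
      show (729 : ℝ) = 9 ^ (3 : ℝ) by norm_num, ← Real.rpow_mul (by norm_num),
      show (3 * (-1 / 3) : ℝ) = -1 by norm_num, Real.rpow_neg_one]
    have := Real.rpow_pos_of_pos hm (-1 / 3 : ℝ)
    field_simp
  rw [hK m1 m2 _ h1 h2 (toC_ne hB hd), h4, ang, zpow_zero,
    show ‖toC d‖ * ‖m2‖ / (729 * ‖m1‖) = y * (‖toC d‖ / (729 * m)) by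
      rw [mul_div_mul_comm, hy]; ring]
  generalize kk (y * (‖toC d‖ / (729 * m))) / (y * (‖toC d‖ / (729 * m))) = q
  push_cast
  ring

theorem feq (hB : Bas) (hb : BB) (hK : KGStmt) (hA1 : AV1Stmt)
    {r h a0 a2 : O} {ν : ℕ → O → O → O → O → ℂ} {c : ℂ} (hh : Prim h)
    (hT : ∀ y : ℝ, 0 < y → ThId r h ν G0 (fun E => G0 (E / y)) (c * ((y ^ (2 / 3 : ℝ) : ℝ) : ℂ)))
    (ha0 : (729 : O) ∣ a0) (ha2 : h ∣ lam ^ 18 * a0 * a2 - 1) (hν1 : ∀ v e, Nu (ν v e))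
    (y : ℝ) (hy : 0 < y) :
    Th (AA (nu0 r) (toC (lam ^ 6 * a0) / toC h) 0 1) (xx 1) y = ((y ^ (-4 / 3 : ℝ) : ℝ) : ℂ) *
      (Th (fun q : {p // p ∈ Finset.range 7 ×ˢ U6} × O =>
        cub (q.1.1.2 * lam ^ (6 - q.1.1.1) * a0) h * (((‖muC q.1.1.1 q.1.1.2 h‖ ^ 2 : ℝ) : ℂ))⁻¹ *
          AA (ν q.1.1.1 q.1.1.2) (-(toC (729 * (lam ^ (2 * q.1.1.1) * q.1.1.2 ^ 4 * a2)) / toC h))
            0 (-(muC q.1.1.1 q.1.1.2 h ^ 2)⁻¹) q.2)
        (fun q => xx (‖muC q.1.1.1 q.1.1.2 h‖ ^ 2) q.2) y⁻¹ + 9 / Real.pi * c * cub a0 h) := by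
  have hy' : (y : ℂ) ≠ 0 := ofReal_ne_zero.2 hy.ne'
  have hp : (Real.pi : ℂ) ≠ 0 := ofReal_ne_zero.2 Real.pi_ne_zero
  have H := hT y hy a0 a2 ha0 ha2
  have h1 := theta hB hK (nu0 r) (toC (lam ^ 6 * a0) / toC h) 1 y 1 1 y one_ne_zero hy'
    one_pos (by simp [hy.le])
  simp only [div_one] at h1
  rw [h1] at H
  have hy2 : ((y ^ (2 / 3 : ℝ) : ℝ) : ℂ) = y ^ 2 * ((y ^ (-4 / 3 : ℝ) : ℝ) : ℂ) := by
    rw [show (2 / 3 : ℝ) = (2 : ℕ) + -4 / 3 by norm_num, Real.rpow_add hy, Real.rpow_natCast]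
    push_cast
    ring
  refine mul_left_cancel₀ (a := Real.pi * (y : ℂ) ^ 2 / 9) (by simp [hp, hy']) ?_
  refine Eq.trans (by congr 1; simp [abs_of_pos hy]; ring) (H.trans ?_)
  rw [mul_add, mul_add]
  refine congrArg₂ (· + ·) ?_ (by rw [hy2]; field_simp)
  rw [Th]
  simp only [mul_assoc]
  rw [tsum_fp (Finset.range 7 ×ˢ U6) (fun p d => cub (p.2 * (lam ^ (6 - p.1) * a0)) h *
    ((((‖muC p.1 p.2 h‖ ^ 2 : ℝ) : ℂ))⁻¹ * (AA (ν p.1 p.2)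
      (-(toC (729 * (lam ^ (2 * p.1) * (p.2 ^ 4 * a2))) / toC h)) 0 (-(muC p.1 p.2 h ^ 2)⁻¹) d *
      ((xx (‖muC p.1 p.2 h‖ ^ 2) d ^ (-1 / 3 : ℝ) * (kk (y⁻¹ * xx (‖muC p.1 p.2 h‖ ^ 2) d) /
        (y⁻¹ * xx (‖muC p.1 p.2 h‖ ^ 2) d)) : ℝ) : ℂ))))
    fun p hp => ?_, Finset.sum_product, Finset.mul_sum, Finset.mul_sum]
  · refine Finset.sum_congr rfl fun v _ => ?_
    rw [Finset.mul_sum, Finset.mul_sum]
    refine Finset.sum_congr rfl fun e he => ?_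
    have hμ := mu_ne hB v he hh
    have hm := norm_pos_iff.2 hμ
    have h2 := theta hB hK (ν v e) (-(toC (729 * (lam ^ (2 * v) * (e ^ 4 * a2))) / toC h))
      (muC v e h * y) (-(muC v e h)⁻¹) (-(muC v e h ^ 2)⁻¹) (‖muC v e h‖ ^ 2) y⁻¹
      (mul_ne_zero hμ hy') (by simpa using hμ) (by positivity)
      (by simp [abs_of_pos hy]; field_simp)
    simp only [div_neg, div_inv_eq_mul, ← div_div, mul_comm _ (muC v e h)] at h2
    rw [h2, tsum_mul_left, tsum_mul_left, ← Th]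
    have h3 : ‖muC v e h * y‖ ^ (2 / 3 : ℝ) * ‖-(muC v e h)⁻¹‖ ^ 2 *
        (‖muC v e h‖ ^ 2) ^ (-1 / 3 : ℝ) / 9 =
        y ^ 2 * y ^ (-4 / 3 : ℝ) * (‖muC v e h‖ ^ 2)⁻¹ / 9 := by
      rw [norm_mul, norm_neg, norm_inv, norm_real, Real.norm_of_nonneg hy.le,
        Real.mul_rpow hm.le hy.le, ← Real.rpow_natCast ‖muC v e h‖, ← Real.rpow_mul hm.le,
        ← Real.rpow_natCast y, ← Real.rpow_add hy,
        show ((2 : ℕ) * (-1 / 3) : ℝ) = -(2 / 3) by norm_num, Real.rpow_neg hm.le,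
        show ((2 : ℕ) + -4 / 3 : ℝ) = 2 / 3 by norm_num, Real.rpow_natCast]
      have := Real.rpow_pos_of_pos hm (2 / 3 : ℝ)
      field_simp
    rw [h3]
    push_cast
    ring
  · have hμ := mu_ne hB p.1 (Finset.mem_product.1 hp).2 hh
    have hm : 0 < ‖muC p.1 p.2 h‖ ^ 2 := pow_pos (norm_pos_iff.2 hμ) 2
    simp only [norm_mul (cub _ _), norm_mul ((_ : ℂ)⁻¹)]
    exact ((summT0 (xx_pos hB hm) (summA hB hb hA1 (hν1 _ _) _ _ (by simpa using hμ) hm)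
      (inv_pos.2 hy)).mul_left _).mul_left _

end FEZ

open FEM FEZ in
theorem feS (hB : Bas) (hb : BB) (hI : INV1Stmt) (hT : TH1Stmt) (hK : KGStmt) (hA0 : AV0Stmt)
    (hA1 : AV1Stmt) (hM : MELStmt) : FEStmt := by
  obtain ⟨cM, hM⟩ := hM
  refine ⟨6 * (3 * (2 * 3 ^ 16)), fun r h hr hh => ?_⟩
  obtain ⟨hν0, -, θ, hθ, h6, h5, h0⟩ := hA0 r hr
  have hν : ∀ (v : ℕ) (e : O), ∃ ν, Nu ν ∧ (v < 7 → e ∈ U6 → InvP r v e h ν) := fun v e => by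
    by_cases hc : v < 7 ∧ e ∈ U6
    · obtain ⟨ν, hν⟩ := hI r v e h hr hc.1 ((hB.b1.units e).2 hc.2) hh
      exact ⟨ν, hν.1, fun _ _ => hν⟩
    · exact ⟨nu0 r, hν0, fun h1 h2 => absurd ⟨h1, h2⟩ hc⟩
  choose ν hν1 hν2 using hν
  obtain ⟨c, hc⟩ := hT r h ν hr hh fun v hv e he => hν2 v e hv he
  choose A hA2 hA3 hA4 using fun v e => hA1 (ν v e) (hν1 v e)
  have hl0 := hB.b1.prime_lam.ne_zero
  have hα : ‖ang 0 (toC (lam ^ 6))‖ = 1 := norm_ang 0 (toC_ne hB (pow_ne_zero _ hl0))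
  have hα0 : ang 0 (toC (lam ^ 6)) ≠ 0 := fun h => by
    rw [h, norm_zero] at hα
    exact zero_ne_one hα
  obtain ⟨b, hb'⟩ : ∃ b : ℕ → ℕ → O → O → O → ℂ, ∀ n v e e' r', b n v e e' r' =
      3 * (ang 0 (toC (lam ^ 6)))⁻¹ * cub (e * lam ^ (6 - v)) h * A v e e' n r' *
        ang 0 (toC (e' * lam ^ n) * -(muC v e h ^ 2)⁻¹) := ⟨_, fun _ _ _ _ _ => rfl⟩
  have hbn : ∀ n v e e' r', ‖b n v e e' r'‖ ≤ 3 * (2 * 3 ^ 16) := fun n v e e' r' => by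
    rw [hb', norm_mul, norm_mul, norm_mul, norm_mul, norm_inv, hα]
    calc _ ≤ ‖(3 : ℂ)‖ * 1⁻¹ * 1 * (2 * 3 ^ 16) * 1 := by
          gcongr
          exacts [hB.b6.norm_le _ _, hA2 _ _ _ _ _, VIM.norm_ang _ _]
      _ = _ := by simp
  refine ⟨θ * ang 0 (toC (lam ^ 5)) / ang 0 (toC (lam ^ 6)),
    cM * (9 / Real.pi * c) / (ang 0 (toC (lam ^ 6)) * 3 ^ (11 + 6 * (5 / 6 : ℂ))),
    fun n v e r' => ∑ e1 ∈ U6, b n v e1 (-(e * e1 ^ 2)) r', ?_, fun n v e r' => ?_,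
    fun a a1 a2 ha1 ha2 => ?_⟩
  · rw [norm_div, norm_mul, hθ, hα, norm_ang 0 (toC_ne hB (pow_ne_zero _ hl0))]
    simp
  · refine (norm_sum_le_of_le _ fun e1 _ => hbn _ _ _ _ _).trans ?_
    rw [Finset.sum_const, nsmul_eq_mul]
    gcongr
    exact_mod_cast Finset.card_le_six
  obtain ⟨x, y, hxy⟩ := (hB.b2.cop h hh).pow_right (n := 6)
  have ha0 : (729 : O) ∣ 729 * y * a := ⟨y * a, by ring⟩
  have ha : h ∣ 729 * y * a - a := ⟨-x * a, by linear_combination a * hxy⟩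
  generalize 729 * y * a = a0 at ha0 ha
  have hmp : ∀ v, ∀ e ∈ U6, 0 < ‖muC v e h‖ ^ 2 := fun v e he =>
    pow_pos (norm_pos_iff.2 (mu_ne hB v he hh)) 2
  have hw : ∀ v, ∀ e ∈ U6, -(muC v e h ^ 2)⁻¹ ≠ 0 := fun v e he => by
    simpa using mu_ne hB v he hh
  have : Countable O := (QuadraticAlgebra.equivProd (-1 : ℤ) (-1)).injective.countable
  obtain ⟨R, hR1, hR2, hR0, hR3, hR4⟩ := hM _ _ _ _ _ _ _ (xx_pos hB one_pos)
    (fun q => xx_pos hB (hmp _ _ (Finset.mem_product.1 q.1.2).2) _)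
    (summA hB hb hA1 hν0 _ 0 one_ne_zero one_pos) (fun σ hσ => by
      refine (summable_prod_of_nonneg fun q => mul_nonneg (norm_nonneg _) (Real.rpow_nonneg
        (xx_pos hB (hmp _ _ (Finset.mem_product.1 q.1.2).2) _).le _)).2
        ⟨fun p => ?_, Summable.of_finite⟩
      have he := (Finset.mem_product.1 p.2).2
      simp only [norm_mul (_ * (_ : ℂ)⁻¹), mul_assoc ‖_ * (_ : ℂ)⁻¹‖]
      exact (summA hB hb hA1 (hν1 _ _) _ _ (hw _ _ he) (hmp _ _ he) σ hσ).mul_left _)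
    (FEZ.feq (a2 := a2) hB hb hK hA1 hh hc ha0 (by
      convert dvd_add ha2 (ha.mul_left (lam ^ 18 * a2)) using 1
      ring) hν1)
  have h3 : ∀ s : ℂ, (3 : ℂ) ^ s ≠ 0 := fun s => by rw [cp3]; exact exp_ne_zero _
  refine ⟨fun s => R s / (ang 0 (toC (lam ^ 6)) * 3 ^ (11 + 6 * s)), hR1.div
    (((Differentiable.const_cpow (by fun_prop) (Or.inl three_ne_zero))).const_mul _)
    fun s => mul_ne_zero hα0 (h3 _), fun l u => ?_, ?_, fun s hs => ?_, fun s hs => ?_⟩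
  · obtain ⟨C, hC⟩ := hR2 l u
    refine ⟨C / 3 ^ (11 + 6 * l), fun s h1 h2 => ?_⟩
    have e : ‖(3 : ℂ) ^ (11 + 6 * s)‖ = 3 ^ (11 + 6 * s.re) := by
      simpa using norm_cpow_eq_rpow_re_of_pos (x := 3) (by norm_num) (11 + 6 * s)
    rw [norm_div, norm_mul, hα, one_mul, e, div_mul_eq_mul_div]
    exact div_le_div₀ ((norm_nonneg _).trans (hC s h1 h2)) (hC s h1 h2) (by positivity)
      (Real.rpow_le_rpow_of_exponent_le (by norm_num) (by linarith))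
  · beta_reduce
    rw [hR0, hB.b4.pe_congr h _ a0 a (hB.b6.pe h) ha]
    ring
  · beta_reduce
    rw [hR3 s hs, D1 hB hb hA1 0 hr hh hν0 h6 h5 h0 ha0 ha ha1 hs, mul_div_assoc,
      mul_div_cancel_left₀ _ (mul_ne_zero hα0 (h3 _))]
  have hs' : 1 < (1 - s).re := by simp; linarith
  obtain ⟨T, hT⟩ : ∃ T : ℕ → ℕ → O → O → ℂ, ∀ n v e e', T n v e e' = ∑ r' ∈ Rs 27,
      b n v e (-(e' * e ^ 2)) r' * 3 ^ (n * (s - 1 / 2)) * 3 ^ (v * (2 * s - 1)) *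
        Ds 0 r' h (e' * lam ^ (2 * v + n) * a2) (1 - s) := ⟨_, fun _ _ _ _ => rfl⟩
  have hTs : ∀ v e e', Summable fun n => T n v e e' := fun v e e' => by
    simp only [hT]
    refine summable_sum fun r' _ => Summable.of_norm_bounded
      ((summable_geometric_of_lt_one (r := (3 : ℝ) ^ (s.re - 1 / 2)) (by positivity)
        (Real.rpow_lt_one_of_one_lt_of_neg (by norm_num) (by linarith))).mul_left
        (3 * (2 * 3 ^ 16) * ‖(3 : ℂ) ^ (v * (2 * s - 1))‖ *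
          ∑' k, ‖bb k‖ * N k ^ (-(1 / 2 + (1 - s).re)))) fun n => ?_
    have e : ‖(3 : ℂ) ^ (n * (s - 1 / 2))‖ = ((3 : ℝ) ^ (s.re - 1 / 2)) ^ n := by
      rw [← Real.rpow_mul_natCast (by norm_num), mul_comm (s.re - 1 / 2)]
      simpa using norm_cpow_eq_rpow_re_of_pos (x := 3) (by norm_num) (n * (s - 1 / 2))
    rw [norm_mul, norm_mul, norm_mul, e]
    calc _ ≤ 3 * (2 * 3 ^ 16) * ((3 : ℝ) ^ (s.re - 1 / 2)) ^ n * ‖(3 : ℂ) ^ (v * (2 * s - 1))‖ *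
          ∑' k, ‖bb k‖ * N k ^ (-(1 / 2 + (1 - s).re)) := by
          gcongr
          exacts [hbn _ _ _ _ _, (summC hB hb _ _ _ _ hs').2]
      _ = _ := by ring
  have e1 : ∑' n : ℕ, ∑ v ∈ Finset.range 7, ∑ e ∈ U6, ∑ r' ∈ Rs 27,
      (∑ e1 ∈ U6, b n v e1 (-(e * e1 ^ 2)) r') * 3 ^ (n * (s - 1 / 2)) * 3 ^ (v * (2 * s - 1)) *
        Ds 0 r' h (e * lam ^ (2 * v + n) * a2) (1 - s) =
      ∑ v ∈ Finset.range 7, ∑ e ∈ U6, ∑ e' ∈ U6, ∑' n : ℕ, T n v e e' := by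
    simp only [← Summable.tsum_finsetSum fun e' _ => hTs _ _ e',
      ← Summable.tsum_finsetSum fun e _ => summable_sum fun e' _ => hTs _ e e',
      ← Summable.tsum_finsetSum fun v _ => summable_sum fun e _ => summable_sum fun e' _ =>
        hTs v e e']
    refine tsum_congr fun n => Finset.sum_congr rfl fun v _ => ?_
    rw [Finset.sum_comm (f := fun e e' => T n v e e')]
    refine Finset.sum_congr rfl fun e' _ => ?_
    simp only [hT, Finset.sum_mul]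
    exact Finset.sum_comm
  beta_reduce
  rw [e1, hR4 s hs, mul_div_assoc (s - 5 / 6), Dir]
  congr 1
  simp only [mul_assoc (_ * (_ : ℂ)⁻¹)]
  rw [tsum_fp (Finset.range 7 ×ˢ U6) (fun p d => cub (p.2 * lam ^ (6 - p.1) * a0) h *
    (((‖muC p.1 p.2 h‖ ^ 2 : ℝ) : ℂ))⁻¹ * (AA (ν p.1 p.2)
      (-(toC (729 * (lam ^ (2 * p.1) * p.2 ^ 4 * a2)) / toC h)) 0 (-(muC p.1 p.2 h ^ 2)⁻¹) d *
      (xx (‖muC p.1 p.2 h‖ ^ 2) d : ℂ) ^ (-2 * (1 - s)))) fun p hp => ?_, Finset.sum_product,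
    mul_div_assoc, mul_assoc (gg s), mul_assoc (gg s), mul_assoc (gg s), Finset.sum_div]
  · congr 1
    rw [Finset.mul_sum]
    refine Finset.sum_congr rfl fun v _ => ?_
    dsimp only
    rw [Finset.sum_div, Finset.mul_sum]
    refine Finset.sum_congr rfl fun e he => ?_
    rw [tsum_mul_left, ← Dir, D2 hB hb hA1 (hν1 v e) (hA3 v e) (hA4 v e) 0 h _ (hw v e he)
      (hmp v e he) hs', reidx hB he, Finset.mul_sum, Finset.sum_div, Finset.mul_sum]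
    refine Finset.sum_congr rfl fun e' _ => ?_
    rw [← tsum_mul_left, ← tsum_div_const, ← tsum_mul_left]
    refine tsum_congr fun n => ?_
    rw [hT, Finset.mul_sum, Finset.sum_div, Finset.mul_sum]
    refine Finset.sum_congr rfl fun r' _ => ?_
    rw [hb', hB.b6.mul_l _ a0 h (hB.b2.cop h hh), hB.b4.pe_congr h _ a0 a (hB.b6.pe h) ha,
      show -(lam ^ (2 * v) * e ^ 4 * a2 * -(e' * e ^ 2) * lam ^ n) =
        e' * lam ^ (2 * v + n) * a2 by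
          linear_combination (lam ^ (2 * v + n) * a2 * e') * six hB he, div_eq_mul_inv, mul_inv]
    linear_combination (cub (e * lam ^ (6 - v)) h * cub a h * A v e (-(e' * e ^ 2)) n r' *
      ang 0 (toC (-(e' * e ^ 2) * lam ^ n) * -(muC v e h ^ 2)⁻¹) *
      Ds 0 r' h (e' * lam ^ (2 * v + n) * a2) (1 - s) * (ang 0 (toC (lam ^ 6)))⁻¹) *
      alg hB v n he hh s
  · have he := (Finset.mem_product.1 hp).2
    simp only [norm_mul (_ * (_ : ℂ)⁻¹)]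
    exact (summD (xx_pos hB (hmp _ _ he))
      (summA hB hb hA1 (hν1 _ _) _ _ (hw _ _ he) (hmp _ _ he)) hs').mul_left _

end Vale.Agent.P026.Z
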