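import Vale.Agent.P006.A.Stm
import Vale.Agent.P026.M.GAM

/-! P006 branch A: bounds for the gamma factor at angular mode zero. -/

noncomputable section
open Complex MeasureTheory Filter Topology
open scoped Classical ComplexConjugate

namespace Vale.Agent.P026.Z
namespace GAMZ
open GAMM

lemma half (t : ℝ) : ‖gg (1 / 2 + t * I)‖ ≤ 1 := by
  have e : gg (1 / 2 + t * I) = (sg : ℂ) ^ (2 * (1 / 2 + t * I) - 1) *
      ((Gamma ((1 / 3 : ℝ) - t * I) * (Gamma ((1 / 3 : ℝ) + t * I))⁻¹) *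
        (Gamma ((2 / 3 : ℝ) - t * I) * (Gamma ((2 / 3 : ℝ) + t * I))⁻¹)) := by
    unfold gg
    rw [show (5 / 6 : ℂ) - (1 / 2 + t * I) = (1 / 3 : ℝ) - t * I by push_cast; ring,
      show (7 / 6 : ℂ) - (1 / 2 + t * I) = (2 / 3 : ℝ) - t * I by push_cast; ring,
      show (1 / 2 + t * I) - (1 / 6 : ℂ) = (1 / 3 : ℝ) + t * I by push_cast; ring,
      show (1 / 2 + t * I) + (1 / 6 : ℂ) = (2 / 3 : ℝ) + t * I by push_cast; ring]
    ring
  rw [e, norm_mul, norm_mul]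
  exact mul_le_one₀ (norm_sg_le _ (by simp)) (by positivity)
    (mul_le_one₀ (rat _ _) (norm_nonneg _) (rat _ _))

lemma recur (s : ℂ) (hs : s.re < 5 / 6) : gg (s - 1) = gg s * (sg : ℂ) ^ (-2 : ℂ) *
    (((5 / 6 - s) * (7 / 6 - s)) * ((5 / 6 - s) * (7 / 6 - s))) := by
  have h0 : (sg : ℂ) ≠ 0 := by exact_mod_cast (show sg ≠ 0 by linarith [sg_ge])
  have h1 : (5 / 6 - s : ℂ) ≠ 0 := fun h => by
    have := congrArg re h; simp at this; linarith
  have h2 : (7 / 6 - s : ℂ) ≠ 0 := fun h => by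
    have := congrArg re h; simp at this; linarith
  unfold gg
  rw [show (5 / 6 : ℂ) - (s - 1) = (5 / 6 - s) + 1 by ring,
    show (7 / 6 : ℂ) - (s - 1) = (7 / 6 - s) + 1 by ring, Complex.Gamma_add_one _ h1,
    Complex.Gamma_add_one _ h2, one_div_Gamma_eq_self_mul_one_div_Gamma_add_one (s - 1 - 1 / 6),
    one_div_Gamma_eq_self_mul_one_div_Gamma_add_one (s - 1 + 1 / 6),
    show s - 1 - 1 / 6 + 1 = s - 1 / 6 by ring, show s - 1 + 1 / 6 + 1 = s + 1 / 6 by ring,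
    show 2 * (s - 1) - 1 = (2 * s - 1) + (-2) by ring, cpow_add _ _ h0]
  ring

lemma ln (n : ℕ) : ∃ C : ℝ, 0 ≤ C ∧ ∀ t : ℝ, ‖gg (1 / 2 - n + t * I)‖ ≤ C * (1 + |t|) ^ (4 * n) := by
  induction n with
  | zero => exact ⟨1, zero_le_one, fun t => by simpa using half t⟩
  | succ n ih =>
    obtain ⟨C, h0, hC⟩ := ih
    have hn : (0 : ℝ) ≤ n := n.cast_nonneg
    refine ⟨C * ((n + 1) * (n + 1) * ((n + 1) * (n + 1))), by positivity, fun t => ?_⟩
    have e : (1 / 2 - ((n + 1 : ℕ) : ℂ) + t * I) = (1 / 2 - n + t * I) - 1 := by push_cast; ring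
    rw [e, recur _ (by simp; linarith)]
    have e1 : (5 / 6 - (1 / 2 - n + t * I) : ℂ) = ((1 / 3 + n : ℝ) : ℂ) - t * I := by push_cast; ring
    have e2 : (7 / 6 - (1 / 2 - n + t * I) : ℂ) = ((2 / 3 + n : ℝ) : ℂ) - t * I := by push_cast; ring
    have h1 := nb (1 / 3 + n) t (n + 1) (by rw [abs_of_pos] <;> linarith) (by linarith)
    have h2 := nb (2 / 3 + n) t (n + 1) (by rw [abs_of_pos] <;> linarith) (by linarith)
    have h3 : ‖(((1 / 3 + n : ℝ) : ℂ) - t * I) * (((2 / 3 + n : ℝ) : ℂ) - t * I)‖ ≤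
        ((n + 1) * (1 + |t|)) * ((n + 1) * (1 + |t|)) := by
      rw [norm_mul]; exact mul_le_mul h1 h2 (norm_nonneg _) (by positivity)
    rw [e1, e2, norm_mul, norm_mul, norm_mul ((((1 / 3 + n : ℝ) : ℂ) - t * I) * _)]
    have h4 : ‖(sg : ℂ) ^ (-2 : ℂ)‖ ≤ 1 := norm_sg_le _ (by simp)
    calc _ ≤ C * (1 + |t|) ^ (4 * n) * 1 * ((((n + 1) * (1 + |t|)) * ((n + 1) * (1 + |t|))) *
          (((n + 1) * (1 + |t|)) * ((n + 1) * (1 + |t|)))) :=
          mul_le_mul (mul_le_mul (hC t) h4 (norm_nonneg _) (by positivity))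
            (mul_le_mul h3 h3 (norm_nonneg _) (by positivity)) (by positivity) (by positivity)
      _ = _ := by ring

lemma diff : DifferentiableOn ℂ gg {s | s.re < 5 / 6} := by
  intro s hs
  have hs : s.re < 5 / 6 := hs
  have h0 : (sg : ℂ) ≠ 0 := by exact_mod_cast (show sg ≠ 0 by linarith [sg_ge])
  have h1 : DifferentiableAt ℂ (fun s : ℂ => (sg : ℂ) ^ (2 * s - 1)) s :=
    DifferentiableAt.const_cpow (by fun_prop) (Or.inl h0)
  have h2 : DifferentiableAt ℂ (fun s : ℂ => Gamma (5 / 6 - s)) s :=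
    (dG _ (by simp; linarith)).comp s (by fun_prop)
  have h3 : DifferentiableAt ℂ (fun s : ℂ => Gamma (7 / 6 - s)) s :=
    (dG _ (by simp; linarith)).comp s (by fun_prop)
  have h4 : DifferentiableAt ℂ (fun s : ℂ => (Gamma (s - 1 / 6))⁻¹) s :=
    (differentiable_one_div_Gamma (s - 1 / 6)).comp s (f := fun s : ℂ => s - 1 / 6) (by fun_prop)
  have h5 : DifferentiableAt ℂ (fun s : ℂ => (Gamma (s + 1 / 6))⁻¹) s :=
    (differentiable_one_div_Gamma (s + 1 / 6)).comp s (f := fun s : ℂ => s + 1 / 6) (by fun_prop)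
  exact ((h1.mul (h2.mul h3)).mul (h4.mul h5)).differentiableWithinAt

end GAMZ

theorem gamS : GAM where
  diff := GAMZ.diff
  half := GAMZ.half
  ln n := let ⟨C, _, h⟩ := GAMZ.ln n; ⟨C, h⟩

end Vale.Agent.P026.Z
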