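import Vale.Agent.P006.A.CT0
import Vale.Agent.P026.M.GAM

noncomputable section
open Complex MeasureTheory Filter Topology
open scoped Classical ComplexConjugate

namespace Vale.Agent.P026.Z
namespace GGM
open GAMM Complex.HadamardThreeLines

lemma strip : ∃ C : ℝ, 0 ≤ C ∧ ∀ s : ℂ, -1 / 2 ≤ s.re → s.re ≤ 1 / 2 →
    ‖gg s‖ ≤ C * Real.exp (7 * |s.im|) := by
  obtain ⟨C, h0, hC⟩ := strip_bd (1 / 3) 3 (by norm_num)
  obtain ⟨D, h1, hD⟩ := inv_bd (-1) 2
  refine ⟨C * C * (D * D), by positivity, fun s a b => ?_⟩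
  have e1 := hC (5 / 6 - s) (by simp; linarith) (by simp; linarith)
  have e2 := hC (7 / 6 - s) (by simp; linarith) (by simp; linarith)
  have e3 := hD (s - 1 / 6) (by simp; linarith) (by simp; linarith)
  have e4 := hD (s + 1 / 6) (by simp; linarith) (by simp; linarith)
  have e5 : ‖(sg : ℂ) ^ (2 * s - 1)‖ ≤ 1 := norm_sg_le _ (by simp; linarith)
  have i1 : (s - 1 / 6 : ℂ).im = s.im := by simp
  have i2 : (s + 1 / 6 : ℂ).im = s.im := by simp
  rw [i1] at e3
  rw [i2] at e4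
  unfold gg
  rw [norm_mul, norm_mul, norm_mul, norm_mul]
  calc _ ≤ 1 * (C * C) * ((D * Real.exp (7 / 2 * |s.im|)) * (D * Real.exp (7 / 2 * |s.im|))) := by
        gcongr
    _ = _ := by
        have : Real.exp (7 * |s.im|) = Real.exp (7 / 2 * |s.im|) * Real.exp (7 / 2 * |s.im|) := by
          rw [← Real.exp_add]; congr 1; ring
        rw [this]; ring

lemma nexp (s : ℂ) (d t : ℝ) :
    ‖cexp ((s - (-d + t * I)) ^ 2)‖ = Real.exp ((s.re + d) ^ 2 - (s.im - t) ^ 2) := by
  rw [Complex.norm_exp]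
  congr 1
  simp [sq]

lemma pol (x : ℝ) (hx : 0 ≤ x) : (1 + x) ^ 4 * Real.exp (1 - x ^ 2) ≤ Real.exp 5 := by
  have h1 : 1 + x ≤ Real.exp x := by linarith [Real.add_one_le_exp x]
  calc (1 + x) ^ 4 * Real.exp (1 - x ^ 2) ≤ Real.exp x ^ 4 * Real.exp (1 - x ^ 2) := by gcongr
    _ = Real.exp (4 * x + (1 - x ^ 2)) := by
        rw [Real.exp_add, ← Real.exp_nat_mul]; norm_num
    _ ≤ Real.exp 5 := Real.exp_le_exp.2 (by nlinarith [sq_nonneg (x - 2)])

end GGM

open GGM Complex.HadamardThreeLines in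
theorem ggS (_hG : P026.GAM) (hZ : Z.GAM) : GGStmt := by
  obtain ⟨K, hK0, hK⟩ := strip
  obtain ⟨C, hC⟩ := hZ.ln 1
  have hC0 : 0 ≤ C := by
    have := (norm_nonneg _).trans (hC 0)
    simpa using this
  refine ⟨(C + 1) * Real.exp 5, by positivity, fun d t hd0 hd1 => ?_⟩
  let f : ℂ → ℂ := fun s => gg s * cexp ((s - (-d + t * I)) ^ 2)
  have hf : ∀ s : ℂ, ‖f s‖ = ‖gg s‖ * Real.exp ((s.re + d) ^ 2 - (s.im - t) ^ 2) := fun s => by
    simp only [f, norm_mul, nexp]
  have hdiff : DifferentiableOn ℂ f {s | s.re < 5 / 6} :=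
    hZ.diff.mul (by fun_prop)
  have hd : DiffContOnCl ℂ f (verticalStrip (-1 / 2) (1 / 2)) := by
    refine DifferentiableOn.diffContOnCl (hdiff.mono ?_)
    intro s hs
    have : s ∈ {s : ℂ | s.re ≤ 1 / 2} := by
      refine closure_minimal (fun z hz => ?_) (isClosed_le Complex.continuous_re continuous_const) hs
      exact le_of_lt hz.2
    have h2 : s.re ≤ 1 / 2 := this
    show s.re < 5 / 6
    linarith
  have hB : BddAbove ((norm ∘ f) '' verticalClosedStrip (-1 / 2) (1 / 2)) := by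
    refine ⟨K * Real.exp (7 * |t| + 14), ?_⟩
    rintro _ ⟨s, hs, rfl⟩
    have h1 : -1 / 2 ≤ s.re := hs.1
    have h2 : s.re ≤ 1 / 2 := hs.2
    simp only [Function.comp, hf]
    calc ‖gg s‖ * Real.exp ((s.re + d) ^ 2 - (s.im - t) ^ 2)
        ≤ K * Real.exp (7 * |s.im|) * Real.exp ((s.re + d) ^ 2 - (s.im - t) ^ 2) :=
          mul_le_mul_of_nonneg_right (hK s h1 h2) (Real.exp_pos _).le
      _ = K * Real.exp (7 * |s.im| + ((s.re + d) ^ 2 - (s.im - t) ^ 2)) := by
          rw [Real.exp_add]; ring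
      _ ≤ K * Real.exp (7 * |t| + 14) := by
          refine mul_le_mul_of_nonneg_left (Real.exp_le_exp.2 ?_) hK0
          have a1 : |s.im| ≤ |t| + |s.im - t| := by
            have := abs_add_le t (s.im - t)
            simpa using this
          have a2 : (s.im - t) ^ 2 = |s.im - t| ^ 2 := (sq_abs _).symm
          have a3 : (s.re + d) ^ 2 ≤ 1 := by nlinarith
          rw [a2]
          nlinarith [sq_nonneg (|s.im - t| - 7 / 2)]
  have ht : 1 ≤ 1 + |t| := by linarith [abs_nonneg t]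
  have ha : ∀ z ∈ re ⁻¹' {-1 / 2}, ‖f z‖ ≤ (C + 1) * Real.exp 5 * (1 + |t|) ^ 4 := by
    intro z hz
    have hz' : z.re = -1 / 2 := hz
    have e1 : z = 1 / 2 - (1 : ℕ) + z.im * I := by
      apply Complex.ext
      · simp [hz']; norm_num
      · simp
    have h1 := hC z.im
    rw [← e1] at h1
    rw [hf, hz']
    have a1 : 1 + |z.im| ≤ (1 + |t|) * (1 + |z.im - t|) := by
      have := abs_add_le t (z.im - t)
      have h3 : |z.im| ≤ |t| + |z.im - t| := by simpa using this
      nlinarith [abs_nonneg t, abs_nonneg (z.im - t)]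
    have a2 : Real.exp ((-1 / 2 + d) ^ 2 - (z.im - t) ^ 2) ≤ Real.exp (1 - |z.im - t| ^ 2) := by
      refine Real.exp_le_exp.2 ?_
      rw [sq_abs]; nlinarith
    have a3 := pol _ (abs_nonneg (z.im - t))
    calc ‖gg z‖ * Real.exp ((-1 / 2 + d) ^ 2 - (z.im - t) ^ 2)
        ≤ (C * ((1 + |t|) * (1 + |z.im - t|)) ^ 4) * Real.exp (1 - |z.im - t| ^ 2) := by
          refine mul_le_mul (h1.trans ?_) a2 (Real.exp_pos _).le (by positivity)
          gcongr
      _ = C * (1 + |t|) ^ 4 * ((1 + |z.im - t|) ^ 4 * Real.exp (1 - |z.im - t| ^ 2)) := by ring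
      _ ≤ (C + 1) * (1 + |t|) ^ 4 * Real.exp 5 := by gcongr; linarith
      _ = _ := by ring
  have hb : ∀ z ∈ re ⁻¹' {1 / 2}, ‖f z‖ ≤ (C + 1) * Real.exp 5 := by
    intro z hz
    have hz' : z.re = 1 / 2 := hz
    have e1 : z = 1 / 2 + z.im * I := by
      apply Complex.ext
      · simp [hz']
      · simp
    have h1 := hZ.half z.im
    rw [← e1] at h1
    rw [hf, hz']
    refine mul_le_mul (by linarith) (Real.exp_le_exp.2 ?_) (Real.exp_pos _).le (by linarith)
    nlinarith [sq_nonneg (z.im - t)]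
  have hz : (-d + t * I : ℂ) ∈ verticalClosedStrip (-1 / 2) (1 / 2) := by
    constructor <;> simp <;> linarith
  have key := norm_le_interp_of_mem_verticalClosedStrip' (by norm_num) hz hd hB ha hb
  have r1 : (-d + t * I : ℂ).re = -d := by simp
  have r2 : f (-d + t * I) = gg (-d + t * I) := by simp [f]
  rw [r1, r2] at key
  refine key.trans (le_of_eq ?_)
  have p : 0 < (C + 1) * Real.exp 5 := by positivity
  rw [Real.mul_rpow p.le (by positivity), mul_right_comm, ← Real.rpow_add p,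
    ← Real.rpow_natCast, ← Real.rpow_mul (by linarith)]
  congr 1
  · rw [sub_add_cancel, Real.rpow_one]
  · congr 1
    push_cast
    ring

end Vale.Agent.P026.Z
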