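import Vale.Agent.P006.A.Stm
import Vale.Agent.P026.M.KG

/-! P006 branch A: the kernel for the radial Gaussian. -/

noncomputable section
open Complex MeasureTheory Filter Topology
open scoped Classical ComplexConjugate

namespace Vale.Agent.P026.Z

theorem kgS (hB : Bas) (hG : GFStmt) : KGStmt := by
  have _ := hB
  intro m1 m2 d h1 h2 hd
  have n1 : 0 < ‖m1‖ := norm_pos_iff.2 h1
  have n2' : 0 < ‖m2‖ := norm_pos_iff.2 h2
  have nd : 0 < ‖d‖ := norm_pos_iff.2 hd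
  have ft : ∀ ξ : ℂ, F1 G0 ξ = Real.pi * cexp (-(sg * ‖ξ‖ ^ 2 : ℝ)) := fun ξ => by
    have := hG 1 ξ one_pos
    simp only [div_one, mul_one] at this
    exact this
  set x := ‖d‖ * ‖m2‖ / (729 * ‖m1‖) with hx
  have x0 : 0 < x := by positivity
  have := int_mul (fun C => G0 (C / m1) * ((‖C‖ ^ (-4 / 3 : ℝ) : ℝ) : ℂ) *
    F1 (fun E => G0 (E / m2)) (d / (729 * C))) h1
  have e : ∀ w, G0 (m1 * w / m1) * ((‖m1 * w‖ ^ (-4 / 3 : ℝ) : ℝ) : ℂ) *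
      F1 (fun E => G0 (E / m2)) (d / (729 * (m1 * w))) =
      ((Real.pi * ‖m1‖ ^ (-4 / 3 : ℝ) * ‖m2‖ ^ 2 : ℝ) : ℂ) *
      ((‖w‖ ^ (-4 / 3 : ℝ) * Real.exp (-‖w‖ ^ 2 - sg * x ^ 2 / ‖w‖ ^ 2) : ℝ) : ℂ) := fun w => by
    rcases eq_or_ne w 0 with rfl | hw
    · have : (0 : ℝ) ^ (-4 / 3 : ℝ) = 0 := Real.zero_rpow (by norm_num)
      simp only [mul_zero, norm_zero, this, ofReal_zero, zero_mul]
    have n2 : 0 < ‖w‖ := norm_pos_iff.2 hw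
    have c2 : (‖w‖ : ℂ) ≠ 0 := ofReal_ne_zero.2 n2.ne'
    have e1 : ‖m2 * (d / (729 * (m1 * w)))‖ = x / ‖w‖ := by
      simp only [norm_mul, norm_div, norm_ofNat, hx]
      field_simp
    rw [mul_div_cancel_left₀ _ h1, KGM.F1_div _ h2, ft, G0, e1, norm_mul,
      Real.mul_rpow n1.le n2.le, sub_eq_add_neg, Real.exp_add]
    push_cast
    field_simp
  simp only [e, integral_const_mul, integral_complex_ofReal, KGM.radial] at this
  have n3 : (((‖m1‖ ^ 2)⁻¹ : ℝ) : ℂ) ≠ 0 := by simpa using h1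
  have e3 : ‖m1‖ ^ (-4 / 3 : ℝ) = (‖m1‖ ^ 2)⁻¹ * ‖m1‖ ^ (2 / 3 : ℝ) := by
    rw [← Real.rpow_natCast, ← Real.rpow_neg n1.le, ← Real.rpow_add n1]
    norm_num
  have e4 : kk x / x = Real.pi * ∫ ρ in Set.Ioi (0 : ℝ), ρ ^ (-2 / 3 : ℝ) *
      Real.exp (-ρ - sg * x ^ 2 / ρ) := by
    rw [kk, mul_assoc, mul_div_cancel_left₀ _ x0.ne']
  refine mul_left_cancel₀ n3 ?_
  rw [K0, mul_left_comm, ← this, e4, e3]
  push_cast
  ring

end Vale.Agent.P026.Z
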