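import Vale.Agent.P006.A.Stm
import Vale.Agent.P026.M.MEL

/-! P006 branch A: Mellin transform of the theta identity with a constant term. -/

noncomputable section
open Complex MeasureTheory Filter Topology Asymptotics
open scoped Classical ComplexConjugate

namespace Vale.Agent.P026.Z
namespace MEL0
open MELM

variable {ι : Type} {A : ι → ℂ} {x : ι → ℝ}

lemma mel0 [Countable ι] (hK : KK) (hx : ∀ i, 0 < x i)
    (s : ℂ) (hs : Summable fun i => ‖A i‖ * x i ^ (-2 * s.re)) (h1 : 0 < s.re) :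
    mellin (P026.Th A x) (2 * s - 1 / 3) = GG s * Dir A x s := by
  have hk := kk_mel hK s h1
  set F : ι → ℝ → ℂ := fun i y => (y : ℂ) ^ (2 * s - 1 / 3 - 1) •
    ((A i * ((x i ^ (-1 / 3 : ℝ) : ℝ) : ℂ)) • (kk (x i * y) : ℂ)) with hF
  have hint : ∀ i, Integrable (F i) (volume.restrict (Set.Ioi 0)) := fun i =>
    ((MellinConvergent.comp_mul_left (hx i)).mpr hk.1).const_smul _
  have hre : (2 * s - 1 / 3 - 1).re = 2 * s.re - 4 / 3 := by simp; ring
  have hn : ∀ i, ∫ y in Set.Ioi (0 : ℝ), ‖F i y‖ = (‖A i‖ * x i ^ (-2 * s.re)) *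
      ∫ u in Set.Ioi (0 : ℝ), u ^ (2 * s.re - 4 / 3) * kk u := by
    intro i
    have hxi := hx i
    have h2 := integral_comp_mul_left_Ioi (fun u : ℝ => u ^ (2 * s.re - 4 / 3) * kk u) 0 hxi
    rw [mul_zero, smul_eq_mul] at h2
    have h3 : ∫ y in Set.Ioi (0 : ℝ), ‖F i y‖ = ∫ y in Set.Ioi (0 : ℝ),
        (‖A i‖ * x i ^ (-2 * s.re) * x i) * ((x i * y) ^ (2 * s.re - 4 / 3) * kk (x i * y)) := by
      refine setIntegral_congr_fun measurableSet_Ioi fun y hy => ?_
      have hy : 0 < y := hy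
      simp only [hF, smul_eq_mul, norm_mul, norm_real, Real.norm_eq_abs]
      rw [norm_cpow_eq_rpow_re_of_pos hy, hre, abs_of_pos (Real.rpow_pos_of_pos hxi _),
        abs_of_nonneg (hK.nonneg _ (mul_pos hxi hy)), Real.mul_rpow hxi.le hy.le]
      have : x i ^ (-1 / 3 : ℝ) = x i ^ (-2 * s.re) * x i * x i ^ (2 * s.re - 4 / 3) := by
        rw [← Real.rpow_add_one hxi.ne', ← Real.rpow_add hxi]; congr 1; ring
      rw [this]; ring
    rw [h3, integral_const_mul, h2]
    field_simp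
  have hsum := hasSum_integral_of_summable_integral_norm hint
    (by simp_rw [hn]; exact hs.mul_right _)
  have e1 : ∀ i, ∫ y in Set.Ioi (0 : ℝ), F i y = GG s * (A i * (x i : ℂ) ^ (-2 * s)) := by
    intro i
    have hxi := hx i
    have h0 : (x i : ℂ) ≠ 0 := by exact_mod_cast hxi.ne'
    show mellin (fun y => (A i * ((x i ^ (-1 / 3 : ℝ) : ℝ) : ℂ)) • (kk (x i * y) : ℂ)) (2 * s - 1 / 3) = _
    rw [mellin_const_smul, mellin_comp_mul_left (fun u => (kk u : ℂ)) _ hxi, hk.2, ofReal_cpow hxi.le,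
      show -2 * s = ((-1 / 3 : ℝ) : ℂ) + -(2 * s - 1 / 3) by push_cast; ring, cpow_add _ _ h0]
    simp only [smul_eq_mul]; ring
  simp_rw [e1] at hsum
  unfold Dir
  rw [← tsum_mul_left, hsum.tsum_eq]
  unfold mellin P026.Th
  congr 1
  funext y
  rw [smul_eq_mul, ← tsum_mul_left]
  refine tsum_congr fun i => ?_
  simp only [hF, smul_eq_mul]
  rw [mul_comm y]
  push_cast; ring

lemma Th_eq (hx : ∀ i, 0 < x i) {y : ℝ} (hy : 0 < y) :
    Th A x y = (y : ℂ)⁻¹ * P026.Th (fun i => A i / x i) x y := by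
  unfold Th P026.Th
  rw [← tsum_mul_left]
  refine tsum_congr fun i => ?_
  have h0 : (x i : ℂ) ≠ 0 := by exact_mod_cast (hx i).ne'
  have h1 : (y : ℂ) ≠ 0 := by exact_mod_cast hy.ne'
  push_cast
  field_simp

lemma sm (hx : ∀ i, 0 < x i) (hs : ∀ σ : ℝ, 1 < σ → Summable fun i => ‖A i‖ * x i ^ (-2 * σ))
    {σ : ℝ} (h : 1 / 2 < σ) : Summable fun i => ‖A i / x i‖ * x i ^ (-2 * σ) := by
  refine (hs (σ + 1 / 2) (by linarith)).congr fun i => ?_
  have hxi := hx i
  rw [norm_div, norm_real, Real.norm_eq_abs, abs_of_pos hxi,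
    show -2 * (σ + 1 / 2) = -2 * σ - 1 by ring, Real.rpow_sub_one hxi.ne']
  ring

lemma cont (hK : KK) (hx : ∀ i, 0 < x i)
    (hs : ∀ σ : ℝ, 1 < σ → Summable fun i => ‖A i‖ * x i ^ (-2 * σ)) :
    ContinuousOn (Th A x) (Set.Ioi 0) := by
  have h1 := Th_cont (A := fun i => A i / x i) hK hx fun σ h => sm hx hs (by linarith)
  have h2 : ContinuousOn (fun y : ℝ => (y : ℂ)⁻¹) (Set.Ioi 0) :=
    continuous_ofReal.continuousOn.inv₀ fun y hy => by exact_mod_cast (ne_of_gt hy)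
  exact (h2.mul h1).congr fun y hy => Th_eq hx hy

lemma top (hK : KK) (hx : ∀ i, 0 < x i)
    (hs : ∀ σ : ℝ, 1 < σ → Summable fun i => ‖A i‖ * x i ^ (-2 * σ)) (r : ℝ) :
    (fun y => Th A x y - 0) =O[atTop] (fun y : ℝ => y ^ r) := by
  have h1 := Th_top (A := fun i => A i / x i) hK hx (fun σ h => sm hx hs (by linarith)) r
  refine IsBigO.trans (IsBigO.of_bound 1 ?_) h1
  filter_upwards [eventually_ge_atTop 1] with y hy
  rw [sub_zero, sub_zero, one_mul, Th_eq hx (by linarith), norm_mul, norm_inv, norm_real,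
    Real.norm_eq_abs, abs_of_pos (by linarith)]
  exact mul_le_of_le_one_left (norm_nonneg _) (inv_le_one_of_one_le₀ hy)

lemma mel1 [Countable ι] (hK : KK) (hx : ∀ i, 0 < x i)
    (hs : ∀ σ : ℝ, 1 < σ → Summable fun i => ‖A i‖ * x i ^ (-2 * σ)) (s : ℂ) (h1 : 1 < s.re) :
    mellin (Th A x) (2 * s - 1 / 3) = GG (s - 1 / 2) * Dir A x s := by
  have r : (s - 1 / 2).re = s.re - 1 / 2 := by simp
  have h := mel0 (A := fun i => A i / x i) hK hx (s - 1 / 2) (sm hx hs (by rw [r]; linarith))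
    (by rw [r]; linarith)
  have e : Dir (fun i => A i / x i) x (s - 1 / 2) = Dir A x s := by
    refine tsum_congr fun i => ?_
    have h0 : (x i : ℂ) ≠ 0 := by exact_mod_cast (hx i).ne'
    rw [show -2 * (s - 1 / 2) = -2 * s + 1 by ring, cpow_add _ _ h0, cpow_one]
    field_simp
  rw [← e, ← h]
  refine setIntegral_congr_fun measurableSet_Ioi fun y hy => ?_
  have hy : 0 < y := hy
  have h0 : (y : ℂ) ≠ 0 := by exact_mod_cast hy.ne'
  simp only [smul_eq_mul]
  rw [Th_eq hx hy, show 2 * s - 1 / 3 - 1 = (2 * (s - 1 / 2) - 1 / 3 - 1) + 1 by ring,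
    cpow_add _ _ h0, cpow_one]
  field_simp

lemma GG_GI0 (s : ℂ) : GG (1 - s - 1 / 2) * GI (s - 1 / 2) = gg s := by
  have hp : (Real.pi : ℂ) ≠ 0 := by exact_mod_cast Real.pi_ne_zero
  unfold GG GI gg
  rw [show 2 * s - 1 = (-(1 - s - 1 / 2) - 1 / 3) + (s - 1 / 2 + 1 / 3) by ring,
    cpow_add (-(1 - s - 1 / 2) - 1 / 3) (s - 1 / 2 + 1 / 3) sg0,
    show 1 - s - 1 / 2 + 1 / 3 = 5 / 6 - s by ring, show 1 - s - 1 / 2 + 2 / 3 = 7 / 6 - s by ring,
    show s - 1 / 2 + 2 / 3 = s + 1 / 6 by ring]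
  generalize (sg : ℂ) ^ (s - 1 / 2 + 1 / 3) = c
  rw [show s - 1 / 2 + 1 / 3 = s - 1 / 6 by ring]
  generalize (Gamma (s - 1 / 6))⁻¹ = a
  generalize (Gamma (s + 1 / 6))⁻¹ = b
  generalize (sg : ℂ) ^ (-(1 - s - 1 / 2) - 1 / 3) = d
  generalize Gamma (5 / 6 - s) = e
  generalize Gamma (7 / 6 - s) = f
  field_simp

end MEL0

open MELM MEL0 in
theorem melS (hK : KK) (hG : P026.GAM) : MELStmt := by
  refine ⟨GI (5 / 6 - 1 / 2) / 2, ?_⟩
  intro ι ι' _ _ A x A' x' k hx hx' hs hs' hfe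
  let P : WeakFEPair ℂ :=
    { f := Th A x
      g := fun y => Th A' x' y + k
      k := 4 / 3
      ε := 1
      f₀ := 0
      g₀ := k
      hf_int := (cont hK hx hs).locallyIntegrableOn measurableSet_Ioi
      hg_int := ((cont hK hx' hs').add continuousOn_const).locallyIntegrableOn measurableSet_Ioi
      hk := by norm_num
      hε := one_ne_zero
      h_feq := fun y hy => by
        have hy : 0 < y := hy
        rw [hfe _ (one_div_pos.mpr hy), one_div, inv_inv, Real.inv_rpow hy.le, ← Real.rpow_neg hy.le,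
          one_mul, smul_eq_mul]
        norm_num
      hf_top := top hK hx hs
      hg_top := fun r => by simpa using top hK hx' hs' r }
  have hΛ : ∀ s : ℂ, s ≠ 5 / 6 →
      (s - 5 / 6) * P.Λ₀ (2 * s - 1 / 3) + k / 2 = (s - 5 / 6) * P.Λ (2 * s - 1 / 3) := by
    intro s h
    have h0 : s - 5 / 6 ≠ 0 := sub_ne_zero.2 h
    rw [P.Λ₀_eq]
    have e : ((P.k : ℝ) : ℂ) - (2 * s - 1 / 3) = -2 * (s - 5 / 6) := by
      simp only [P]; push_cast; ring
    rw [e]
    simp only [P, smul_eq_mul]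
    generalize s - 5 / 6 = u at *
    field_simp
    ring
  refine ⟨fun s => ((s - 5 / 6) * P.Λ₀ (2 * s - 1 / 3) + k / 2) * GI (s - 1 / 2), ?_, ?_, ?_, ?_, ?_⟩
  · have h1 : Differentiable ℂ fun s : ℂ => P.Λ₀ (2 * s - 1 / 3) :=
      P.differentiable_Λ₀.comp (by fun_prop)
    have h2 : Differentiable ℂ fun s : ℂ => GI (s - 1 / 2) := GI_diff.comp (by fun_prop)
    exact (((differentiable_id.sub_const _).mul h1).add_const _).mul h2
  · intro a b
    obtain ⟨C, hC⟩ := mel_bd P.f_modif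
      (fun w => (P.isStrongFEPair_toStrongFEPair.hasMellin w).1) (2 * a - 1) (2 * b)
    obtain ⟨D, hD⟩ := GI_bd hG (a - 1) b
    refine ⟨((|a| + |b| + 2) * C + ‖k / 2‖) * D, fun s h1 h2 => ?_⟩
    have h3 : ‖P.Λ₀ (2 * s - 1 / 3)‖ ≤ C := hC (2 * s - 1 / 3) (by simp; linarith) (by simp; linarith)
    have h4 := hD (s - 1 / 2) (by simp; linarith) (by simp; linarith)
    rw [show (s - 1 / 2).im = s.im by simp] at h4
    have h5 : 1 + |s.im| ≤ Real.exp |s.im| := by linarith [Real.add_one_le_exp |s.im|]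
    have i0 := abs_nonneg s.im
    have h6 : ‖s - 5 / 6‖ ≤ (|a| + |b| + 2) * Real.exp |s.im| := by
      have h7 := norm_le_abs_re_add_abs_im (s - 5 / 6)
      rw [show (s - 5 / 6).im = s.im by simp, show (s - 5 / 6).re = s.re - 5 / 6 by simp] at h7
      have h8 : |s.re - 5 / 6| ≤ |a| + |b| + 1 :=
        abs_le.2 ⟨by linarith [neg_abs_le a, abs_nonneg b], by linarith [le_abs_self b, abs_nonneg a]⟩
      nlinarith [abs_nonneg a, abs_nonneg b]
    have C0 := (norm_nonneg _).trans h3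
    have h9 : ‖(s - 5 / 6) * P.Λ₀ (2 * s - 1 / 3) + k / 2‖ ≤
        ((|a| + |b| + 2) * C + ‖k / 2‖) * Real.exp |s.im| := by
      refine (norm_add_le _ _).trans ?_
      rw [norm_mul]
      have := mul_le_mul h6 h3 (norm_nonneg _) (by positivity)
      nlinarith [norm_nonneg (k / 2)]
    rw [norm_mul]
    refine (mul_le_mul h9 h4 (norm_nonneg _) (by positivity)).trans (le_of_eq ?_)
    rw [show 8 * |s.im| = |s.im| + 7 * |s.im| by ring, Real.exp_add]
    ring
  · simp only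
    rw [sub_self]
    ring
  · intro s h1
    have h2 := (P.hasMellin (s := 2 * s - 1 / 3) (by simp [P]; linarith)).2
    have h3 : (fun y => P.f y - P.f₀) = Th A x := by funext y; simp [P]
    simp only
    rw [hΛ s (by rintro rfl; norm_num at h1), ← h2, h3, mel1 hK hx hs s h1, mul_assoc,
      mul_right_comm, GG_GI _ (by simp; linarith), one_mul]
  · intro s h1
    have h2 := P.functional_equation (2 * (1 - s) - 1 / 3)
    have h4 := (P.symm.hasMellin (s := 2 * (1 - s) - 1 / 3)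
      (by simp [P, WeakFEPair.symm]; linarith)).2
    have h3 : (fun y => P.symm.f y - P.symm.f₀) = Th A' x' := by
      funext y; simp [P, WeakFEPair.symm]
    rw [show ((P.k : ℝ) : ℂ) - (2 * (1 - s) - 1 / 3) = 2 * s - 1 / 3 by
      simp only [P]; push_cast; ring, ← h4, h3, mel1 hK hx' hs' (1 - s) (by simp; linarith)] at h2
    simp only
    rw [hΛ s (by rintro rfl; norm_num at h1), h2, ← GG_GI0]
    simp only [P, one_smul]
    ring

end Vale.Agent.P026.Z
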