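import Vale.Agent.P006.A.Stm

/-! Crossing the pole. -/

noncomputable section
open Complex MeasureTheory Filter Topology
open scoped Classical ComplexConjugate

namespace Vale.Agent.P026.Z

namespace RESM

theorem ne56 {σ : ℝ} (h : σ ≠ 5 / 6) (t : ℝ) : (σ : ℂ) + t * I - 5 / 6 ≠ 0 := by
  intro e
  have := congrArg Complex.re e
  simp at this
  apply h
  linarith

theorem line {F : ℂ → ℂ} (hF : DifferentiableOn ℂ F {s | s.re < 3 / 2}) {σ C : ℝ} (h1 : σ < 3 / 2)
    (h2 : σ ≠ 5 / 6) (hb : ∀ t : ℝ, ‖F (σ + t * I)‖ ≤ C * Real.exp (-|t|)) :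
    Integrable fun t : ℝ => F (σ + t * I) / (σ + t * I - 5 / 6) := by
  have hg : Continuous fun t : ℝ => (σ : ℂ) + t * I := by fun_prop
  have hc : Continuous fun t : ℝ => F (σ + t * I) :=
    hF.continuousOn.comp_continuous hg fun t => by simpa using h1
  refine VIM.integ (hc.div (by fun_prop) (ne56 h2)) (u := C / |σ - 5 / 6|) fun t => ?_
  have p : 0 < |σ - 5 / 6| := abs_pos.2 (sub_ne_zero.2 h2)
  have q : |σ - 5 / 6| ≤ ‖(σ : ℂ) + t * I - 5 / 6‖ := by
    have := Complex.abs_re_le_norm ((σ : ℂ) + t * I - 5 / 6)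
    simpa using this
  rw [norm_div, div_mul_eq_mul_div]
  exact div_le_div₀ ((norm_nonneg _).trans (hb t)) (hb t) p q

theorem cross (hS : SHStmt) {G : ℂ → ℂ} {a C : ℝ} (ha : a ≤ -1 / 2)
    (hG : DifferentiableOn ℂ G {s | s.re < 3 / 2}) (h0 : G (5 / 6) = 0)
    (hb : ∀ s : ℂ, a ≤ s.re → s.re ≤ 5 / 4 → ‖G s‖ ≤ C * Real.exp (-|s.im|)) :
    ∫ t : ℝ, G (a + t * I) / (a + t * I - 5 / 6) =
      ∫ t : ℝ, G ((5 / 4 : ℝ) + t * I) / ((5 / 4 : ℝ) + t * I - 5 / 6) := by
  have ho : IsOpen {s : ℂ | s.re < 3 / 2} := isOpen_lt Complex.continuous_re continuous_const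
  have hH : DifferentiableOn ℂ (dslope G (5 / 6)) {s | s.re < 3 / 2} :=
    (Complex.differentiableOn_dslope (ho.mem_nhds (by simp; norm_num))).2 hG
  have e : ∀ s : ℂ, s - 5 / 6 ≠ 0 → dslope G (5 / 6) s = G s / (s - 5 / 6) := fun s hs => by
    rw [dslope_of_ne _ (sub_ne_zero.1 hs), slope_def_field, h0, sub_zero]
  have hK : IsCompact (Set.Icc a (5 / 4) ×ℂ Set.Icc (-1 : ℝ) 1) := isCompact_Icc.reProdIm isCompact_Icc
  obtain ⟨B, hB⟩ := hK.exists_bound_of_continuousOn (hH.continuousOn.mono fun s hs => by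
    have := (Complex.mem_reProdIm.1 hs).1.2
    change s.re < 3 / 2
    linarith)
  have key := hS (dslope G (5 / 6)) a (5 / 4) (|C| + |B| * Real.exp 1) 1 (by linarith) one_pos
    (hH.mono fun s hs => by
      have := hs.2
      change s.re < 3 / 2
      linarith) fun s a1 a2 => by
    rw [one_mul]
    have ep := Real.exp_pos (-|s.im|)
    by_cases c : |s.im| ≤ 1
    · have b1 := hB s (Complex.mem_reProdIm.2 ⟨⟨a1, a2⟩, abs_le.1 c⟩)
      have b2 : 1 ≤ Real.exp 1 * Real.exp (-|s.im|) := by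
        rw [← Real.exp_add]; exact Real.one_le_exp (by linarith)
      have b3 := le_abs_self B
      have b4 := mul_le_mul_of_nonneg_left b2 (abs_nonneg B)
      have b5 := mul_nonneg (abs_nonneg C) ep.le
      nlinarith
    · have q : 1 ≤ ‖s - 5 / 6‖ := by
        have := Complex.abs_im_le_norm (s - 5 / 6)
        simp at this
        linarith [not_le.1 c]
      have n0 : s - 5 / 6 ≠ 0 := by
        intro z; rw [z, norm_zero] at q; linarith
      rw [e s n0, norm_div]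
      have b1 := div_le_self (norm_nonneg (G s)) q
      have b2 := hb s a1 a2
      have b3 := mul_le_mul_of_nonneg_right (le_abs_self C) ep.le
      have b4 : 0 ≤ |B| * Real.exp 1 * Real.exp (-|s.im|) := by positivity
      nlinarith
  have e1 : ∀ t : ℝ, dslope G (5 / 6) (a + t * I) = G (a + t * I) / (a + t * I - 5 / 6) :=
    fun t => e _ (ne56 (by linarith) t)
  have e2 : ∀ t : ℝ, dslope G (5 / 6) ((5 / 4 : ℝ) + t * I) =
      G ((5 / 4 : ℝ) + t * I) / ((5 / 4 : ℝ) + t * I - 5 / 6) := fun t => e _ (ne56 (by norm_num) t)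
  simpa only [e1, e2] using key

def E (s : ℂ) : ℂ := cexp ((s - 5 / 6) ^ 2)

theorem E_diff : Differentiable ℂ E := by unfold E; fun_prop

theorem E_le {a : ℝ} (ha : a ≤ -1 / 2) (s : ℂ) (a1 : a ≤ s.re) (a2 : s.re ≤ 5 / 4) :
    ‖E s‖ ≤ Real.exp ((a - 5 / 6) ^ 2 + 1) * Real.exp (-|s.im|) := by
  rw [E, Complex.norm_exp, ← Real.exp_add]
  refine Real.exp_le_exp.2 ?_
  have e1 : ((s - 5 / 6) ^ 2).re = (s.re - 5 / 6) ^ 2 - s.im ^ 2 := by simp [sq]
  rw [e1]
  nlinarith [sq_abs s.im, sq_nonneg (|s.im| - 1 / 2)]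

theorem E_shift (hS : SHStmt) {a : ℝ} (ha : a ≤ -1 / 2) :
    ∫ t : ℝ, E (a + t * I) / (a + t * I - 5 / 6) =
      ∫ t : ℝ, E ((-1 / 2 : ℝ) + t * I) / ((-1 / 2 : ℝ) + t * I - 5 / 6) := by
  have q : ∀ s : ℂ, s.re ≤ -1 / 2 → 1 ≤ ‖s - 5 / 6‖ := fun s hs => by
    have := Complex.abs_re_le_norm (s - 5 / 6)
    simp at this
    have h2 := neg_abs_le (s.re - 5 / 6)
    linarith
  refine hS (fun s => E s / (s - 5 / 6)) a (-1 / 2) (Real.exp ((a - 5 / 6) ^ 2 + 1)) 1 ha one_pos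
    (E_diff.differentiableOn.div (by fun_prop) fun s hs z => ?_) fun s a1 a2 => ?_
  · have := q s hs.2
    rw [z, norm_zero] at this
    linarith
  · rw [norm_div, one_mul]
    exact (div_le_self (norm_nonneg _) (q s a2)).trans (E_le ha s a1 (by linarith))

end RESM

open RESM in
theorem resS (hS : SHStmt) : RESStmt := by
  refine ⟨(∫ t : ℝ, E ((5 / 4 : ℝ) + t * I) / ((5 / 4 : ℝ) + t * I - 5 / 6)) -
    ∫ t : ℝ, E ((-1 / 2 : ℝ) + t * I) / ((-1 / 2 : ℝ) + t * I - 5 / 6), fun F a C ha hF hb => ?_⟩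
  have key := cross hS (G := fun s => F s - F (5 / 6) * E s)
    (C := C + ‖F (5 / 6)‖ * Real.exp ((a - 5 / 6) ^ 2 + 1)) ha
    (hF.sub (E_diff.differentiableOn.const_mul _)) (by simp [E]) fun s a1 a2 => by
      have b1 := hb s a1 a2
      have b2 := mul_le_mul_of_nonneg_left (E_le ha s a1 a2) (norm_nonneg (F (5 / 6)))
      refine (norm_sub_le _ _).trans ?_
      rw [norm_mul]
      linarith
  have split : ∀ σ : ℝ, a ≤ σ → σ ≤ 5 / 4 → σ ≠ 5 / 6 →
      ∫ t : ℝ, (F (σ + t * I) - F (5 / 6) * E (σ + t * I)) / (σ + t * I - 5 / 6) =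
      (∫ t : ℝ, F (σ + t * I) / (σ + t * I - 5 / 6)) -
        F (5 / 6) * ∫ t : ℝ, E (σ + t * I) / (σ + t * I - 5 / 6) := by
    intro σ s1 s2 s3
    have i1 := line hF (σ := σ) (C := C) (by linarith) s3 fun t => by
      simpa using hb (σ + t * I) (by simpa using s1) (by simpa using s2)
    have i2 := line E_diff.differentiableOn (σ := σ) (C := Real.exp ((a - 5 / 6) ^ 2 + 1))
      (by linarith) s3 fun t => by
        simpa using E_le ha (σ + t * I) (by simpa using s1) (by simpa using s2)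
    rw [← integral_const_mul, ← integral_sub i1 (i2.const_mul _)]
    refine integral_congr_ae (.of_forall fun t => ?_)
    simp only [sub_div, mul_div_assoc]
  rw [split a le_rfl (by linarith) (by linarith), split (5 / 4) (by linarith) le_rfl (by norm_num),
    E_shift hS ha] at key
  linear_combination -key

end Vale.Agent.P026.Z
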