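import Vale.Agent.P006.A.Stm
import Vale.Agent.P006.T0j

/-! P006 branch A: the theta identity for the Gaussian. -/

namespace Vale.Agent.P026.Z

theorem th1S : TH1Stmt := fun r h ν hr hh hν => by
  obtain ⟨c, hc⟩ := J0.th10 r h ν hr hh hν
  refine ⟨c, fun y hy a a2 ha ha2 => ?_⟩
  have := hc y a a2 hy ha ha2
  rw [mul_assoc] at this
  exact this

end Vale.Agent.P026.Z
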