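import Vale.Agent.P006.A.CT0
import Vale.Agent.P006.A.RES
import Vale.Agent.P026.M.W2a

/-! P006 branch A: the type I estimate with the log-normal weight. -/

noncomputable section
open Complex MeasureTheory Filter Topology
open scoped Classical ComplexConjugate

namespace Vale.Agent.P026.Z

open Vale.Agent.P006

namespace TIM

/-- shifting a quotient without pole -/
theorem cross {G : ℂ → ℂ} {a C : ℝ} (ha : a < 5 / 6)
    (hG : DifferentiableOn ℂ G {s | s.re < 3 / 2}) (h0 : G (5 / 6) = 0)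
    (hb : ∀ s : ℂ, a ≤ s.re → s.re ≤ 5 / 4 → ‖G s‖ ≤ C * Real.exp (-|s.im|)) :
    ∫ t : ℝ, G (a + t * I) / (a + t * I - 5 / 6) =
      ∫ t : ℝ, G ((5 / 4 : ℝ) + t * I) / ((5 / 4 : ℝ) + t * I - 5 / 6) := by
  have ho : IsOpen {s : ℂ | s.re < 3 / 2} := isOpen_lt Complex.continuous_re continuous_const
  have hH : DifferentiableOn ℂ (dslope G (5 / 6)) {s | s.re < 3 / 2} :=
    (Complex.differentiableOn_dslope (ho.mem_nhds (by simp; norm_num))).2 hG
  have e : ∀ s : ℂ, s - 5 / 6 ≠ 0 → dslope G (5 / 6) s = G s / (s - 5 / 6) := fun s hs => by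
    rw [dslope_of_ne _ (sub_ne_zero.1 hs), slope_def_field, h0, sub_zero]
  have hK : IsCompact (Set.Icc a (5 / 4) ×ℂ Set.Icc (-1 : ℝ) 1) := isCompact_Icc.reProdIm isCompact_Icc
  obtain ⟨B, hB⟩ := hK.exists_bound_of_continuousOn (hH.continuousOn.mono fun s hs => by
    have := (Complex.mem_reProdIm.1 hs).1.2
    change s.re < 3 / 2
    linarith)
  have key := W2.sh (dslope G (5 / 6)) a (5 / 4) (|C| + |B| * Real.exp 1) 1 (by linarith) one_pos
    (hH.mono fun s hs => by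
      have := hs.2
      change s.re < 3 / 2
      linarith) fun s a1 a2 => by
    rw [one_mul]
    have ep := Real.exp_pos (-|s.im|)
    by_cases c : |s.im| ≤ 1
    · have b1 := hB s (Complex.mem_reProdIm.2 ⟨⟨a1, a2⟩, abs_le.1 c⟩)
      have b2 : 1 ≤ Real.exp 1 * Real.exp (-|s.im|) := by
        rw [← Real.exp_add]; exact Real.one_le_exp (by linarith)
      have b3 := le_abs_self B
      have b4 := mul_le_mul_of_nonneg_left b2 (abs_nonneg B)
      have b5 := mul_nonneg (abs_nonneg C) ep.le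
      nlinarith
    · have q : 1 ≤ ‖s - 5 / 6‖ := by
        have := Complex.abs_im_le_norm (s - 5 / 6)
        simp at this
        linarith [not_le.1 c]
      have n0 : s - 5 / 6 ≠ 0 := by
        intro z; rw [z, norm_zero] at q; linarith
      rw [e s n0, norm_div]
      have b1 := div_le_self (norm_nonneg (G s)) q
      have b2 := hb s a1 a2
      have b3 := mul_le_mul_of_nonneg_right (le_abs_self C) ep.le
      have b4 : 0 ≤ |B| * Real.exp 1 * Real.exp (-|s.im|) := by positivity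
      nlinarith
  have e1 : ∀ t : ℝ, dslope G (5 / 6) (a + t * I) = G (a + t * I) / (a + t * I - 5 / 6) :=
    fun t => e _ (RESM.ne56 ha.ne t)
  have e2 : ∀ t : ℝ, dslope G (5 / 6) ((5 / 4 : ℝ) + t * I) =
      G ((5 / 4 : ℝ) + t * I) / ((5 / 4 : ℝ) + t * I - 5 / 6) :=
    fun t => e _ (RESM.ne56 (by norm_num) t)
  simpa only [e1, e2] using key

def EL (Y : ℝ) (z : ℂ) : ℂ := cexp (z ^ 2 / 4) * (Y : ℂ) ^ z
def ka : ℂ := ((2 * √Real.pi : ℝ) : ℂ)⁻¹

theorem EL_diff {Y : ℝ} (hY : 0 < Y) : Differentiable ℂ (EL Y) :=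
  (Differentiable.cexp (by fun_prop)).mul
    (Differentiable.const_cpow (by fun_prop) (Or.inl (by exact_mod_cast hY.ne')))

theorem EL_le {Y : ℝ} (hY : 0 < Y) {z : ℂ} (h1 : -1 ≤ z.re) (h2 : z.re ≤ 5 / 4) :
    ‖EL Y z‖ ≤ Real.exp 82 * Y ^ z.re * Real.exp (-(9 * |z.im|)) := by
  rw [EL, norm_mul, norm_exp, norm_cpow_eq_rpow_re_of_pos hY, mul_right_comm, ← Real.exp_add]
  gcongr
  have e1 : (z ^ 2 / 4).re = (z.re ^ 2 - z.im ^ 2) / 4 := by simp [sq]
  rw [e1]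
  nlinarith [sq_abs z.im, sq_nonneg (|z.im| - 18)]

theorem EL_le' {Y : ℝ} (hY : 0 < Y) (t : ℝ) :
    ‖EL Y ((5 / 4 : ℝ) + t * I)‖ ≤ Real.exp 82 * Y ^ (5 / 4 : ℝ) * Real.exp (-|t|) := by
  refine (EL_le hY (by simp; norm_num) (by simp)).trans ?_
  simp only [add_re, ofReal_re, mul_re, I_re, mul_zero, ofReal_im, I_im, mul_one, sub_self,
    add_zero, add_im, mul_im, zero_add]
  gcongr
  linarith [abs_nonneg t]

theorem mel {Y x : ℝ} (hY : 0 < Y) (hx : 0 < x) : (VV Y x : ℂ) =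
    ka * ∫ t : ℝ, EL Y ((5 / 4 : ℝ) + t * I) * (x : ℂ) ^ (-(((5 / 4 : ℝ) : ℂ) + t * I)) := by
  have := W2.ln.mel Y x 0 (5 / 4) hY hx
  simp only [neg_zero, cpow_zero, one_mul, sub_zero] at this
  rw [this, ka, ofReal_inv]
  rfl

theorem ccle {k : O} (hk : Prim k) : ‖K.cc k‖ ≤ ‖bb k‖ * N k ^ (-(1 / 2) : ℝ) := by
  have n0 : 0 < N k := lt_of_lt_of_le one_pos (W1.bas.b1.N_one_le _ (W1.bas.b2.ne _ hk))
  rw [K.cc, norm_div, norm_mul, norm_real, Real.norm_of_nonneg (Real.sqrt_nonneg _),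
    Real.sqrt_eq_rpow, Real.rpow_neg n0.le, div_eq_mul_inv]
  gcongr
  exact mul_le_of_le_one_left (norm_nonneg _) (W1.bas.b6.norm_le _ _)

theorem MM_le {s : O} (hs : Prim s) : ‖K.MM s‖ ≤ 1 := by
  have n0 : 0 < N s := lt_of_lt_of_le one_pos (W1.bas.b1.N_one_le _ (W1.bas.b2.ne _ hs))
  have f : ∀ p : O, 0 ≤ 1 - (N p)⁻¹ ∧ 1 - (N p)⁻¹ ≤ 1 := fun p =>
    ⟨sub_nonneg.2 (Nat.cast_inv_le_one _), sub_le_self _ (inv_nonneg.2 (Nat.cast_nonneg _))⟩
  have e0 : 0 ≤ K.EP s := Finset.prod_nonneg fun p _ => (f p).1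
  have e1 : K.EP s ≤ 1 := Finset.prod_le_one (fun p _ => (f p).1) fun p _ => (f p).2
  rw [K.MM, norm_mul, norm_conj, norm_real, Real.norm_of_nonneg (by positivity)]
  calc _ ≤ N s ^ (2 / 3 : ℝ) * N s ^ (-(1 / 2) : ℝ) * (N s ^ (-1 / 6 : ℝ) * 1) := by
        gcongr
        exact (ccle hs).trans (by gcongr; exact W1.bb.norm_le s)
    _ = 1 := by
        rw [mul_one, ← Real.rpow_add n0, ← Real.rpow_add n0]
        norm_num

theorem step1 (s : O) {Y : ℝ} (hY : 0 < Y) : K.T0 s Y =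
    ka * ∫ t : ℝ, EL Y ((5 / 4 : ℝ) + t * I) * LS s ((5 / 4 : ℝ) + t * I) := by
  haveI := VIM.cntO
  have n0 : ∀ k, Prim k → 0 < N k := fun k hk =>
    lt_of_lt_of_le one_pos (W1.bas.b1.N_one_le _ (W1.bas.b2.ne _ hk))
  have := VIM.swap (F := fun (k : O) (t : ℝ) => EL Y ((5 / 4 : ℝ) + t * I) *
      if Prim k then K.cc k * cub s k * (N k : ℂ) ^ (-(((5 / 4 : ℝ) : ℂ) + t * I)) else 0)
    (fun k => ((EL_diff hY).continuous.comp (by fun_prop)).mul (by
      split_ifs with h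
      · exact continuous_const.mul (Continuous.const_cpow (by fun_prop)
          (Or.inl (ofReal_ne_zero.2 (n0 k h).ne')))
      · exact continuous_const))
    ((W1.bb.summ (7 / 4) (by norm_num)).mul_left (Real.exp 82 * Y ^ (5 / 4 : ℝ))) (fun k t => by
      have := VIM.N0 k
      rw [norm_mul, mul_right_comm _ _ (Real.exp (-|t|))]
      refine mul_le_mul (EL_le' hY t) ?_ (norm_nonneg _) (by positivity)
      split_ifs with h
      · rw [norm_mul, norm_mul, norm_cpow_eq_rpow_re_of_pos (n0 k h),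
          show (-(7 / 4) : ℝ) = -(1 / 2) + -(5 / 4) by norm_num, Real.rpow_add (n0 k h), ← mul_assoc]
        refine mul_le_mul ((mul_le_of_le_one_right (norm_nonneg _) (W1.bas.b6.norm_le _ _)).trans
          (ccle h)) (le_of_eq (by simp)) (by positivity) (by positivity)
      · rw [norm_zero]; positivity)
  simp only [tsum_mul_left] at this
  unfold K.T0 LS
  rw [← this.tsum_eq, ← tsum_mul_left]
  refine tsum_congr fun k => ?_
  split_ifs with h
  · rw [mel hY (n0 k h), mul_left_comm, ← integral_const_mul]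
    congr 2
    ext t
    ring
  · simp

theorem step2 {Y : ℝ} (hY : 0 < Y) :
    ka * ∫ t : ℝ, EL Y ((5 / 4 : ℝ) + t * I) / ((5 / 4 : ℝ) + t * I - 5 / 6) =
      ∫ x in Set.Ioi (1 : ℝ), (VV x Y : ℂ) * (x : ℂ) ^ (-(-(5 / 6) : ℂ) - 1) := by
  set H : ℝ → ℝ → ℂ := fun x t => EL Y ((5 / 4 : ℝ) + t * I) *
    (x : ℂ) ^ (-(((5 / 4 : ℝ) : ℂ) + t * I) + (-(-(5 / 6) : ℂ) - 1)) with hH
  have iH : Integrable (Function.uncurry H) ((volume.restrict (Set.Ioi (1 : ℝ))).prod volume) := by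
    refine ((integrableOn_Ioi_rpow_of_lt (a := -17 / 12) (by norm_num) one_pos).mul_prod
      (VIM.int_exp.const_mul (Real.exp 82 * Y ^ (5 / 4 : ℝ)))).mono' ?_ ?_
    · refine Measurable.aestronglyMeasurable ?_
      simp only [hH, Function.uncurry_def]
      exact (((EL_diff hY).continuous.comp (by fun_prop)).measurable).mul
        ((measurable_ofReal.comp measurable_fst).pow (by fun_prop))
    · refine (Measure.quasiMeasurePreserving_fst.ae (ae_restrict_mem measurableSet_Ioi)).mono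
        fun p hp => ?_
      have p0 : 0 < p.1 := lt_trans one_pos hp
      simp only [hH, Function.uncurry_def, norm_mul, norm_cpow_eq_rpow_re_of_pos p0]
      rw [mul_comm]
      refine mul_le_mul (le_of_eq ?_) (EL_le' hY _) (norm_nonneg _) (by positivity)
      congr 1
      simp
      norm_num
  have e1 : ∀ t : ℝ, EL Y ((5 / 4 : ℝ) + t * I) / ((5 / 4 : ℝ) + t * I - 5 / 6) =
      ∫ x in Set.Ioi (1 : ℝ), H x t := fun t => by
    simp only [hH]
    rw [integral_const_mul, integral_Ioi_cpow_of_lt (by simp; norm_num) one_pos, ofReal_one,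
      one_cpow, neg_div, ← div_neg, mul_one_div]
    congr 1
    ring
  simp only [e1]
  rw [← integral_integral_swap iH, ← integral_const_mul]
  refine setIntegral_congr_fun measurableSet_Ioi fun x hx => ?_
  have x0 : 0 < x := lt_trans one_pos hx
  have vs : VV x Y = VV Y x := by rw [VV, VV, ← inv_div x Y, Real.log_inv, neg_sq]
  rw [vs, mel hY x0, mul_assoc, ← integral_mul_const]
  congr 2
  ext t
  simp only [hH]
  rw [cpow_add _ _ (ofReal_ne_zero.2 x0.ne'), mul_assoc]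

theorem step3 : ∃ c : ℝ, 0 ≤ c ∧ ∀ Y : ℝ, 0 < Y →
    ‖(∫ x in Set.Ioi (1 : ℝ), (VV x Y : ℂ) * (x : ℂ) ^ (-(-(5 / 6) : ℂ) - 1)) -
      (√Real.pi * Real.exp (25 / 144) : ℝ) * ((Y ^ (5 / 6 : ℝ) : ℝ) : ℂ)‖ ≤ c := by
  have i0 : IntegrableOn (fun x : ℝ => x ^ (-1 / 6 : ℝ)) (Set.Ioc 0 1) :=
    (intervalIntegral.intervalIntegrable_rpow' (by norm_num)).1
  refine ⟨∫ x in Set.Ioc (0 : ℝ) 1, x ^ (-1 / 6 : ℝ),
    setIntegral_nonneg measurableSet_Ioc fun x hx => Real.rpow_nonneg hx.1.le _, fun Y hY => ?_⟩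
  have h := W2.ln.fwd Y (-(5 / 6)) hY
  have e : (√Real.pi : ℂ) * cexp ((-(5 / 6)) ^ 2 / 4) * (Y : ℂ) ^ (-(-(5 / 6)) : ℂ) =
      (√Real.pi * Real.exp (25 / 144) : ℝ) * ((Y ^ (5 / 6 : ℝ) : ℝ) : ℂ) := by
    rw [ofReal_cpow hY.le]
    push_cast
    norm_num
  rw [e] at h
  have i1 : IntegrableOn (fun x : ℝ => (VV x Y : ℂ) * (x : ℂ) ^ (-(-(5 / 6) : ℂ) - 1)) (Set.Ioi 0) :=
    Integrable.of_integral_ne_zero (by
      rw [h, ← ofReal_mul, ofReal_ne_zero]
      have := Real.pi_pos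
      positivity)
  rw [← h, ← Set.Ioc_union_Ioi_eq_Ioi zero_le_one, setIntegral_union Set.Ioc_disjoint_Ioi_same
    measurableSet_Ioi (i1.mono_set Set.Ioc_subset_Ioi_self)
    (i1.mono_set (Set.Ioi_subset_Ioi zero_le_one)), sub_add_cancel_right, norm_neg]
  refine norm_integral_le_of_norm_le i0 ((ae_restrict_mem measurableSet_Ioc).mono fun x hx => ?_)
  rw [norm_mul, norm_real, norm_cpow_eq_rpow_re_of_pos hx.1, VV,
    Real.norm_of_nonneg (Real.exp_pos _).le]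
  refine (mul_le_of_le_one_left (Real.rpow_nonneg hx.1.le _)
    (Real.exp_le_one_iff.2 (neg_nonpos.2 (sq_nonneg _)))).trans_eq ?_
  congr 1
  simp
  norm_num

end TIM

open TIM in
theorem tiS : TIStmt := by
  intro ρ hρ ε hε
  obtain ⟨d, d0, d1, d2⟩ : ∃ d : ℝ, 0 < d ∧ d ≤ 1 / 4 ∧ 3 * d ≤ ε :=
    ⟨min (1 / 4) (ε / 3), by positivity, min_le_left _ _, by linarith [min_le_right (1 / 4) (ε / 3)]⟩
  obtain ⟨C, C0, hC⟩ := hρ d d0 d1
  obtain ⟨c, c0, hc⟩ := step3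
  have I0 : 0 ≤ ∫ t : ℝ, Real.exp (-|t|) := integral_nonneg fun t => (Real.exp_pos _).le
  refine ⟨‖ka‖ * (Real.exp 82 * (C + ‖ρ‖) * 2 * ∫ t : ℝ, Real.exp (-|t|)) + ‖ρ‖ * c,
    fun s Y hs Y1 => ?_⟩
  have Y0 : 0 < Y := by linarith
  have N1 := W1.bas.b1.N_one_le _ (W1.bas.b2.ne _ hs)
  obtain ⟨F, f1, f2, f3, f4, f5⟩ := hC s hs
  obtain ⟨B, f2⟩ := f2 (-d)
  have m1 : ‖F (5 / 6)‖ ≤ ‖ρ‖ := by
    rw [f3, norm_mul]; exact mul_le_of_le_one_right (norm_nonneg _) (MM_le hs)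
  set G : ℂ → ℂ := fun z => EL Y z * (F z - F (5 / 6)) with hG
  have dG : DifferentiableOn ℂ G {z | z.re < 3 / 2} :=
    (EL_diff Y0).differentiableOn.mul (f1.sub_const _)
  have bG : ∀ z : ℂ, -d ≤ z.re → z.re ≤ 5 / 4 →
      ‖G z‖ ≤ Real.exp 82 * Y ^ (5 / 4 : ℝ) * (|B| + ‖ρ‖) * Real.exp (-|z.im|) := fun z a1 a2 => by
    have e8 : 1 ≤ Real.exp (8 * |z.im|) := Real.one_le_exp (by positivity)
    calc ‖G z‖ ≤ Real.exp 82 * Y ^ (5 / 4 : ℝ) * Real.exp (-(9 * |z.im|)) *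
          ((|B| + ‖ρ‖) * Real.exp (8 * |z.im|)) := by
          rw [hG, norm_mul]
          refine mul_le_mul ((EL_le Y0 (by linarith) a2).trans (by gcongr)) ((norm_sub_le _ _).trans ?_)
            (norm_nonneg _) (by positivity)
          have := f2 z a1 a2
          nlinarith [le_abs_self B, norm_nonneg ρ]
      _ = _ := by
          rw [show -|z.im| = -(9 * |z.im|) + 8 * |z.im| by ring, Real.exp_add]; ring
  have x := cross (a := -d) (by linarith) dG (by simp [hG]) bG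
  have i1 := RESM.line dG (σ := 5 / 4) (by norm_num) (by norm_num) fun t => by
    simpa using bG ((5 / 4 : ℝ) + t * I) (by simp; linarith) (by simp)
  have i2 := RESM.line (EL_diff Y0).differentiableOn (σ := 5 / 4) (by norm_num) (by norm_num)
    (EL_le' Y0)
  have e : K.T0 s Y = ka * (∫ t : ℝ, G ((-d : ℝ) + t * I) / ((-d : ℝ) + t * I - 5 / 6)) + F (5 / 6) *
      (ka * ∫ t : ℝ, EL Y ((5 / 4 : ℝ) + t * I) / ((5 / 4 : ℝ) + t * I - 5 / 6)) := by
    rw [step1 s Y0, x, mul_left_comm, ← mul_add, ← integral_const_mul (F (5 / 6)),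
      ← integral_add i1 (i2.const_mul _)]
    congr 2
    ext t
    have := RESM.ne56 (σ := 5 / 4) (by norm_num) t
    simp only [hG]
    rw [f4 _ (by simp; norm_num) (by simp; norm_num)]
    generalize (((5 / 4 : ℝ) : ℂ) + t * I - 5 / 6) = w at this ⊢
    field_simp
    ring
  have P1 : 1 ≤ N s ^ (1 / 2 + ε) := Real.one_le_rpow N1 (by positivity)
  have b1 : ‖∫ t : ℝ, G ((-d : ℝ) + t * I) / ((-d : ℝ) + t * I - 5 / 6)‖ ≤
      Real.exp 82 * (C + ‖ρ‖) * 2 * N s ^ (1 / 2 + ε) * ∫ t : ℝ, Real.exp (-|t|) := by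
    rw [← integral_const_mul]
    refine norm_integral_le_of_norm_le (VIM.int_exp.const_mul _) (.of_forall fun t => ?_)
    have q : 1 / 2 ≤ ‖((-d : ℝ) : ℂ) + t * I - 5 / 6‖ := by
      have := Complex.abs_re_le_norm (((-d : ℝ) : ℂ) + t * I - 5 / 6)
      simp at this ⊢
      linarith [neg_le_abs (-d - 5 / 6)]
    have a1 := EL_le Y0 (z := (-d : ℝ) + t * I) (by simp; linarith) (by simp; linarith)
    simp only [add_re, ofReal_re, mul_re, I_re, mul_zero, ofReal_im, I_im, mul_one, sub_self,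
      add_zero, add_im, mul_im, zero_add] at a1
    have a2 : Y ^ (-d) ≤ 1 := Real.rpow_le_one_of_one_le_of_nonpos Y1 (by linarith)
    have e8 : 1 ≤ Real.exp (8 * |t|) := Real.one_le_exp (by positivity)
    have a3 : (1 + |t|) ^ (3 + 4 * d) ≤ Real.exp (8 * |t|) := by
      rw [mul_comm 8, Real.exp_mul]
      exact (Real.rpow_le_rpow_of_exponent_le (by linarith [abs_nonneg t]) (by linarith)).trans
        (Real.rpow_le_rpow (by positivity) (by linarith [Real.add_one_le_exp |t|]) (by norm_num))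
    have a4 : ‖F ((-d : ℝ) + t * I)‖ ≤ C * N s ^ (1 / 2 + ε) * Real.exp (8 * |t|) := by
      rw [ofReal_neg]
      exact (f5 t).trans (by gcongr)
    rw [norm_div, div_le_iff₀ (by linarith)]
    calc _ ≤ Real.exp 82 * 1 * Real.exp (-(9 * |t|)) *
          ((C + ‖ρ‖) * N s ^ (1 / 2 + ε) * Real.exp (8 * |t|)) := by
          rw [hG, norm_mul]
          refine mul_le_mul (a1.trans (by gcongr)) ((norm_sub_le _ _).trans ?_)
            (norm_nonneg _) (by positivity)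
          have : ‖ρ‖ * 1 ≤ ‖ρ‖ * (N s ^ (1 / 2 + ε) * Real.exp (8 * |t|)) := by
            gcongr
            exact one_le_mul_of_one_le_of_one_le P1 e8
          nlinarith
      _ = Real.exp 82 * (C + ‖ρ‖) * 2 * N s ^ (1 / 2 + ε) * Real.exp (-|t|) * (1 / 2) := by
          rw [show -|t| = -(9 * |t|) + 8 * |t| by ring, Real.exp_add]; ring
      _ ≤ _ := by gcongr
  have b2 := hc Y Y0
  rw [← step2 Y0] at b2
  have P2 : 1 ≤ Y ^ ε := Real.one_le_rpow Y1 hε.le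
  rw [e, mul_right_comm ρ, ← f3, mul_assoc (F _), add_sub_assoc, ← mul_sub]
  refine (norm_add_le _ _).trans ?_
  rw [norm_mul, norm_mul]
  calc _ ≤ ‖ka‖ * (Real.exp 82 * (C + ‖ρ‖) * 2 * N s ^ (1 / 2 + ε) * ∫ t : ℝ, Real.exp (-|t|)) +
        ‖ρ‖ * c * N s ^ (1 / 2 + ε) := by
        refine add_le_add (by gcongr) ?_
        exact (mul_le_mul m1 b2 (norm_nonneg _) (norm_nonneg _)).trans
          (le_mul_of_one_le_right (by positivity) P1)
    _ = (‖ka‖ * (Real.exp 82 * (C + ‖ρ‖) * 2 * ∫ t : ℝ, Real.exp (-|t|)) + ‖ρ‖ * c) *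
        N s ^ (1 / 2 + ε) * 1 := by ring
    _ ≤ _ := by gcongr

end Vale.Agent.P026.Z
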