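import Vale.Agent.P006.A.Stm

/-! The Voronoi formula with main term. -/

noncomputable section
open Complex MeasureTheory Filter Topology
open scoped Classical ComplexConjugate

namespace Vale.Agent.P026.Z

namespace VIAM

theorem EW_norm {Y : ℝ} (hY : 0 < Y) (t0 : ℝ) (s : ℂ) :
    ‖VIM.EW Y t0 s‖ = Real.exp (((s.re - 1 / 2) ^ 2 - (s.im - t0) ^ 2) / 4) * Y ^ (s.re - 1 / 2) := by
  have e1 : ((s - (1 / 2 + t0 * I)) ^ 2 / 4).re = ((s.re - 1 / 2) ^ 2 - (s.im - t0) ^ 2) / 4 := by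
    simp [sq]
  have e2 : (s - (1 / 2 + t0 * I)).re = s.re - 1 / 2 := by simp
  rw [VIM.EW, norm_mul, Complex.norm_exp, Complex.norm_cpow_eq_rpow_re_of_pos hY, e1, e2]

theorem EW_le {Y : ℝ} (hY : 0 < Y) (t0 : ℝ) {a : ℝ} (ha : a ≤ -1 / 2) : ∃ C, 0 ≤ C ∧ ∀ s : ℂ,
    a ≤ s.re → s.re ≤ 5 / 4 → ‖VIM.EW Y t0 s‖ ≤ C * Real.exp (-(9 * |s.im|)) := by
  refine ⟨Real.exp ((a - 1 / 2) ^ 2 + 81 + 9 * |t0| + |Real.log Y| * (1 / 2 - a)),
    (Real.exp_pos _).le, fun s h1 h2 => ?_⟩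
  rw [EW_norm hY, Real.rpow_def_of_pos hY, ← Real.exp_add, ← Real.exp_add]
  refine Real.exp_le_exp.2 ?_
  have a1 : Real.log Y * (s.re - 1 / 2) ≤ |Real.log Y| * (1 / 2 - a) := by
    refine (le_abs_self _).trans ?_
    rw [abs_mul]
    exact mul_le_mul_of_nonneg_left (abs_le.2 ⟨by linarith, by linarith⟩) (abs_nonneg _)
  have a2 : |s.im| ≤ |s.im - t0| + |t0| := by simpa using abs_add_le (s.im - t0) t0
  have a3 : (s.re - 1 / 2) ^ 2 ≤ (a - 1 / 2) ^ 2 := by nlinarith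
  nlinarith [sq_abs (s.im - t0), sq_nonneg (|s.im - t0| - 18), sq_nonneg (a - 1 / 2)]

theorem pw (A : ℕ) (t t0 : ℝ) :
    Real.exp ((A ^ 2 - (t - t0) ^ 2) / 4) * (1 + |t|) ^ (4 * A) ≤
      Real.exp (A ^ 2 + (4 * A + 1) ^ 2) * (1 + |t0|) ^ (4 * A) * Real.exp (-|t - t0|) := by
  have a2 : |t| ≤ |t - t0| + |t0| := by simpa using abs_add_le (t - t0) t0
  have u0 := abs_nonneg (t - t0)
  have v0 := abs_nonneg t0
  have b1 : 1 + |t| ≤ (1 + |t0|) * Real.exp |t - t0| := by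
    have := Real.add_one_le_exp |t - t0|
    nlinarith [mul_nonneg u0 v0]
  have b2 := pow_le_pow_left₀ (by positivity) b1 (4 * A)
  rw [mul_pow, ← Real.exp_nat_mul] at b2
  have b3 : Real.exp ((A ^ 2 - (t - t0) ^ 2) / 4) * Real.exp (((4 * A : ℕ) : ℝ) * |t - t0|) ≤
      Real.exp (A ^ 2 + (4 * A + 1) ^ 2) * Real.exp (-|t - t0|) := by
    rw [← Real.exp_add, ← Real.exp_add]
    refine Real.exp_le_exp.2 ?_
    push_cast
    nlinarith [sq_abs (t - t0), sq_nonneg (|t - t0| - 2 * (4 * A + 1)), sq_nonneg (A : ℝ)]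
  calc _ ≤ Real.exp ((A ^ 2 - (t - t0) ^ 2) / 4) *
        ((1 + |t0|) ^ (4 * A) * Real.exp (((4 * A : ℕ) : ℝ) * |t - t0|)) :=
        mul_le_mul_of_nonneg_left b2 (Real.exp_pos _).le
    _ = (1 + |t0|) ^ (4 * A) * (Real.exp ((A ^ 2 - (t - t0) ^ 2) / 4) *
        Real.exp (((4 * A : ℕ) : ℝ) * |t - t0|)) := by ring
    _ ≤ (1 + |t0|) ^ (4 * A) * (Real.exp (A ^ 2 + (4 * A + 1) ^ 2) * Real.exp (-|t - t0|)) :=
        mul_le_mul_of_nonneg_left b3 (by positivity)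
    _ = _ := by ring

end VIAM

open VIAM in
theorem viaS (hB : Bas) (hb : BB) (hA : ACStmt) (hR : RESStmt) (hL : LN) (hG : GAM) : VIAStmt := by
  obtain ⟨ρ, K, hK, hA⟩ := hA
  obtain ⟨κ, hR⟩ := hR
  set c0 : ℝ := (2 * Real.sqrt Real.pi : ℝ)⁻¹ with hc0
  have c00 : 0 ≤ c0 := by positivity
  refine ⟨fun r h => (c0 : ℂ) * κ * ρ r h, fun A hA1 => ?_⟩
  obtain ⟨Cg, hg⟩ := hG.ln A
  have Cg0 : 0 ≤ Cg := by simpa using (norm_nonneg _).trans (hg 0)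
  set I0 : ℝ := ∫ t : ℝ, Real.exp (-|t|) with hI0
  have I00 : 0 ≤ I0 := integral_nonneg fun t => (Real.exp_pos _).le
  set a : ℝ := 1 / 2 - A with ha
  have A1 : (1 : ℝ) ≤ A := by exact_mod_cast hA1
  have ha2 : a ≤ -1 / 2 := by linarith
  refine ⟨c0 * (K * Cg * 3 ^ (-18 * a) * Real.exp (A ^ 2 + (4 * A + 1) ^ 2) * I0), by positivity,
    fun r h Ψ Y t0 M hC hY hD => ?_⟩
  obtain ⟨F, F1, F2, F3, F4, F5⟩ := hA r h Ψ hC
  have M0 : 0 ≤ M := (norm_nonneg _).trans (hD 1 0 1 isUnit_one hB.b2.one)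
  have h0 : 0 < N h := lt_of_lt_of_le one_pos (hB.b1.N_one_le h (hB.b2.ne _ hC.1))
  obtain ⟨C1, hC1, hE⟩ := EW_le hY t0 ha2
  obtain ⟨C2, hC2⟩ := F2 a
  have key := hR (fun s => VIM.EW Y t0 s * F s) a (C1 * C2) ha2
    ((VIM.EW_diff hY t0).differentiableOn.mul F1) fun s a1 a2 => by
      have e : Real.exp (-|s.im|) = Real.exp (-(9 * |s.im|)) * Real.exp (8 * |s.im|) := by
        rw [← Real.exp_add]; congr 1; ring
      rw [norm_mul, e]
      calc _ ≤ C1 * Real.exp (-(9 * |s.im|)) * (C2 * Real.exp (8 * |s.im|)) :=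
            mul_le_mul (hE s a1 a2) (hC2 s a1 a2) (norm_nonneg _) (by positivity)
        _ = _ := by ring
  have e1 : ∀ t : ℝ, VIM.EW Y t0 ((5 / 4 : ℝ) + t * I) * F ((5 / 4 : ℝ) + t * I) /
      ((5 / 4 : ℝ) + t * I - 5 / 6) =
      VIM.EW Y t0 ((5 / 4 : ℝ) + t * I) * DP 0 r h Ψ ((5 / 4 : ℝ) + t * I) := fun t => by
    have n0 : ((5 / 4 : ℝ) : ℂ) + t * I - 5 / 6 ≠ 0 := by
      intro e
      have := congrArg Complex.re e
      simp at this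
      norm_num at this
    rw [F4 _ (by simp; norm_num) (by simp; norm_num), mul_left_comm, mul_div_cancel_left₀ _ n0]
  simp only [e1] at key
  have e2 : TT 0 r (fs h Ψ) Y (1 / 2 + t0 * I) -
      (c0 : ℂ) * κ * ρ r h * (∑ a ∈ Rs h, Ψ a * cub a h) * VIM.EW Y t0 (5 / 6) =
      (c0 : ℂ) * ∫ t : ℝ, VIM.EW Y t0 (a + t * I) * F (a + t * I) / (a + t * I - 5 / 6) := by
    rw [VIM.mellin hB hb hL 0 r h Ψ hY t0, key, F3]
    ring
  rw [e2, norm_mul, Complex.norm_real, Real.norm_of_nonneg c00]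
  set W : ℝ := K * Cg * 3 ^ (-18 * a) * Real.exp (A ^ 2 + (4 * A + 1) ^ 2) * M *
    (N h ^ 2 * (1 + |t0|) ^ 4 / Y) ^ A with hW
  have bd : ∀ t : ℝ, ‖VIM.EW Y t0 (a + t * I) * F (a + t * I) / (a + t * I - 5 / 6)‖ ≤
      W * Real.exp (-|t - t0|) := fun t => by
    have r1 : ((a : ℂ) + t * I).re = a := by simp
    have r2 : ((a : ℂ) + t * I).im = t := by simp
    have n0 : 0 < ‖(a : ℂ) + t * I - 5 / 6‖ := by
      refine norm_pos_iff.2 fun e => ?_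
      have := congrArg Complex.re e
      simp at this
      linarith
    have b1 := F5 M (a + t * I) hD (by rw [r1]; exact ha2)
    have b2 : ‖gg (a + t * I)‖ ≤ Cg * (1 + |t|) ^ (4 * A) := by
      have := hg t
      rw [ha]; push_cast; exact this
    have e3 : a - 1 / 2 = -(A : ℝ) := by rw [ha]; ring
    have e4 : 1 - 2 * a = ((2 * A : ℕ) : ℝ) := by rw [ha]; push_cast; ring
    rw [r1, e4, Real.rpow_natCast] at b1
    have b3 : ‖F (a + t * I)‖ / ‖(a : ℂ) + t * I - 5 / 6‖ ≤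
        K * M * (Cg * (1 + |t|) ^ (4 * A) * N h ^ (2 * A) * 3 ^ (-18 * a)) := by
      rw [div_le_iff₀ n0]
      refine b1.trans ?_
      calc _ ≤ K * M * (‖(a : ℂ) + t * I - 5 / 6‖ * (Cg * (1 + |t|) ^ (4 * A)) * N h ^ (2 * A) *
            3 ^ (-18 * a)) := by gcongr
        _ = _ := by ring
    rw [mul_div_assoc, norm_mul, norm_div, EW_norm hY, r1, r2, e3, Real.rpow_neg hY.le,
      Real.rpow_natCast, neg_sq]
    have b4 := pw A t t0
    calc _ ≤ Real.exp ((A ^ 2 - (t - t0) ^ 2) / 4) * (Y ^ A)⁻¹ *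
          (K * M * (Cg * (1 + |t|) ^ (4 * A) * N h ^ (2 * A) * 3 ^ (-18 * a))) :=
          mul_le_mul_of_nonneg_left b3 (by positivity)
      _ = (Y ^ A)⁻¹ * (K * M * (Cg * N h ^ (2 * A) * 3 ^ (-18 * a))) *
          (Real.exp ((A ^ 2 - (t - t0) ^ 2) / 4) * (1 + |t|) ^ (4 * A)) := by ring
      _ ≤ (Y ^ A)⁻¹ * (K * M * (Cg * N h ^ (2 * A) * 3 ^ (-18 * a))) *
          (Real.exp (A ^ 2 + (4 * A + 1) ^ 2) * (1 + |t0|) ^ (4 * A) * Real.exp (-|t - t0|)) :=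
          mul_le_mul_of_nonneg_left b4 (by positivity)
      _ = _ := by
          rw [hW, div_pow, mul_pow, ← pow_mul, ← pow_mul]
          ring
  have k3 := norm_integral_le_of_norm_le ((VIM.int_exp.comp_sub_right t0).const_mul W) (.of_forall bd)
  rw [integral_const_mul, integral_sub_right_eq_self (fun u : ℝ => Real.exp (-|u|)), ← hI0] at k3
  refine (mul_le_mul_of_nonneg_left k3 c00).trans (le_of_eq ?_)
  rw [hW]; ring

end Vale.Agent.P026.Z
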