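import Vale.Agent.P006.A.CT
import Vale.Agent.P006.A.TH1
import Vale.Agent.P006.A.KG
import Vale.Agent.P006.A.GAM
import Vale.Agent.P006.A.MEL
import Vale.Agent.P006.A.FE
import Vale.Agent.P006.A.GG
import Vale.Agent.P006.A.RES
import Vale.Agent.P006.A.VIA
import Vale.Agent.P006.A.TI
import Vale.Agent.P006.K.CUB
import Vale.Agent.P006.K.DEC
import Vale.Agent.P006.K.EM
import Vale.Agent.P006.K.FIN
import Vale.Agent.P006.K.GB
import Vale.Agent.P006.K.GZ
import Vale.Agent.P006.K.KER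
import Vale.Agent.P006.K.KL
import Vale.Agent.P006.K.KR
import Vale.Agent.P006.K.MZ
import Vale.Agent.P006.K.NC
import Vale.Agent.P006.K.NC1
import Vale.Agent.P006.K.P1
import Vale.Agent.P006.K.POI
import Vale.Agent.P006.K.RAT
import Vale.Agent.P006.K.SQ
import Vale.Agent.P006.K.TR
import Vale.Agent.P006.K.W0
import Vale.Agent.P006.K.W8
import Vale.Agent.P026.M.B8

/-! P006: branches A and K, unconditionally. -/

noncomputable section

namespace Vale.Agent.P006.AK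

open Vale.Agent.P026

theorem env : K.Env :=
  ⟨W1.bas, W1.cr, W1.p9, W1.j, W1.hd, W1.bb, b8S W1.bas, W2.ln, W2.gpo, W2.gamm, W2.sh⟩

theorem fe : Z.FEStmt := Z.feS W1.bas W1.bb W2.inv1 Z.th1S (Z.kgS W1.bas W2.gf) W2.av0 W2.av1
  (Z.melS W2.kk W2.gamm)
theorem ac : Z.ACStmt := Z.acS W1.bas W1.bb fe
theorem via : Z.VIAStmt := Z.viaS W1.bas W1.bb ac (Z.resS W2.sh) W2.ln Z.gamS
theorem ct : Z.CTStmt := Z.ctS env (Z.ac2S W1.bas W1.bb fe) (Z.ggS W2.gamm Z.gamS)

theorem em : K.EMStmt := K.emS env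
theorem dec : K.DECStmt := K.decS env
theorem w8 : K.W8Stmt := K.w8S env (K.w0S env (K.trS env))
theorem kS : K.KStmt :=
  K.finS env em w8 (K.klS env em (K.mzS env em) (K.ratS env) w8)
    (K.krS env em dec (K.poiS env dec (K.ratS env) (K.gzS env) (K.p1S env)) (K.cubS env em dec))
    (K.ncS env (K.nc1S env (K.kerS env) (K.sqS env (K.trS env) (K.gbS env))) em dec)

/-- the residue constant -/
def rho : ℝ := K.cstar * (2 * Real.pi / (9 * Real.sqrt 3))

theorem ctx : Z.CT rho := by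
  obtain ⟨ρ, h⟩ := ct
  have h1 := kS _ (Z.tiS ρ h)
  have h2 : ((Real.sqrt Real.pi * Real.exp (25 / 144) : ℝ) : ℂ) ≠ 0 :=
    Complex.ofReal_ne_zero.2 (by positivity)
  have h3 : ρ = rho := by
    refine mul_right_cancel₀ h2 (h1.trans ?_)
    rw [← Complex.ofReal_mul, rho, K.rho0]
    congr 1
    ring
  rwa [h3] at h

theorem ti : K.TI (K.cstar * K.rho0 : ℝ) := by
  obtain ⟨ρ, h⟩ := ct
  have h1 := Z.tiS ρ h
  rwa [kS _ h1] at h1

end Vale.Agent.P006.AK
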