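import Vale.Agent.P006.A.CT2

/-! P006 branch A: continuation of the twisted series, value at the pole, dual bound. -/

noncomputable section
open Complex Filter Topology
open scoped Classical ComplexConjugate

namespace Vale.Agent.P026.Z

namespace CTM

open Vale.Agent.P006 VScM VIM

variable {p : O}

def Gw (F : ℂ → ℂ) : Prop :=
  ∀ a : ℝ, ∃ B : ℝ, ∀ z : ℂ, a ≤ z.re → z.re ≤ 5 / 4 → ‖F z‖ ≤ B * Real.exp (8 * |z.im|)

def Base (ρ : O → ℂ) (K : ℝ) : Prop := ∀ (h : O) (Ψ : O → ℂ), Cf h Ψ → ∃ F : ℂ → ℂ,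
  DifferentiableOn ℂ F {s | s.re < 3 / 2} ∧ Gw F ∧ F (5 / 6) = ρ h * ∑ a ∈ Rs h, Ψ a * cub a h ∧
  (∀ z : ℂ, 1 < z.re → z.re < 3 / 2 → F z = (z - 5 / 6) * LF (fs h Ψ) z) ∧
  ∀ (M : ℝ) (z : ℂ), DW h Ψ (1 - z.re) M → z.re < 0 →
    ‖F z‖ ≤ K * M * (‖z - 5 / 6‖ * ‖gg z‖ * N h ^ (1 - 2 * z.re) * 3 ^ (-18 * z.re))

lemma LF_eq (E : K.Env) (h : O) (Ψ : O → ℂ) {z : ℂ} (hz : 1 < z.re) :
    LF (fs h Ψ) z = ∑ r ∈ Rs 27, cub lam r * DP 0 r h Ψ z := by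
  have hB := E.hB
  have sm := tz_summ E (φ := fs h Ψ) (ACM.fs_le hB h Ψ) hz
  have e : ∀ r, cub lam r * DP 0 r h Ψ z =
      ∑' k, if (27 : O) ∣ k - r then tz (fs h Ψ) z k else 0 := fun r => by
    rw [ACM.DP_eq hB E.hb 0 r h Ψ hz, ← tsum_mul_left]
    refine tsum_congr fun k => ?_
    split_ifs with c
    swap
    · rw [mul_zero]
    by_cases hk : Prim k
    swap
    · simp [tz, bb0 hB E.hb hk]
    have hr : Prim r := by
      have e : r - 1 = (k - 1) - (k - r) := by ring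
      unfold Prim at hk ⊢
      rw [e]
      exact dvd_sub hk (dvd_trans ⟨9, by norm_num⟩ c)
    rw [tz, E.h9 lam k r hB.b1.prime_lam.ne_zero hk hr
      (dvd_trans ⟨-lam, by linear_combination 9 * hB.b1.lam_sq⟩ c), ang, zpow_zero]
    ring
  simp only [e]
  rw [← Summable.tsum_finsetSum fun r _ => (sm.indicator {k | (27 : O) ∣ k - r}).congr fun D => by
    simp [Set.indicator]]
  refine tsum_congr fun k => ?_
  have n27 : (27 : O) ≠ 0 := by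
    have := pow_ne_zero 6 hB.b1.prime_lam.ne_zero
    rwa [show lam ^ 6 = -27 by linear_combination (lam ^ 4 - 3 * lam ^ 2 + 9) * hB.b1.lam_sq,
      neg_ne_zero] at this
  obtain ⟨r, hr, d⟩ := hB.b4.ex 27 k n27
  rw [Finset.sum_eq_single_of_mem r hr, if_pos d]
  intro r' hr' ne
  refine if_neg fun d' => ne (hB.b4.uniq 27 r' r n27 hr' hr ?_)
  simpa using d.sub d'

lemma base (E : K.Env) (hA : AC2Stmt) : ∃ (ρ : O → ℂ) (K : ℝ), 0 ≤ K ∧ Base ρ K := by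
  obtain ⟨ρ, K, hK, H⟩ := hA
  refine ⟨fun h => ∑ r ∈ Rs 27, cub lam r * ρ r h, ∑ _r ∈ Rs 27, K, by positivity,
    fun h Ψ hC => ?_⟩
  choose F h1 h2 h3 h4 h5 using fun r => H r h Ψ hC
  have nl : ∀ (z : ℂ) (g : O → ℝ), (∀ r, ‖F r z‖ ≤ g r) →
      ‖∑ r ∈ Rs 27, cub lam r * F r z‖ ≤ ∑ r ∈ Rs 27, g r := fun z g hg =>
    norm_sum_le_of_le _ fun r _ => by
      rw [norm_mul]
      exact (mul_le_of_le_one_left (norm_nonneg _) (E.hB.b6.norm_le _ _)).trans (hg r)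
  refine ⟨fun z => ∑ r ∈ Rs 27, cub lam r * F r z,
    DifferentiableOn.fun_sum fun r _ => (h1 r).const_mul _, fun a => ?_, ?_, fun z a1 a2 => ?_,
    fun M z a1 a2 => ?_⟩
  · choose B hB using fun r => h2 r a
    refine ⟨∑ r ∈ Rs 27, B r, fun z a1 a2 => ?_⟩
    rw [Finset.sum_mul]
    exact nl z _ fun r => hB r z a1 a2
  · simp only [h3, Finset.sum_mul, mul_assoc]
  · simp only [h4 _ z a1 a2]
    rw [LF_eq E h Ψ a1, Finset.mul_sum]
    exact Finset.sum_congr rfl fun r _ => by ring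
  · rw [Finset.sum_mul, Finset.sum_mul]
    exact nl z _ fun r => h5 r M z a1 a2

def Cn (F : ℂ → ℂ) (s : O) (v : ℂ) : Prop := DifferentiableOn ℂ F {z | z.re < 3 / 2} ∧
  F (5 / 6) = v ∧ ∀ z : ℂ, 1 < z.re → z.re < 3 / 2 → F z = (z - 5 / 6) * LS s z

lemma uniq {F G : ℂ → ℂ} {s : O} {v w : ℂ} (hF : Cn F s v) (hG : Cn G s w) : v = w := by
  have ho : IsOpen {z : ℂ | z.re < 3 / 2} := isOpen_lt continuous_re continuous_const
  rw [← hF.2.1, ← hG.2.1]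
  refine (hF.1.analyticOnNhd ho).eqOn_of_preconnected_of_eventuallyEq (hG.1.analyticOnNhd ho)
    (convex_halfSpace_re_lt _).isPreconnected (z₀ := 5 / 4) (by simp; norm_num) ?_
    (by simp; norm_num)
  filter_upwards [((isOpen_lt continuous_const continuous_re).inter ho).mem_nhds
    (show (5 / 4 : ℂ) ∈ {z : ℂ | 1 < z.re} ∩ {z : ℂ | z.re < 3 / 2} by simp; norm_num)] with z hz
  rw [hF.2.2 z hz.1 hz.2, hG.2.2 z hz.1 hz.2]

/-- the combination removing the prime `p` -/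
def cmb (p s : O) (F G : ℂ → ℂ) (z : ℂ) : ℂ :=
  (1 - (N p : ℂ) ^ (1 / 2 - 3 * z)) * F z - K.cc p * cub p s * (N p : ℂ) ^ (-z) * G z

def uu (p : O) : ℂ := ((N p ^ (-1 / 6 : ℝ) : ℝ) : ℂ)

lemma uu_ne (hB : Bas) (hp : Prime p) : uu p ≠ 0 :=
  ofReal_ne_zero.2 (Real.rpow_pos_of_pos (Npos hB hp.ne_zero) _).ne'

lemma cnA (E : K.Env) (hp : Prime p) (ho : Prim p) {s : O} (hs : Prim s) (hps : ¬ p ∣ s)
    {F G : ℂ → ℂ} {v w : ℂ} (hF : Cn F s v) (hG : Cn G (p * s) w) : Cn (cmb p s F G) (p ^ 3 * s)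
      ((1 - (N p : ℂ)⁻¹ ^ 2) * v - K.cc p * cub p s * ((N p : ℂ)⁻¹ / uu p) * w) := by
  have h0 := Npos E.hB hp.ne_zero
  have n0 : (N p : ℂ) ≠ 0 := ofReal_ne_zero.2 h0.ne'
  refine ⟨?_, ?_, fun z a1 a2 => ?_⟩
  · refine DifferentiableOn.sub (DifferentiableOn.mul (Differentiable.differentiableOn ?_) hF.1)
      (DifferentiableOn.mul (Differentiable.differentiableOn ?_) hG.1)
    · exact (Differentiable.const_cpow (by fun_prop) (Or.inl n0)).const_sub _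
    · exact (Differentiable.const_cpow (by fun_prop) (Or.inl n0)).const_mul _
  · have e1 : (N p : ℂ) ^ (1 / 2 - 3 * (5 / 6) : ℂ) = (N p : ℂ)⁻¹ ^ 2 := by
      rw [show (1 / 2 - 3 * (5 / 6) : ℂ) = -(2 : ℕ) by norm_num, cpow_neg, cpow_natCast, inv_pow]
    have e2 : (N p : ℂ) ^ (-(5 / 6) : ℂ) = (N p : ℂ)⁻¹ / uu p := by
      rw [uu, ofReal_cpow h0.le, ← cpow_neg_one, ← cpow_sub _ _ n0]
      congr 1
      push_cast
      ring
    rw [cmb, hF.2.1, hG.2.1, e1, e2]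
  · rw [cmb, hF.2.2 z a1 a2, hG.2.2 z a1 a2, recA E hp ho hs hps a1]
    ring

lemma ncc (E : K.Env) (hp : Prime p) (ho : Prim p) : ‖K.cc p‖ = 1 := by
  have h0 := Npos E.hB hp.ne_zero
  rw [K.cc, norm_div, norm_mul, bbp1 E.hb hp ho, ngs E hp ho, E.hB.b6.norm _ _
    ((E.hB.b1.prime_lam.irreducible.coprime_iff_not_dvd).2
      ((E.hB.b2.cop_iff p).1 (E.hB.b2.cop p ho))), one_mul, norm_real,
    Real.norm_of_nonneg (Real.sqrt_nonneg _), div_self (by positivity)]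

lemma pf_step (E : K.Env) (hp : Prime p) (ho : Prim p) {s : O} (hs : Prim s) {j : ℕ} (hj : j ≠ 0) :
    pf (p ^ j * s) = insert p (pf s) := by
  rw [E.h8.pf_mul _ _ (pow_ne_zero j hp.ne_zero) (E.hB.b2.ne s hs), E.h8.pf_pp p j hp ho hj,
    Finset.insert_eq]

lemma pf_not (E : K.Env) {s : O} (hs : Prim s) (hps : ¬ p ∣ s) : p ∉ pf s :=
  fun c => hps ((E.h8.mem s p (E.hB.b2.ne s hs)).1 c).2.2

lemma MM1 (E : K.Env) : K.MM 1 = 1 := by
  simp [K.MM, K.cc, K.EP, E.h8.pf_one, E.hb.one, N1 E.hB, E.hB.b6.unit_r _ _ isUnit_one]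

lemma MMa (E : K.Env) (hp : Prime p) (ho : Prim p) {s : O} (hs : Prim s) (hps : ¬ p ∣ s) :
    K.MM (p * s) = conj (K.cc p * cub p s) * uu p * (1 - (N p : ℂ)⁻¹) * K.MM s := by
  have e := pf_step E hp ho hs one_ne_zero
  rw [pow_one] at e
  simp only [K.MM, K.cc, K.EP, uu]
  rw [e, Finset.prod_insert (pf_not E hs hps), E.hb.mul p s ho hs ((cop hp).2 hps).symm,
    E.hB.b6.mul_r _ _ _ hp.ne_zero (E.hB.b2.ne s hs), E.hB.b1.N_mul, Real.sqrt_mul (N0 p),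
    Real.mul_rpow (N0 p) (N0 s)]
  simp only [map_mul, map_div₀, ofReal_mul, ofReal_sub, ofReal_one, ofReal_inv]
  ring

lemma MMb (E : K.Env) (hp : Prime p) (ho : Prim p) {s : O} (hs : Prim s) (hps : ¬ p ∣ s) :
    K.MM (p ^ 2 * s) = 0 := by
  have h2 : bb (p ^ 2) = 0 := by simpa using E.hb.pp2 p 0 hp ho
  simp [K.MM, K.cc, E.hb.mul _ s (E.hB.b2.pow p 2 ho) hs ((cop hp).2 hps).symm.pow_left, h2]

lemma MMc (E : K.Env) (hp : Prime p) (ho : Prim p) {s : O} (hs : Prim s) :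
    K.MM (p ^ 3 * s) = (if p ∣ s then 1 else 1 - (N p : ℂ)⁻¹) * K.MM s := by
  have hB := E.hB
  have h0 := Npos hB hp.ne_zero
  have s0 := hB.b2.ne s hs
  have e1 : K.EP (p ^ 3 * s) = (if p ∣ s then 1 else 1 - (N p)⁻¹) * K.EP s := by
    rw [K.EP, pf_step E hp ho hs three_ne_zero]
    split_ifs with c
    · rw [Finset.insert_eq_of_mem ((E.h8.mem s p s0).2 ⟨hp, ho, c⟩), one_mul, K.EP]
    · rw [Finset.prod_insert (pf_not E hs c), K.EP]
  have a1 := hB.b6.cube lam p ((hB.b1.prime_lam.irreducible.coprime_iff_not_dvd).2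
    ((hB.b2.cop_iff p).1 (hB.b2.cop p ho)))
  have e2 : (N p ^ 3) ^ (-1 / 6 : ℝ) = Real.sqrt (N p ^ 3) / N p ^ 2 := by
    rw [Real.sqrt_eq_rpow, ← Real.rpow_natCast, ← Real.rpow_natCast, ← Real.rpow_mul h0.le,
      ← Real.rpow_mul h0.le, ← Real.rpow_sub h0]
    norm_num
  have n0 : (N p : ℂ) ≠ 0 := ofReal_ne_zero.2 h0.ne'
  have n1 : (Real.sqrt (N p ^ 3) : ℂ) ≠ 0 := ofReal_ne_zero.2 (by positivity)
  simp only [K.MM, K.cc]
  rw [e1, hB.b6.mul_r _ _ _ (pow_ne_zero 3 hp.ne_zero) s0, hB.b6.pow_r _ _ _ hp.ne_zero, a1,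
    hB.b1.N_mul, hB.b1.N_pow, Real.sqrt_mul (by positivity), Real.mul_rpow (by positivity) (N0 s),
    e2, mul_comm (p ^ 3), E.hb.cube s p hs ho]
  split_ifs <;> simp only [map_mul, map_div₀, ofReal_mul, ofReal_sub, ofReal_one, ofReal_inv,
    ofReal_div, ofReal_pow, map_pow, conj_ofReal, one_mul] <;> field_simp

lemma cn_of (E : K.Env) {s : O} (hs : Prim s) {F : ℂ → ℂ} {φ : O → ℂ} (hφ : ∀ k, φ k = cub k s)
    (h : ∀ z : ℂ, 1 < z.re → z.re < 3 / 2 → F z = (z - 5 / 6) * LF φ z) (z : ℂ) (a1 : 1 < z.re)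
    (a2 : z.re < 3 / 2) : F z = (z - 5 / 6) * LS s z := by
  rw [h z a1 a2, LS_eq E hs, funext hφ]

lemma val_cf (E : K.Env) {ρ : O → ℂ} {C : ℝ} (hb : Base ρ C) :
    ∀ s, Prim s → CF s → ∃ F, Cn F s (ρ 1 * K.MM s) := by
  have hB := E.hB
  refine cf_ind hB _ ?_ fun p s hp ho hs hps hc ⟨F, hF⟩ => ?_
  · obtain ⟨F, h1, -, h3, h4, -⟩ := hb 1 _ (cf1 hB)
    refine ⟨F, h1, ?_, cn_of E hB.b2.one (fun k => ?_) h4⟩
    · simp [h3, MM1 E, hB.b6.unit_r _ _ isUnit_one, card1 hB]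
    · rw [fs1 hB, hB.b6.unit_r _ _ isUnit_one]
  have s0 := hB.b2.ne s hs
  obtain ⟨Q, Ψ, P, h1, h2, h3, h4, h5⟩ := rep E s hs hc
  have hQ : ¬ p ∣ Q := fun d => hps (d.trans h2)
  have cm : ∀ (j : ℕ) k, cub k (p ^ j * s) = cub k s * cub k p ^ j := fun j k => by
    rw [hB.b6.mul_r _ _ _ (pow_ne_zero j hp.ne_zero) s0, hB.b6.pow_r _ _ _ hp.ne_zero, mul_comm]
  constructor
  · obtain ⟨Q1, Ψ1, -, r1, -, -, r4, -⟩ := (rep_step E hp ho hs hps ⟨Q, Ψ, P, h1, h2, h3, h4, h5⟩).1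
    obtain ⟨G, g1, -, -, g4, -⟩ := hb Q1 Ψ1 r1
    have hG : Cn G (p * s) (G (5 / 6)) := ⟨g1, rfl, cn_of E (hB.b2.mul _ _ ho hs) r4 g4⟩
    obtain ⟨Ψ', b1, b2, b3⟩ := prod0 hB hp h1 hQ (loc3 E hp ho) (by simp [cub0 hB hp])
    obtain ⟨H, k1, -, k3, k4, -⟩ := hb _ Ψ' b1
    have hH : Cn (fun z => (1 - (N p : ℂ)⁻¹) * F z + H z) (p ^ 3 * s)
        ((1 - (N p : ℂ)⁻¹) * (ρ 1 * K.MM s)) := by
      refine ⟨(hF.1.const_mul _).add k1, by simp only [hF.2.1, k3, b3, mul_zero, add_zero],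
        fun z a1 a2 => ?_⟩
      have sm := tz_summ E (fun k => hB.b6.norm_le k s) a1
      beta_reduce
      rw [hF.2.2 z a1 a2, k4 z a1 a2, LS_eq E hs, LS_eq E (hB.b2.mul _ _ (hB.b2.pow p 3 ho) hs),
        mul_left_comm, ← mul_add, LF, LF, LF, ← tsum_mul_left,
        ← (sm.mul_left _).tsum_add (tz_summ E (ACM.fs_le hB _ Ψ') a1)]
      congr 1
      refine tsum_congr fun k => ?_
      have := b2 k
      rw [h4] at this
      simp only [tz, cm]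
      linear_combination cub lam k * (bb k * (N k : ℂ) ^ (-(1 / 2 + z))) * this
    have key := uniq (cnA E hp ho hs hps hF hG) hH
    have a1 : conj (K.cc p * cub p s) * (K.cc p * cub p s) = 1 := by
      rw [mul_comm, mul_conj', norm_mul, ncc E hp ho, hB.b6.norm _ _ ((cop hp).2 hps).symm]
      simp
    have n0 : (N p : ℂ) ≠ 0 := ofReal_ne_zero.2 (Npos hB hp.ne_zero).ne'
    have u0 := uu_ne hB hp
    refine ⟨G, g1, ?_, hG.2.2⟩
    rw [MMa E hp ho hs hps]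
    generalize conj (K.cc p * cub p s) = c at a1
    generalize K.cc p * cub p s = a at a1 key
    have k2 : a * G (5 / 6) = uu p * (1 - (N p : ℂ)⁻¹) * (ρ 1 * K.MM s) := by
      field_simp
      field_simp at key
      linear_combination -key
    linear_combination c * k2 - G (5 / 6) * a1
  · obtain ⟨Ψ', b1, b2, b3⟩ := prod0 hB hp h1 hQ (loc2 E hp ho) (by simp [cub0 hB hp])
    obtain ⟨H, k1, -, k3, k4, -⟩ := hb _ Ψ' b1
    refine ⟨H, k1, by rw [k3, b3, MMb E hp ho hs hps, mul_zero, mul_zero],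
      cn_of E (hB.b2.mul _ _ (hB.b2.pow p 2 ho) hs) (fun k => ?_) k4⟩
    rw [cm, ← h4, ← b2, zero_mul, zero_add]

def Bd (d : ℝ) (s : O) : ℝ := 3 ^ (pf s).card * N s ^ (1 / 2 + 2 * d)

def Con (ρ : ℂ) (C d : ℝ) (s : O) : Prop := ∃ F, Cn F s (ρ * K.MM s) ∧ Gw F ∧
  ∀ z : ℂ, z.re = -d → ‖F z‖ ≤ C * Bd d s * (‖z - 5 / 6‖ * ‖gg z‖)

lemma con_cf (E : K.Env) {ρ : O → ℂ} {C d : ℝ} (hC : 0 ≤ C) (hb : Base ρ C) (hd : 0 < d) (s : O)
    (hs : Prim s) (hc : CF s) : Con (ρ 1) (C * DD (1 + d) * 3 ^ (18 * d)) d s := by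
  have hB := E.hB
  have s0 := hB.b2.ne s hs
  obtain ⟨Q, Ψ, P, h1, h2, h3, h4, h5⟩ := rep E s hs hc
  obtain ⟨F, f1, f2, -, f4, f5⟩ := hb Q Ψ h1
  obtain ⟨G, hG⟩ := val_cf E hb s hs hc
  have hF : Cn F s (F (5 / 6)) := ⟨f1, rfl, cn_of E hs h4 f4⟩
  refine ⟨F, ⟨f1, uniq hF hG, hF.2.2⟩, f2, fun z hz => ?_⟩
  have Q0 := Npos hB (hB.b2.ne Q h1.1)
  have cl : IsCoprime lam Q := (hB.b1.prime_lam.irreducible.coprime_iff_not_dvd).2
    ((hB.b2.cop_iff Q).1 (hB.b2.cop Q h1.1))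
  have QS : N Q ≤ N s := by
    obtain ⟨c, rfl⟩ := h2
    rw [hB.b1.N_mul]
    exact le_mul_of_one_le_right Q0.le (hB.b1.N_one_le c (right_ne_zero_of_mul s0))
  have w1 := wsum E (σ := 1 + d) (by linarith) P fun q hq =>
    ⟨((E.h8.mem s q s0).1 (h3 hq)).1, ((E.h8.mem s q s0).1 (h3 hq)).2.1⟩
  have w2 : (3 : ℝ) ^ P.card ≤ 3 ^ (pf s).card :=
    pow_le_pow_right₀ (by norm_num) (Finset.card_le_card h3)
  have D0 := DD0 (1 + d)
  have := f5 (Real.sqrt (N s) / N Q * (3 ^ (pf s).card * DD (1 + d))) z (fun e n he => by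
    rw [hz, sub_neg_eq_add]
    refine le_trans ?_ (mul_le_mul_of_nonneg_left (w1.trans (mul_le_mul_of_nonneg_right w2 D0))
      (by positivity))
    rw [← tsum_mul_left]
    refine (ACM.summW E.hb (by linarith) (fun k => norm_nonneg _) (ACM.fs_le hB Q _)).tsum_le_tsum
      (fun D => ?_) ((ACM.summW E.hb (by linarith) (wt0 P) (wt_le P)).mul_left _)
    have a := h5 (e * lam ^ n) (lam ^ 18) D
      ((isCoprime_mul_unit_left_left he _ _).2 cl.pow_left) cl.pow_left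
    have := N0 D
    rw [(vsaS hB).1, mul_left_comm]
    refine mul_le_mul_of_nonneg_left ?_ (by positivity)
    rwa [div_mul_eq_mul_div, le_div_iff₀' Q0]) (by linarith)
  refine this.trans ?_
  have e1 : N Q ^ (1 - 2 * z.re) = N Q * N Q ^ (2 * d) := by
    rw [hz, ← Real.rpow_one_add' Q0.le (by linarith)]
    congr 1
    ring
  have e2 : N Q ^ (2 * d) ≤ N s ^ (2 * d) := Real.rpow_le_rpow Q0.le QS (by linarith)
  rw [e1, hz, Bd, Real.rpow_add (Npos hB s0), ← Real.sqrt_eq_rpow, show -18 * -d = 18 * d by ring]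
  calc _ = C * DD (1 + d) * 3 ^ (18 * d) * (3 ^ (pf s).card * (Real.sqrt (N s) * N Q ^ (2 * d))) *
        (‖z - 5 / 6‖ * ‖gg z‖) := by field_simp
    _ ≤ _ := by gcongr

lemma cmb_le (E : K.Env) (hp : Prime p) (ho : Prim p) (s : O) (F G : ℂ → ℂ) (z : ℂ) :
    ‖cmb p s F G z‖ ≤ (1 + N p ^ (1 / 2 - 3 * z.re)) * ‖F z‖ + N p ^ (-z.re) * ‖G z‖ := by
  have h0 := Npos E.hB hp.ne_zero
  have a1 := norm_sub_le (1 : ℂ) ((N p : ℂ) ^ (1 / 2 - 3 * z))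
  have a2 := E.hB.b6.norm_le p s
  have e : (1 / 2 - 3 * z).re = 1 / 2 - 3 * z.re := by simp
  rw [norm_one, norm_cpow_eq_rpow_re_of_pos h0, e] at a1
  refine (norm_sub_le _ _).trans (add_le_add ?_ ?_)
  · rw [norm_mul]
    gcongr
  · rw [norm_mul, norm_mul, norm_mul, ncc E hp ho, norm_cpow_eq_rpow_re_of_pos h0, neg_re, one_mul]
    exact mul_le_mul_of_nonneg_right (mul_le_of_le_one_left (by positivity) a2) (norm_nonneg _)

lemma con_all (E : K.Env) {ρ : ℂ} {C d : ℝ} (hC : 0 ≤ C) (hd : 0 < d)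
    (h : ∀ s, Prim s → CF s → Con ρ C d s) : ∀ s, Prim s → Con ρ C d s := by
  have hB := E.hB
  refine gen_ind hB _ h fun p s hp ho hs ⟨F, hF, f2, f3⟩ ⟨G, hG, g2, g3⟩ => ?_
  have h0 := Npos hB hp.ne_zero
  have h1 := hB.b1.N_one_le p hp.ne_zero
  have h2 : (2 : ℝ) ≤ N p := by unfold N; exact_mod_cast N2 hB hp
  have s0 := hB.b2.ne s hs
  have n0 := N0 s
  have e3 : N (p ^ 3 * s) ^ (1 / 2 + 2 * d) = N p ^ (3 / 2 + 6 * d) * N s ^ (1 / 2 + 2 * d) := by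
    rw [hB.b1.N_mul, hB.b1.N_pow, Real.mul_rpow (by positivity) n0, ← Real.rpow_natCast,
      ← Real.rpow_mul h0.le]
    congr 2
    push_cast
    ring
  by_cases c : p ∣ s
  · refine ⟨F, ⟨hF.1, by rw [hF.2.1, MMc E hp ho hs, if_pos c, one_mul], fun z a1 a2 => by
      rw [hF.2.2 z a1 a2, recB E hp ho hs c]⟩, f2, fun z hz => (f3 z hz).trans ?_⟩
    rw [Bd, Bd, pf_step E hp ho hs three_ne_zero,
      Finset.insert_eq_of_mem ((E.h8.mem s p s0).2 ⟨hp, ho, c⟩), e3]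
    gcongr
    exact le_mul_of_one_le_left (by positivity) (Real.one_le_rpow h1 (by linarith))
  have key := cnA E hp ho hs c hF hG
  have a1 : conj (K.cc p * cub p s) * (K.cc p * cub p s) = 1 := by
    rw [mul_comm, mul_conj', norm_mul, ncc E hp ho, hB.b6.norm _ _ ((cop hp).2 c).symm]
    simp
  have u0 := uu_ne hB hp
  refine ⟨_, ⟨key.1, ?_, key.2.2⟩, fun a => ?_, fun z hz => ?_⟩
  · rw [key.2.1, MMc E hp ho hs, if_neg c, MMa E hp ho hs c]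
    have e : (N p : ℂ)⁻¹ / uu p * uu p = (N p : ℂ)⁻¹ := div_mul_cancel₀ _ u0
    linear_combination -ρ * (1 - (N p : ℂ)⁻¹) * K.MM s * ((N p : ℂ)⁻¹ / uu p * uu p * a1 + e)
  · obtain ⟨B1, b1⟩ := f2 a
    obtain ⟨B2, b2⟩ := g2 a
    refine ⟨(1 + N p ^ (1 / 2 - 3 * a)) * B1 + N p ^ (-a) * B2, fun z z1 z2 => ?_⟩
    have c1 := b1 z z1 z2
    have c2 := b2 z z1 z2
    have c3 : N p ^ (1 / 2 - 3 * z.re) ≤ N p ^ (1 / 2 - 3 * a) :=
      Real.rpow_le_rpow_of_exponent_le h1 (by linarith)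
    have c4 : N p ^ (-z.re) ≤ N p ^ (-a) := Real.rpow_le_rpow_of_exponent_le h1 (by linarith)
    refine (cmb_le E hp ho s F G z).trans ?_
    calc _ ≤ (1 + N p ^ (1 / 2 - 3 * a)) * (B1 * Real.exp (8 * |z.im|)) +
          N p ^ (-a) * (B2 * Real.exp (8 * |z.im|)) := by gcongr
      _ = _ := by ring
  · have c1 := f3 z hz
    have c2 := g3 z hz
    have e1 := pf_step E hp ho hs one_ne_zero
    rw [pow_one] at e1
    rw [Bd, e1, Finset.card_insert_of_notMem (pf_not E hs c), hB.b1.N_mul,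
      Real.mul_rpow h0.le n0] at c2
    rw [Bd] at c1
    refine (cmb_le E hp ho s F G z).trans ?_
    rw [Bd, pf_step E hp ho hs three_ne_zero, Finset.card_insert_of_notMem (pf_not E hs c), e3, hz,
      neg_neg]
    have x1 : 1 ≤ N p ^ (1 / 2 + 3 * d) := Real.one_le_rpow h1 (by linarith)
    have x2 : N p ^ d * N p ^ (1 / 2 + 2 * d) = N p ^ (1 / 2 + 3 * d) := by
      rw [← Real.rpow_add h0]; congr 1; ring
    have x3 : 2 * N p ^ (1 / 2 + 3 * d) ≤ N p ^ (3 / 2 + 6 * d) := by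
      refine (mul_le_mul_of_nonneg_right h2 (by positivity)).trans ?_
      rw [← Real.rpow_one_add' h0.le (by linarith)]
      exact Real.rpow_le_rpow_of_exponent_le h1 (by linarith)
    set T := C * (3 ^ (pf s).card * N s ^ (1 / 2 + 2 * d)) * (‖z - 5 / 6‖ * ‖gg z‖) with hT
    have T0 : 0 ≤ T := by positivity
    calc _ ≤ (1 + N p ^ (1 / 2 - 3 * -d)) * T + N p ^ d * (C * (3 ^ ((pf s).card + 1) *
          (N p ^ (1 / 2 + 2 * d) * N s ^ (1 / 2 + 2 * d))) * (‖z - 5 / 6‖ * ‖gg z‖)) := by gcongr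
      _ = (1 + N p ^ (1 / 2 + 3 * d) + 3 * (N p ^ d * N p ^ (1 / 2 + 2 * d))) * T := by
          rw [hT, show 1 / 2 - 3 * -d = 1 / 2 + 3 * d by ring]; ring
      _ ≤ (3 * N p ^ (3 / 2 + 6 * d)) * T := by
          refine mul_le_mul_of_nonneg_right ?_ T0
          rw [x2]; linarith
      _ = _ := by rw [hT]; ring

end CTM

open CTM Vale.Agent.P006 in
theorem ctS (E : K.Env) (hA : AC2Stmt) (hG : GGStmt) : CTStmt := by
  obtain ⟨ρ, C, hC, hb⟩ := base E hA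
  obtain ⟨C2, hC2, hG⟩ := hG
  refine ⟨ρ 1, fun d hd hd' => ?_⟩
  obtain ⟨C3, h3⟩ := E.h8.ome 3 d (by norm_num) hd
  have D0 := VIM.DD0 (1 + d)
  have hC1 : 0 ≤ C * VIM.DD (1 + d) * 3 ^ (18 * d) := by positivity
  refine ⟨C * VIM.DD (1 + d) * 3 ^ (18 * d) * |C3| * (2 * C2), by positivity, fun s hs => ?_⟩
  obtain ⟨F, hF, f2, f3⟩ := con_all E hC1 hd (con_cf E hC hb hd) s hs
  refine ⟨F, hF.1, f2, hF.2.1, hF.2.2, fun t => (f3 _ (by simp)).trans ?_⟩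
  have s0 := E.hB.b2.ne s hs
  have n0 := Npos E.hB s0
  have r0 : 0 ≤ rd s := zero_le_one.trans (E.h8.rd_ge s)
  have a1 : (3 : ℝ) ^ (pf s).card ≤ |C3| * N s ^ d := (h3 s).trans (mul_le_mul (le_abs_self _)
    (Real.rpow_le_rpow r0 (E.h8.rd_le s s0) hd.le) (by positivity) (abs_nonneg _))
  have a2 : ‖(-d + t * I - 5 / 6 : ℂ)‖ ≤ 2 * (1 + |t|) := by
    refine (norm_le_abs_re_add_abs_im _).trans ?_
    have e1 : (-d + t * I - 5 / 6 : ℂ).re = -(d + 5 / 6) := by simp; ring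
    have e2 : (-d + t * I - 5 / 6 : ℂ).im = t := by simp
    rw [e1, e2, abs_neg, abs_of_pos (by linarith)]
    linarith [abs_nonneg t]
  have a3 := hG d t hd.le (by linarith)
  have t0 : 0 < 1 + |t| := by positivity
  rw [Bd, show 1 / 2 + 3 * d = d + (1 / 2 + 2 * d) by ring, Real.rpow_add n0 d,
    show 3 + 4 * d = 1 + (2 + 4 * d) by ring, Real.rpow_add t0 1, Real.rpow_one]
  calc _ ≤ C * VIM.DD (1 + d) * 3 ^ (18 * d) * (|C3| * N s ^ d * N s ^ (1 / 2 + 2 * d)) *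
        (2 * (1 + |t|) * (C2 * (1 + |t|) ^ (2 + 4 * d))) := by gcongr
    _ = _ := by ring

end Vale.Agent.P026.Z
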