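import Vale.Agent.P006.A.Stm
import Vale.Agent.P006.K0

/-! P006 branch A: continuation of the twisted Dirichlet series of cubic Gauss sums. -/

noncomputable section
open Complex MeasureTheory Filter Topology
open scoped Classical ComplexConjugate

namespace Vale.Agent.P026.Z

open Vale.Agent.P006

/-- the twisted Dirichlet series -/
def LS (s : O) (z : ℂ) : ℂ := ∑' k, if Prim k then K.cc k * cub s k * (N k : ℂ) ^ (-z) else 0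

/-- continuation of `(z - 5/6) * LS s z`, value at `5/6`, bound on `Re z = -d` -/
def CT (ρ : ℂ) : Prop := ∀ d : ℝ, 0 < d → d ≤ 1 / 4 → ∃ C : ℝ, 0 ≤ C ∧ ∀ s : O, Prim s →
  ∃ F : ℂ → ℂ, DifferentiableOn ℂ F {z | z.re < 3 / 2} ∧
    (∀ a : ℝ, ∃ B : ℝ, ∀ z : ℂ, a ≤ z.re → z.re ≤ 5 / 4 → ‖F z‖ ≤ B * Real.exp (8 * |z.im|)) ∧
    F (5 / 6) = ρ * K.MM s ∧
    (∀ z : ℂ, 1 < z.re → z.re < 3 / 2 → F z = (z - 5 / 6) * LS s z) ∧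
    ∀ t : ℝ, ‖F (-d + t * I)‖ ≤ C * N s ^ (1 / 2 + 3 * d) * (1 + |t|) ^ (3 + 4 * d)

def CTStmt : Prop := ∃ ρ : ℂ, CT ρ

/-- the gamma factor between the lines `Re = -1/2` and `Re = 1/2` -/
def GGStmt : Prop := ∃ C : ℝ, 0 ≤ C ∧ ∀ d t : ℝ, 0 ≤ d → d ≤ 1 / 2 →
  ‖gg (-d + t * I)‖ ≤ C * (1 + |t|) ^ (2 + 4 * d)

/-- type I estimate with the log-normal weight -/
def TIStmt : Prop := ∀ ρ : ℂ, CT ρ → K.TI (ρ * (Real.sqrt Real.pi * Real.exp (25 / 144) : ℝ))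

/-- type I estimate with the exponential weight and a real shift `σ` -/
def TIGStmt : Prop := ∀ ρ : ℂ, CT ρ → ∀ σ ε : ℝ, 0 ≤ σ → σ ≤ 1 / 4 → 0 < ε → ∃ C : ℝ,
  ∀ (s : O) (M : ℝ), Prim s → 1 ≤ M →
  ‖(∑' k, if Prim k then K.cc k * cub s k * ((N k ^ (-σ) * Real.exp (-(N k / M)) : ℝ) : ℂ) else 0) -
      ρ * K.MM s * ((Real.Gamma (5 / 6 - σ) * M ^ (5 / 6 - σ) : ℝ) : ℂ)‖ ≤
    C * N s ^ (1 / 2 + ε) * M ^ ε

end Vale.Agent.P026.Z
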