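import Vale.Agent.P006.A.CT0
import Vale.Agent.P026.M.VSa
import Vale.Agent.P026.M.VSc

/-! P006 branch A: finite Fourier series of cubic characters and their duals. -/

noncomputable section
open Complex
open scoped Classical ComplexConjugate

namespace Vale.Agent.P026.Z.CTM

open Vale.Agent.P006 VScM

variable {p : O}

lemma red3 (hB : Bas) (hp : Prime p) (a : O) {x y : ℕ} (hx : x ≠ 0) (hy : y ≠ 0)
    (h : x % 3 = y % 3) : cub a p ^ x = cub a p ^ y := by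
  by_cases c : IsCoprime a p
  · rw [pow_eq_pow_mod x (hB.b6.cube a p c), pow_eq_pow_mod y (hB.b6.cube a p c), h]
  · rw [hB.b6.zero a p hp.ne_zero c, zero_pow hx, zero_pow hy]

lemma three (hB : Bas) (hp : Prime p) (a : O) : cub a p ^ 3 = if p ∣ a then 0 else 1 := by
  split_ifs with c
  · rw [hB.b6.zero a p hp.ne_zero fun d => (cop hp).1 d c]; norm_num
  · exact hB.b6.cube a p ((cop hp).2 c)

lemma ram3 (hB : Bas) (hp : Prime p) (D : O) :
    ∑ b ∈ Rs p, cub b p ^ 3 * eQ (b * D) p = (if p ∣ D then (N p : ℂ) else 0) - 1 := by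
  have e : ∀ b, cub b p ^ 3 * eQ (b * D) p = eQ (D * b) p - if p ∣ b then 1 else 0 := by
    intro b
    rw [three hB hp]
    split_ifs with c
    · rw [hB.b1.eQ_dvd _ _ (c.mul_left D)]; ring
    · rw [mul_comm b D]; ring
  obtain ⟨b, hb, d⟩ := hB.b4.ex p 0 hp.ne_zero
  rw [zero_sub, dvd_neg] at d
  simp only [e]
  rw [Finset.sum_sub_distrib, hB.b4.orth p D hp.ne_zero, Finset.sum_eq_single_of_mem b hb, if_pos d]
  intro b' hb' ne
  exact if_neg fun d' => ne (hB.b4.uniq p b' b hp.ne_zero hb' hb (d'.sub d))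

lemma cf3 (hB : Bas) (hp : Prime p) (ho : Prim p) (c : ℂ) {j : ℕ} (hj : j ≠ 0) :
    Cf p fun a => c * cub a p ^ j :=
  ⟨ho, fun a m => by have := hB.b6.pe p a m; dsimp only at this ⊢; rw [this],
    fun a ha => by dsimp only; rw [hB.b6.zero a p hp.ne_zero ha, zero_pow hj, mul_zero]⟩

lemma duf3 (hB : Bas) (hp : Prime p) (ho : Prim p) (c : ℂ) (j : ℕ) {m n : O}
    (hm : ¬ p ∣ m) (hn : ¬ p ∣ n) (D : O) :
    ‖du p (fun a => c * cub a p ^ j) m n D‖ =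
      ‖c‖ * ‖∑ b ∈ Rs p, cub b p ^ (2 * (j + 1)) * eQ (b * D) p‖ := by
  have c3 := hB.b2.cop p ho
  have w1 : ‖(cub m p * cub n p ^ 2) ^ (j + 1)‖ = 1 := by
    rw [norm_pow, norm_mul, norm_pow, hB.b6.norm _ _ ((cop hp).2 hm),
      hB.b6.norm _ _ ((cop hp).2 hn)]
    simp
  rw [← mul_one ‖c‖, ← w1, ← norm_mul, ← norm_mul]
  congr 1
  rw [du, Finset.sum_comm, Finset.mul_sum]
  refine Finset.sum_congr rfl fun b _ => ?_
  by_cases c1 : p ∣ b
  · rw [hB.b6.zero b p hp.ne_zero fun d => (cop hp).1 d c1, zero_pow (by omega), zero_mul, mul_zero]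
    refine Finset.sum_eq_zero fun a _ => if_neg fun d => hm ?_
    simpa using (c1.mul_left (n * a)).sub d
  have c2 : IsCoprime (n * b) p := ((cop hp).2 hn).mul_left ((cop hp).2 c1)
  obtain ⟨u, v, e⟩ := id c2
  obtain ⟨a, ha, d⟩ := hB.b4.ex p (m * u) hp.ne_zero
  have d1 : p ∣ n * a * b - m := by
    have := (d.mul_left (-(n * b))).sub (dvd_mul_left p (m * v))
    rwa [show -(n * b) * (m * u - a) - m * v * p = n * a * b - m by linear_combination -m * e] at this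
  rw [Finset.sum_eq_single_of_mem a ha, if_pos d1]
  · have a1 : cub n p * cub a p * cub b p = cub m p := by
      rw [← hB.b6.mul_l _ _ _ c3, ← hB.b6.mul_l _ _ _ c3]
      exact hB.b4.pe_congr p _ _ _ (hB.b6.pe p) d1
    have a2 : cub a p = cub m p * cub n p ^ 2 * cub b p ^ 2 := by
      have b1 := hB.b6.cube n p ((cop hp).2 hn)
      have b2 := hB.b6.cube b p ((cop hp).2 c1)
      linear_combination (cub n p ^ 2 * cub b p ^ 2) * a1 - cub a p * cub b p ^ 3 * b1 - cub a p * b2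
    rw [mul_assoc c, ← pow_succ, a2, mul_pow, pow_mul]
    ring
  · intro a' ha' ne
    refine if_neg fun d' => ne (hB.b4.uniq p a' a hp.ne_zero ha' ha ?_)
    refine c2.symm.dvd_of_dvd_mul_left ?_
    have := d'.sub d1
    rwa [show n * a' * b - m - (n * a * b - m) = n * b * (a' - a) by ring] at this

lemma ga2 (E : K.Env) (hp : Prime p) (ho : Prim p) (D : O) :
    ∑ b ∈ Rs p, cub b p ^ 2 * eQ (b * D) p = cub D p * gs p := by
  simp only [← E.hB.b6.conj_eq]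
  exact E.hH.tw3 p D (E.hB.b2.cop p ho) hp.squarefree

lemma ga1 (E : K.Env) (hp : Prime p) (ho : Prim p) (D : O) :
    ∑ b ∈ Rs p, cub b p ^ 1 * eQ (b * D) p = cub D p ^ 2 * conj (gs p) := by
  have := congrArg conj (E.hH.tw3 p (-D) (E.hB.b2.cop p ho) hp.squarefree)
  rw [map_sum, map_mul, E.hB.b6.neg_l _ _ (E.hB.b2.cop p ho), E.hB.b6.conj_eq] at this
  simpa [E.hB.b1.eQ_neg] using this

lemma ngs (E : K.Env) (hp : Prime p) (ho : Prim p) : ‖gs p‖ = Real.sqrt (N p) := by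
  rw [← E.hH.n3 p (E.hB.b2.cop p ho) hp.squarefree, Real.sqrt_sq (norm_nonneg _)]

/-- local data at a prime -/
def Loc (p : O) (j : ℕ) (c : ℂ) (w : O → ℝ) : Prop := ∃ Ψ, Cf p Ψ ∧
  (∀ k, c + fs p Ψ k = cub k p ^ j) ∧ ∀ m n D, ¬ p ∣ m → ¬ p ∣ n → ‖du p Ψ m n D‖ ≤ w D

lemma Npos (hB : Bas) {a : O} (ha : a ≠ 0) : 0 < N a := lt_of_lt_of_le one_pos (hB.b1.N_one_le a ha)

lemma loc1 (E : K.Env) (hp : Prime p) (ho : Prim p) :
    Loc p 1 0 fun D => (Real.sqrt (N p))⁻¹ * (1 + if p ∣ D then N p else 0) := by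
  have N0 := Npos E.hB hp.ne_zero
  have g0 : gs p ≠ 0 := norm_pos_iff.1 (by rw [ngs E hp ho]; positivity)
  refine ⟨_, cf3 E.hB hp ho (gs p)⁻¹ two_ne_zero, fun k => ?_, fun m n D hm hn => ?_⟩
  · simp only [fs, mul_assoc]
    rw [← Finset.mul_sum, ga2 E hp ho]
    field_simp
    ring
  · rw [duf3 E.hB hp ho _ _ hm hn, norm_inv, ngs E hp ho]
    simp only [red3 E.hB hp _ (x := 2 * (2 + 1)) (y := 3) (by omega) (by omega) (by omega)]
    rw [ram3 E.hB hp, add_comm]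
    refine mul_le_mul_of_nonneg_left ((norm_sub_le _ _).trans ?_) (by positivity)
    split_ifs <;> simp [abs_of_pos N0]

lemma loc2 (E : K.Env) (hp : Prime p) (ho : Prim p) : Loc p 2 0 fun D => ‖cub D p‖ := by
  have N0 := Npos E.hB hp.ne_zero
  have g0 : conj (gs p) ≠ 0 := norm_pos_iff.1 (by rw [norm_conj, ngs E hp ho]; positivity)
  refine ⟨_, cf3 E.hB hp ho (conj (gs p))⁻¹ one_ne_zero, fun k => ?_, fun m n D hm hn => ?_⟩
  · simp only [fs, mul_assoc]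
    rw [← Finset.mul_sum, ga1 E hp ho]
    field_simp
    ring
  · rw [duf3 E.hB hp ho _ _ hm hn]
    simp only [red3 E.hB hp _ (x := 2 * (1 + 1)) (y := 1) (by omega) (by omega) (by omega)]
    rw [ga1 E hp ho, ← E.hB.b6.conj_eq, norm_mul, norm_conj, norm_inv, mul_comm, mul_assoc,
      mul_inv_cancel₀ (norm_ne_zero_iff.2 g0), mul_one]

lemma loc3 (E : K.Env) (hp : Prime p) (ho : Prim p) :
    Loc p 3 (1 - (N p : ℂ)⁻¹) fun D => ‖(N p : ℂ)⁻¹‖ * ‖cub D p * gs p‖ := by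
  have N0 : (N p : ℂ) ≠ 0 := ofReal_ne_zero.2 (Npos E.hB hp.ne_zero).ne'
  refine ⟨_, cf3 E.hB hp ho (-(N p : ℂ)⁻¹) three_ne_zero, fun k => ?_, fun m n D hm hn => ?_⟩
  · simp only [fs, mul_assoc]
    rw [← Finset.mul_sum, ram3 E.hB hp, three E.hB hp]
    split_ifs
    · field_simp
      ring
    · ring
  · rw [duf3 E.hB hp ho _ _ hm hn]
    simp only [red3 E.hB hp _ (x := 2 * (3 + 1)) (y := 2) (by omega) (by omega) (by omega)]
    rw [ga2 E hp ho, norm_neg]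

lemma prod (hB : Bas) (hp : Prime p) {Q : O} {Ψ : O → ℂ} (hC : Cf Q Ψ) (hQ : ¬ p ∣ Q) {j : ℕ}
    {c : ℂ} {w : O → ℝ} (hL : Loc p j c w) : ∃ Ψ', Cf (Q * p) Ψ' ∧
      (∀ k, c * fs Q Ψ k + fs (Q * p) Ψ' k = fs Q Ψ k * cub k p ^ j) ∧
      ∀ m n D, ¬ p ∣ m → ¬ p ∣ n → ‖du (Q * p) Ψ' m n D‖ ≤ ‖du Q Ψ m (n * p ^ 2) D‖ * w D := by
  obtain ⟨Ψ2, h1, h2, h3⟩ := hL
  obtain ⟨Ψ', g1, g2, g3⟩ := (vsaS hB).2 Q p Ψ Ψ2 hC h1 ((cop hp).2 hQ)
  refine ⟨Ψ', g1, fun k => by rw [g2, ← h2]; ring, fun m n D hm hn => ?_⟩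
  have a1 := h3 m (n * Q ^ 2) D hm fun d => (hp.dvd_or_dvd d).elim hn
    fun d => hQ (hp.dvd_of_dvd_pow d)
  have a2 := hB.b6.norm_le p Q
  have a3 := hB.b6.norm_le Q p
  rw [g3, norm_mul, norm_mul, norm_mul]
  calc _ ≤ 1 * 1 * ‖du Q Ψ m (n * p ^ 2) D‖ * w D := by gcongr
    _ = _ := by ring

lemma sig (hB : Bas) {h : O} {Ψ : O → ℂ} (hC : Cf h Ψ) :
    ∑ a ∈ Rs h, Ψ a * cub a h = du h Ψ 1 1 0 := by
  have h0 := hB.b2.ne _ hC.1
  refine Finset.sum_congr rfl fun a _ => ?_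
  by_cases c : IsCoprime a h
  swap
  · simp [hC.2.2 a c]
  obtain ⟨u, v, e⟩ := id c
  obtain ⟨b, hb, d⟩ := hB.b4.ex h u h0
  have d1 : h ∣ 1 * a * b - 1 := by
    have := (d.mul_left (-a)).sub (dvd_mul_left h v)
    rwa [show -a * (u - b) - v * h = 1 * a * b - 1 by linear_combination -e] at this
  rw [Finset.sum_eq_single_of_mem b hb, if_pos d1, mul_zero, hB.b1.eQ_dvd _ _ (dvd_zero _), mul_one]
  intro b' hb' ne
  refine if_neg fun d' => ne (hB.b4.uniq h b' b h0 hb' hb (c.symm.dvd_of_dvd_mul_left ?_))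
  have := d'.sub d1
  rwa [show 1 * a * b' - 1 - (1 * a * b - 1) = a * (b' - b) by ring] at this

lemma cub0 (hB : Bas) (hp : Prime p) : cub 0 p = 0 :=
  hB.b6.zero 0 p hp.ne_zero fun d => (cop hp).1 d (dvd_zero p)

lemma prod0 (hB : Bas) (hp : Prime p) {Q : O} {Ψ : O → ℂ} (hC : Cf Q Ψ) (hQ : ¬ p ∣ Q) {j : ℕ}
    {c : ℂ} {w : O → ℝ} (hL : Loc p j c w) (hw : w 0 = 0) : ∃ Ψ', Cf (Q * p) Ψ' ∧
      (∀ k, c * fs Q Ψ k + fs (Q * p) Ψ' k = fs Q Ψ k * cub k p ^ j) ∧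
      ∑ a ∈ Rs (Q * p), Ψ' a * cub a (Q * p) = 0 := by
  obtain ⟨Ψ', g1, g2, g3⟩ := prod hB hp hC hQ hL
  refine ⟨Ψ', g1, g2, ?_⟩
  have := g3 1 1 0 hp.not_dvd_one hp.not_dvd_one
  rw [hw, mul_zero] at this
  rw [sig hB g1, norm_le_zero_iff.1 this]

def wt (P : Finset O) (D : O) : ℝ := ∏ p ∈ P, (1 + if p ∣ D then N p else 0)

lemma wt0 (P : Finset O) (D : O) : 0 ≤ wt P D := Finset.prod_nonneg fun p _ => by
  have := VIM.N0 p
  split_ifs <;> positivity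

/-- the character mod `s` as one finite Fourier series -/
def Rep (s : O) : Prop := ∃ (Q : O) (Ψ : O → ℂ) (P : Finset O), Cf Q Ψ ∧ Q ∣ s ∧ P ⊆ pf s ∧
  (∀ k, fs Q Ψ k = cub k s) ∧ ∀ m n D, IsCoprime m Q → IsCoprime n Q →
    N Q * ‖du Q Ψ m n D‖ ≤ Real.sqrt (N s) * wt P D

lemma N1 (hB : Bas) : N 1 = 1 := by simpa using hB.b1.N_pow 1 0

lemma card1 (hB : Bas) : (Rs 1).card = 1 := by
  rw [hB.b4.card 1 one_ne_zero, (hB.b1.unit_iff 1).1 isUnit_one]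

lemma cf1 (hB : Bas) : Cf 1 fun _ => 1 :=
  ⟨hB.b2.one, fun _ _ => rfl, fun a ha => absurd isCoprime_one_right ha⟩

lemma fs1 (hB : Bas) (k : O) : fs 1 (fun _ => 1) k = 1 := by
  simp [fs, hB.b1.eQ_dvd _ _ (one_dvd _), card1 hB]

lemma rep1 (hB : Bas) : Rep 1 := by
  refine ⟨1, fun _ => 1, ∅, cf1 hB, dvd_rfl, Finset.empty_subset _, fun k => ?_, fun m n D _ _ => ?_⟩
  · rw [fs1 hB, hB.b6.unit_r _ _ isUnit_one]
  · simp [du, wt, hB.b1.eQ_dvd _ _ (one_dvd _), card1 hB, hB.b6.unit_r _ _ isUnit_one, N1 hB]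

lemma rep_step (E : K.Env) (hp : Prime p) (ho : Prim p) {s : O} (hs : Prim s) (hps : ¬ p ∣ s)
    (h : Rep s) : Rep (p * s) ∧ Rep (p ^ 2 * s) := by
  have hB := E.hB
  obtain ⟨Q, Ψ, P, h1, h2, h3, h4, h5⟩ := h
  have hQ : ¬ p ∣ Q := fun d => hps (d.trans h2)
  have s0 := hB.b2.ne s hs
  have N0 := Npos hB hp.ne_zero
  have NQ := VIM.N0 Q
  have sub : ∀ c : O, c ≠ 0 → P ⊆ pf (c * s) := fun c hc q hq => by
    rw [E.h8.pf_mul _ _ hc s0]
    exact Finset.mem_union_right _ (h3 hq)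
  have key : ∀ m n D, IsCoprime m (Q * p) → IsCoprime n (Q * p) →
      N Q * ‖du Q Ψ m (n * p ^ 2) D‖ ≤ Real.sqrt (N s) * wt P D := fun m n D hm hn =>
    h5 _ _ _ hm.of_mul_right_left (hn.of_mul_right_left.mul_left ((cop hp).2 hQ).symm.pow_left)
  constructor
  · obtain ⟨Ψ', g1, g2, g3⟩ := prod hB hp h1 hQ (loc1 E hp ho)
    have pP : p ∉ P := fun c => hps ((E.h8.mem s p s0).1 (h3 c)).2.2
    refine ⟨Q * p, Ψ', insert p P, g1, by rw [mul_comm]; exact mul_dvd_mul_left p h2,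
      Finset.insert_subset ((E.h8.mem _ _ (mul_ne_zero hp.ne_zero s0)).2 ⟨hp, ho, dvd_mul_right _ _⟩)
        (sub p hp.ne_zero), fun k => ?_, fun m n D hm hn => ?_⟩
    · have := g2 k
      rw [zero_mul, zero_add, h4, pow_one] at this
      rw [this, hB.b6.mul_r _ _ _ hp.ne_zero s0, mul_comm]
    · have a1 := g3 m n D ((cop hp).1 hm.of_mul_right_right) ((cop hp).1 hn.of_mul_right_right)
      have a2 := key m n D hm hn
      have a3 : 0 ≤ 1 + if p ∣ D then N p else 0 := by split_ifs <;> positivity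
      have a4 : N p * (Real.sqrt (N p))⁻¹ = Real.sqrt (N p) := by
        rw [← div_eq_mul_inv, Real.div_sqrt]
      rw [wt, Finset.prod_insert pP, ← wt, hB.b1.N_mul, hB.b1.N_mul, Real.sqrt_mul N0.le]
      calc _ ≤ N Q * N p * (‖du Q Ψ m (n * p ^ 2) D‖ *
            ((Real.sqrt (N p))⁻¹ * (1 + if p ∣ D then N p else 0))) := by gcongr
        _ = N Q * ‖du Q Ψ m (n * p ^ 2) D‖ * (N p * (Real.sqrt (N p))⁻¹ *
            (1 + if p ∣ D then N p else 0)) := by ring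
        _ ≤ Real.sqrt (N s) * wt P D * (N p * (Real.sqrt (N p))⁻¹ *
            (1 + if p ∣ D then N p else 0)) := by gcongr
        _ = _ := by rw [a4]; ring
  · obtain ⟨Ψ', g1, g2, g3⟩ := prod hB hp h1 hQ (loc2 E hp ho)
    have p2 := pow_ne_zero 2 hp.ne_zero
    refine ⟨Q * p, Ψ', P, g1, by
      rw [mul_comm]; exact mul_dvd_mul (dvd_pow_self p two_ne_zero) h2, sub _ p2, fun k => ?_,
      fun m n D hm hn => ?_⟩
    · have := g2 k
      rw [zero_mul, zero_add, h4] at this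
      rw [this, hB.b6.mul_r _ _ _ p2 s0, hB.b6.pow_r _ _ _ hp.ne_zero, mul_comm]
    · have a1 := g3 m n D ((cop hp).1 hm.of_mul_right_right) ((cop hp).1 hn.of_mul_right_right)
      have a2 := key m n D hm hn
      have a3 := hB.b6.norm_le D p
      rw [hB.b1.N_mul, hB.b1.N_mul, hB.b1.N_pow, Real.sqrt_mul (by positivity), Real.sqrt_sq N0.le]
      calc _ ≤ N Q * N p * (‖du Q Ψ m (n * p ^ 2) D‖ * 1) := by
            refine mul_le_mul_of_nonneg_left (a1.trans ?_) (by positivity)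
            gcongr
        _ = N Q * ‖du Q Ψ m (n * p ^ 2) D‖ * N p := by ring
        _ ≤ Real.sqrt (N s) * wt P D * N p := by gcongr
        _ = _ := by ring

/-- cube-free -/
def CF (s : O) : Prop := ∀ p, Prime p → Prim p → ¬ p ^ 3 ∣ s

lemma N2 (hB : Bas) (hp : Prime p) : 2 ≤ Nn p := by
  have h1 : (1 : ℝ) ≤ Nn p := hB.b1.N_one_le p hp.ne_zero
  have h2 : Nn p ≠ 1 := fun e => hp.not_unit ((hB.b1.unit_iff p).2 e)
  have h3 : 1 ≤ Nn p := by exact_mod_cast h1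
  omega

lemma Nlt (hB : Bas) (hp : Prime p) {s : O} (hs : s ≠ 0) : Nn s < Nn (p * s) := by
  have h1 : (1 : ℝ) ≤ Nn s := hB.b1.N_one_le s hs
  have h3 : 1 ≤ Nn s := by exact_mod_cast h1
  have := N2 hB hp
  rw [hB.b1.Nn_mul]
  nlinarith

lemma cf_ind (hB : Bas) (P : O → Prop) (h1 : P 1) (h2 : ∀ p s, Prime p → Prim p → Prim s →
    ¬ p ∣ s → CF s → P s → P (p * s) ∧ P (p ^ 2 * s)) : ∀ s, Prim s → CF s → P s := by
  intro s
  induction h : Nn s using Nat.strong_induction_on generalizing s with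
  | _ n ih =>
    intro hs hc
    rcases hB.b2.ind1 (fun c => c = 1 ∨ ∃ p a, Prime p ∧ Prim p ∧ Prim a ∧ c = p * a) (Or.inl rfl)
      (fun p a h1 h2 h3 _ => Or.inr ⟨p, a, h1, h2, h3, rfl⟩) s hs with rfl | ⟨p, a, hp, ho, ha, rfl⟩
    · exact h1
    have cf : ∀ b, b ∣ p * a → CF b := fun b hb q q1 q2 d => hc q q1 q2 (d.trans hb)
    have l1 := Nlt hB hp (hB.b2.ne a ha)
    by_cases c : p ∣ a
    · obtain ⟨b, rfl⟩ := c
      have hb := hB.b2.cancel p b ho ha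
      have l2 := Nlt hB hp (hB.b2.ne b hb)
      have nb : ¬ p ∣ b := fun ⟨c, e⟩ => hc p hp ho ⟨c, by rw [e]; ring⟩
      have cb := cf b ⟨p * p, by ring⟩
      rw [show p * (p * b) = p ^ 2 * b by ring]
      exact (h2 p b hp ho hb nb cb (ih _ (by omega) b rfl hb cb)).2
    · have ca := cf a (dvd_mul_left _ _)
      exact (h2 p a hp ho ha c ca (ih _ (by omega) a rfl ha ca)).1

lemma gen_ind (hB : Bas) (P : O → Prop) (h1 : ∀ s, Prim s → CF s → P s)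
    (h2 : ∀ p s, Prime p → Prim p → Prim s → P s → P (p * s) → P (p ^ 3 * s)) :
    ∀ s, Prim s → P s := by
  intro s
  induction h : Nn s using Nat.strong_induction_on generalizing s with
  | _ n ih =>
    intro hs
    by_cases c : CF s
    · exact h1 s hs c
    simp only [CF, not_forall, not_not] at c
    obtain ⟨p, hp, ho, a, rfl⟩ := c
    have ha := hB.b2.cancel _ a (hB.b2.pow p 3 ho) hs
    have h3 := hB.b2.mul p a ho ha
    have l1 := Nlt hB hp (hB.b2.ne a ha)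
    have l2 := Nlt hB hp (hB.b2.ne _ h3)
    have l3 := Nlt hB hp (hB.b2.ne _ (hB.b2.mul p _ ho h3))
    rw [show p * (p * (p * a)) = p ^ 3 * a by ring] at l3
    exact h2 p a hp ho ha (ih _ (by omega) a rfl ha) (ih _ (by omega) _ rfl h3)

lemma rep (E : K.Env) : ∀ s, Prim s → CF s → Rep s :=
  cf_ind E.hB Rep (rep1 E.hB) fun _ _ hp ho hs hps _ h => rep_step E hp ho hs hps h

end Vale.Agent.P026.Z.CTM
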