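import Vale.Agent.P006.A.CT1
import Vale.Agent.P006.A.AC

/-! P006 branch A: removing one prime from the Dirichlet series. -/

noncomputable section
open Complex
open scoped Classical ComplexConjugate

namespace Vale.Agent.P026.Z.CTM

open Vale.Agent.P006 VScM VIM

variable {p : O}

lemma tdiv {V : Type} [NormedAddCommGroup V] {c : O} (hc : c ≠ 0) (g : O → V) :
    ∑' k, (if c ∣ k then g k else 0) = ∑' k, g (c * k) := by
  rw [← (mul_right_injective₀ hc).tsum_eq (f := fun k => if c ∣ k then g k else 0)]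
  · simp
  · intro k hk
    by_contra h
    exact hk (if_neg fun ⟨m, e⟩ => h ⟨m, e.symm⟩)

lemma bbp (hB : Bas) (hb : BB) (hp : Prime p) (ho : Prim p) (k : O) :
    bb (p * k) = bb p * bb k * cub p k + if p ^ 2 ∣ k then bb (p * k) else 0 := by
  by_cases hk : Prim k
  swap
  · simp [bb0 hB hb hk, bb0 hB hb fun h => hk (hB.b2.cancel p k ho h)]
  by_cases c : p ∣ k
  swap
  · rw [if_neg fun d => c ((dvd_pow_self p two_ne_zero).trans d), add_zero,
      hb.mul p k ho hk ((cop hp).2 c).symm]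
  rw [hB.b6.zero p k (hB.b2.ne k hk) fun d => (cop hp).1 d.symm c, mul_zero, zero_add]
  split_ifs with d
  · rfl
  obtain ⟨a, rfl⟩ := c
  have na : ¬ p ∣ a := fun ⟨b, e⟩ => d ⟨b, by rw [e]; ring⟩
  have h2 : bb (p ^ 2) = 0 := by simpa using hb.pp2 p 0 hp ho
  rw [show p * (p * a) = p ^ 2 * a by ring, hb.mul _ a (hB.b2.pow p 2 ho) (hB.b2.cancel p a ho hk)
    ((cop hp).2 na).symm.pow_left, h2, zero_mul, zero_mul]

lemma bb3 (hB : Bas) (hb : BB) (ho : Prim p) (k : O) :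
    bb (p * (p ^ 2 * k)) = bb k * (N p : ℂ) ^ 2 := by
  rw [show p * (p ^ 2 * k) = k * p ^ 3 by ring]
  by_cases hk : Prim k
  · exact hb.cube k p hk ho
  · rw [bb0 hB hb hk, bb0 hB hb fun h => hk (hB.b2.cancel _ k (hB.b2.pow p 3 ho)
      (by rwa [mul_comm])), zero_mul]

lemma bbp1 (hb : BB) (hp : Prime p) (ho : Prim p) : bb p = gs p := by
  simpa using hb.pp1 p 0 hp ho

lemma wt_le (P : Finset O) (D : O) : wt P D ≤ ∏ p ∈ P, (1 + N p) :=
  Finset.prod_le_prod (fun p _ => by have := N0 p; split_ifs <;> positivity) fun p _ => by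
    have := N0 p
    split_ifs <;> linarith

lemma wsum (E : K.Env) {σ : ℝ} (hσ : 1 < σ) (P : Finset O) (hP : ∀ q ∈ P, Prime q ∧ Prim q) :
    ∑' D, ‖bb D‖ * N D ^ (-(1 / 2 + σ)) * wt P D ≤ 3 ^ P.card * DD σ := by
  have hB := E.hB
  induction P using Finset.induction_on with
  | empty => simp [wt, DD]
  | insert p P pP ih =>
    obtain ⟨hp, ho⟩ := hP p (Finset.mem_insert_self _ _)
    have hP' : ∀ q ∈ P, Prime q ∧ Prim q := fun q hq => hP q (Finset.mem_insert_of_mem hq)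
    have N1 := hB.b1.N_one_le p hp.ne_zero
    have N0' := Npos hB hp.ne_zero
    set a : O → ℝ := fun D => ‖bb D‖ * N D ^ (-(1 / 2 + σ)) * wt P D with ha
    have a0 : ∀ D, 0 ≤ a D := fun D => by have := N0 D; have := wt0 P D; positivity
    have sa : Summable a := ACM.summW E.hb hσ (wt0 P) (wt_le P)
    have wp : ∀ D, wt P (p * D) = wt P D := fun D => Finset.prod_congr rfl fun q hq => by
      have : q ∣ p * D ↔ q ∣ D := ⟨fun d => ((hP' q hq).1.dvd_or_dvd d).resolve_left fun d' =>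
        pP (hB.b2.uniq q p (hP' q hq).2 ho
          ((hP' q hq).1.associated_of_dvd hp d') ▸ hq), fun d => d.mul_left p⟩
      simp only [this]
    have si : ∀ (c : O) (g : O → ℝ), Summable g → Summable fun D => if c ∣ D then g D else 0 :=
      fun c g hg => (hg.indicator {D | c ∣ D}).congr fun D => by
        simp [Set.indicator]
    have sp : Summable fun D => a (p * D) := sa.comp_injective (mul_right_injective₀ hp.ne_zero)
    have e1 : ∀ D, N p * a (p * D) ≤ a D + N p * if p ^ 2 ∣ D then a (p * D) else 0 := fun D => by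
      have b1 := (congrArg norm (bbp hB E.hb hp ho D)).trans_le (norm_add_le _ _)
      have b2 : ‖bb p * bb D * cub p D‖ ≤ N p ^ (1 / 2 : ℝ) * ‖bb D‖ := by
        rw [norm_mul, norm_mul, bbp1 E.hb hp ho, ngs E hp ho, Real.sqrt_eq_rpow]
        exact mul_le_of_le_one_right (by positivity) (hB.b6.norm_le _ _)
      have b3 : N p * (N p ^ (1 / 2 : ℝ) * N p ^ (-(1 / 2 + σ))) ≤ 1 := by
        rw [← Real.rpow_add N0', ← Real.rpow_one_add' N0'.le (by linarith)]
        exact Real.rpow_le_one_of_one_le_of_nonpos N1 (by linarith)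
      split_ifs at b1 ⊢ with d
      · linarith [a0 D]
      · have := N0 D
        have := wt0 P D
        rw [norm_zero, add_zero] at b1
        simp only [ha, wp, hB.b1.N_mul, Real.mul_rpow N0'.le (N0 D), mul_zero, add_zero]
        calc _ ≤ N p * (N p ^ (1 / 2 : ℝ) * ‖bb D‖ *
              (N p ^ (-(1 / 2 + σ)) * N D ^ (-(1 / 2 + σ))) * wt P D) := by
              gcongr; exact b1.trans b2
          _ = N p * (N p ^ (1 / 2 : ℝ) * N p ^ (-(1 / 2 + σ))) *
              (‖bb D‖ * N D ^ (-(1 / 2 + σ)) * wt P D) := by ring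
          _ ≤ _ := mul_le_of_le_one_left (by positivity) b3
    have e2 : ∀ D, N p * a (p * (p ^ 2 * D)) ≤ a D := fun D => by
      have b3 : N p * (N p ^ 2 * (N p ^ (-(1 / 2 + σ))) ^ 3) ≤ 1 := by
        rw [← Real.rpow_natCast, ← Real.rpow_mul_natCast N0'.le, ← Real.rpow_add N0',
          ← Real.rpow_one_add' N0'.le (by push_cast; linarith)]
        exact Real.rpow_le_one_of_one_le_of_nonpos N1 (by push_cast; linarith)
      have := N0 D
      simp only [ha]
      rw [bb3 hB E.hb ho, wp, sq p, mul_assoc p, wp, wp, hB.b1.N_mul, hB.b1.N_mul, hB.b1.N_mul,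
        Real.mul_rpow N0'.le (by positivity), Real.mul_rpow N0'.le (by positivity),
        Real.mul_rpow N0'.le this, norm_mul, norm_pow, norm_real, Real.norm_of_nonneg N0'.le]
      calc _ = N p * (N p ^ 2 * (N p ^ (-(1 / 2 + σ))) ^ 3) * a D := by simp only [ha]; ring
        _ ≤ _ := mul_le_of_le_one_left (a0 D) b3
    have e3 : N p * ∑' D, a (p * D) ≤ 2 * ∑' D, a D := by
      rw [← tsum_mul_left]
      refine ((sp.mul_left _).tsum_le_tsum e1 (sa.add ((si _ _ sp).mul_left _))).trans ?_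
      rw [sa.tsum_add ((si _ _ sp).mul_left _), tsum_mul_left,
        tdiv (pow_ne_zero 2 hp.ne_zero) fun D => a (p * D), ← tsum_mul_left, two_mul]
      exact add_le_add le_rfl (((sp.comp_injective
        (mul_right_injective₀ (pow_ne_zero 2 hp.ne_zero))).mul_left _).tsum_le_tsum e2 sa)
    have e4 : ∀ D, ‖bb D‖ * N D ^ (-(1 / 2 + σ)) * wt (insert p P) D =
        a D + N p * if p ∣ D then a D else 0 := fun D => by
      rw [wt, Finset.prod_insert pP, ← wt]
      simp only [ha]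
      split_ifs <;> ring
    simp only [e4]
    rw [sa.tsum_add ((si _ _ sa).mul_left _), tsum_mul_left, tdiv hp.ne_zero a,
      Finset.card_insert_of_notMem pP, pow_succ]
    have := ih hP'
    linarith

/-- one term of the series -/
def tz (φ : O → ℂ) (z : ℂ) (k : O) : ℂ := cub lam k * φ k * (bb k * (N k : ℂ) ^ (-(1 / 2 + z)))
def LF (φ : O → ℂ) (z : ℂ) : ℂ := ∑' k, tz φ z k

lemma tz_summ (E : K.Env) {φ : O → ℂ} {M : ℝ} (hφ : ∀ k, ‖φ k‖ ≤ M) {z : ℂ} (hz : 1 < z.re) :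
    Summable (tz φ z) := by
  refine .of_norm_bounded (ACM.summW E.hb hz (fun k => norm_nonneg _) hφ) fun k => ?_
  have e : (-(1 / 2 + z)).re = -(1 / 2 + z.re) := by simp
  have := N0 k
  have := E.hB.b6.norm_le lam k
  rw [tz, norm_mul, norm_mul, norm_mul,
    Complex.norm_cpow_eq_rpow_re_of_nonneg (N0 k) (by simp; linarith), e]
  calc _ ≤ 1 * ‖φ k‖ * (‖bb k‖ * N k ^ (-(1 / 2 + z.re))) := by gcongr
    _ = _ := by ring

lemma tz_cc (hB : Bas) (φ : O → ℂ) (z : ℂ) {k : O} (hk : k ≠ 0) :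
    tz φ z k = K.cc k * φ k * (N k : ℂ) ^ (-z) := by
  have h0 := Npos hB hk
  have h1 : (N k : ℂ) ≠ 0 := ofReal_ne_zero.2 h0.ne'
  rw [tz, K.cc, neg_add, cpow_add _ _ h1, Real.sqrt_eq_rpow, ofReal_cpow h0.le, cpow_neg]
  push_cast
  ring

lemma LS_eq (E : K.Env) {s : O} (hs : Prim s) (z : ℂ) : LS s z = LF (fun k => cub k s) z := by
  refine tsum_congr fun k => ?_
  split_ifs with c
  · rw [tz_cc E.hB _ _ (E.hB.b2.ne k c), E.hC s k hs c]
  · simp [tz, bb0 E.hB E.hb c]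

lemma Ncp (hB : Bas) (a b : O) (z : ℂ) : (N (a * b) : ℂ) ^ z = (N a : ℂ) ^ z * (N b : ℂ) ^ z := by
  rw [hB.b1.N_mul, ofReal_mul, mul_cpow_ofReal_nonneg (N0 a) (N0 b)]

lemma recA (E : K.Env) (hp : Prime p) (ho : Prim p) {s : O} (hs : Prim s) (hps : ¬ p ∣ s)
    {z : ℂ} (hz : 1 < z.re) : LS (p ^ 3 * s) z = (1 - (N p : ℂ) ^ (1 / 2 - 3 * z)) * LS s z -
      K.cc p * cub p s * (N p : ℂ) ^ (-z) * LS (p * s) z := by
  have hB := E.hB
  have p0 := hp.ne_zero
  have s0 := hB.b2.ne s hs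
  have c3 := hB.b2.cop s hs
  have sm : ∀ c : O, Summable (tz (fun k => cub k c) z) := fun c =>
    tz_summ E (fun k => hB.b6.norm_le k c) hz
  have si : ∀ (c : O) (g : O → ℂ), Summable g → Summable fun D => if c ∣ D then g D else 0 :=
    fun c g hg => (hg.indicator {D | c ∣ D}).congr fun D => by
        simp [Set.indicator]
  set t := tz (fun k => cub k s) z with ht
  have sp : Summable fun D => t (p * D) := (sm s).comp_injective (mul_right_injective₀ p0)
  have e1 : ∀ k, t k = tz (fun k => cub k (p ^ 3 * s)) z k + if p ∣ k then t k else 0 := fun k => by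
    simp only [ht, tz]
    rw [hB.b6.mul_r _ _ _ (pow_ne_zero 3 p0) s0, hB.b6.pow_r _ _ _ p0, three hB hp]
    split_ifs <;> ring
  have e2 : ∀ k, t (p * k) = t p * tz (fun k => cub k (p * s)) z k +
      if p ^ 2 ∣ k then t (p * k) else 0 := fun k => by
    by_cases hk : Prim k
    swap
    · simp [ht, tz, bb0 hB E.hb hk, bb0 hB E.hb fun h => hk (hB.b2.cancel p k ho h)]
    have k0 := hB.b2.ne k hk
    have b := bbp hB E.hb hp ho k
    simp only [ht, tz]
    rw [hB.b6.mul_r lam _ _ p0 k0, hB.b6.mul_r k _ _ p0 s0, hB.b6.mul_l _ _ _ c3, Ncp hB,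
      E.hC k p hk ho]
    split_ifs at b ⊢
    · linear_combination cub lam p * cub lam k * cub p s * cub k s * (N p : ℂ) ^ (-(1 / 2 + z)) *
        (N k : ℂ) ^ (-(1 / 2 + z)) * b
    · linear_combination cub lam p * cub lam k * cub p s * cub k s * (N p : ℂ) ^ (-(1 / 2 + z)) *
        (N k : ℂ) ^ (-(1 / 2 + z)) * b
  have e3 : ∀ k, t (p * (p ^ 2 * k)) = (N p : ℂ) ^ (1 / 2 - 3 * z) * t k := fun k => by
    have n0 : (N p : ℂ) ≠ 0 := ofReal_ne_zero.2 (Npos hB p0).ne'
    simp only [ht, tz]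
    rw [bb3 hB E.hb ho]
    by_cases hk : Prim k
    swap
    · simp [bb0 hB E.hb hk]
    have k0 := hB.b2.ne k hk
    have a1 := hB.b6.cube lam p ((hB.b1.prime_lam.irreducible.coprime_iff_not_dvd).2
      ((hB.b2.cop_iff p).1 (hB.b2.cop p ho)))
    have a2 := hB.b6.cube p s ((cop hp).2 hps).symm
    have a3 : (N p : ℂ) ^ (1 / 2 - 3 * z) = (N p : ℂ) ^ 2 * ((N p : ℂ) ^ (-(1 / 2 + z))) ^ 3 := by
      rw [← cpow_natCast, ← cpow_nat_mul, ← cpow_add _ _ n0]
      congr 1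
      push_cast
      ring
    rw [sq p, mul_assoc p, Ncp hB, Ncp hB, Ncp hB, hB.b6.mul_l _ _ _ c3, hB.b6.mul_l _ _ _ c3,
      hB.b6.mul_l _ _ _ c3, hB.b6.mul_r lam _ _ p0 (mul_ne_zero p0 (mul_ne_zero p0 k0)),
      hB.b6.mul_r lam _ _ p0 (mul_ne_zero p0 k0), hB.b6.mul_r lam _ _ p0 k0, a3]
    linear_combination cub lam k * cub k s * bb k * (N p : ℂ) ^ 2 *
      ((N p : ℂ) ^ (-(1 / 2 + z))) ^ 3 * (N k : ℂ) ^ (-(1 / 2 + z)) * (cub p s ^ 3 * a1 + a2)
  have e4 : ∑' k, t k = _ := tsum_congr e1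
  have e5 : ∑' k, t (p * k) = _ := tsum_congr e2
  rw [(sm _).tsum_add (si _ _ (sm s)), tdiv p0 t, e5, ((sm _).mul_left _).tsum_add (si _ _ sp),
    tdiv (pow_ne_zero 2 p0) fun D => t (p * D), tsum_mul_left] at e4
  simp only [e3, tsum_mul_left] at e4
  rw [LS_eq E hs, LS_eq E (hB.b2.mul _ _ ho hs), LS_eq E (hB.b2.mul _ _ (hB.b2.pow p 3 ho) hs),
    ← tz_cc hB (fun k => cub k s) z p0, LF, LF, LF]
  linear_combination -e4

lemma recB (E : K.Env) (hp : Prime p) (ho : Prim p) {s : O} (hs : Prim s) (hps : p ∣ s)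
    (z : ℂ) : LS (p ^ 3 * s) z = LS s z := by
  have hB := E.hB
  rw [LS_eq E hs, LS_eq E (hB.b2.mul _ _ (hB.b2.pow p 3 ho) hs)]
  congr 1
  funext k
  rw [hB.b6.mul_r _ _ _ (pow_ne_zero 3 hp.ne_zero) (hB.b2.ne s hs),
    hB.b6.pow_r _ _ _ hp.ne_zero, three hB hp]
  split_ifs with c
  · rw [zero_mul, hB.b6.zero k s (hB.b2.ne s hs) fun d => hp.not_unit (d.isUnit_of_dvd' c hps)]
  · rw [one_mul]

end Vale.Agent.P026.Z.CTM
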