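import Vale.Agent.P026.M.GAM
import Vale.Agent.P006.A.Stm

/-! P006 branch A: three lines with polynomial weights. -/

noncomputable section
open Complex MeasureTheory Filter Topology
open scoped Classical ComplexConjugate

namespace Vale.Agent.P026.Z

namespace CVX

lemma pe {p : ℝ} (hp : 0 ≤ p) (t t0 : ℝ) :
    (1 + |t|) ^ p * Real.exp (-(t - t0) ^ 2) ≤ Real.exp (p ^ 2 / 4) * (1 + |t0|) ^ p := by
  have k2 : 1 + |t| ≤ (1 + |t0|) * Real.exp |t - t0| := by
    have := abs_add_le t0 (t - t0)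
    rw [add_sub_cancel] at this
    have h2 := Real.add_one_le_exp |t - t0|
    nlinarith [mul_nonneg (abs_nonneg t0) (abs_nonneg (t - t0)), abs_nonneg t0]
  calc _ ≤ ((1 + |t0|) * Real.exp |t - t0|) ^ p * Real.exp (-(t - t0) ^ 2) := by gcongr
    _ = Real.exp (|t - t0| * p + -(t - t0) ^ 2) * (1 + |t0|) ^ p := by
      rw [Real.mul_rpow (by positivity) (by positivity), ← Real.exp_mul, Real.exp_add]; ring
    _ ≤ _ := by
      gcongr
      nlinarith [sq_abs (t - t0), sq_nonneg (|t - t0| - p / 2)]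

lemma ne (w z : ℂ) : ‖cexp ((w - z) ^ 2)‖ = Real.exp ((w.re - z.re) ^ 2) *
    Real.exp (-(w.im - z.im) ^ 2) := by
  rw [Complex.norm_exp, ← Real.exp_add]
  congr 1
  simp [sq]
  ring

end CVX

open CVX Complex.HadamardThreeLines in
/-- three lines with polynomial weights -/
theorem cvx (a b p q : ℝ) (hab : a < b) (hp : 0 ≤ p) (hq : 0 ≤ q) : ∃ C : ℝ, 0 < C ∧
    ∀ (F : ℂ → ℂ) (K P Q : ℝ), 0 ≤ P → 0 ≤ Q → DifferentiableOn ℂ F {s | a ≤ s.re ∧ s.re ≤ b} →
    (∀ s : ℂ, a ≤ s.re → s.re ≤ b → ‖F s‖ ≤ K * Real.exp (8 * |s.im|)) →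
    (∀ t : ℝ, ‖F (a + t * I)‖ ≤ P * (1 + |t|) ^ p) → (∀ t : ℝ, ‖F (b + t * I)‖ ≤ Q * (1 + |t|) ^ q) →
    ∀ (u : ℝ) (z : ℂ), 0 ≤ u → u ≤ 1 → z.re = a + u * (b - a) →
      ‖F z‖ ≤ C * P ^ (1 - u) * Q ^ u * (1 + |z.im|) ^ (p * (1 - u) + q * u) := by
  set E := Real.exp ((b - a) ^ 2) * Real.exp (p ^ 2 / 4) * Real.exp (q ^ 2 / 4) with hE
  have hE0 : 0 < E := by positivity
  refine ⟨E, hE0, fun F K P Q hP hQ hF hK hl hr u z u0 u1 hz => ?_⟩
  have hba : 0 < b - a := by linarith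
  have z1 : a ≤ z.re := by rw [hz]; nlinarith
  have z2 : z.re ≤ b := by rw [hz]; nlinarith
  have sq : ∀ w : ℂ, a ≤ w.re → w.re ≤ b → Real.exp ((w.re - z.re) ^ 2) ≤ Real.exp ((b - a) ^ 2) :=
    fun w h1 h2 => Real.exp_le_exp.2 (sq_le_sq' (by linarith) (by linarith))
  have hd : DifferentiableOn ℂ (fun w => F w * cexp ((w - z) ^ 2)) {s | a ≤ s.re ∧ s.re ≤ b} :=
    hF.mul (by fun_prop)
  have e1 : ∀ (c P p : ℝ) (w : ℂ), 0 ≤ P → 0 ≤ p → a ≤ c → c ≤ b → w.re = c →
      (∀ t : ℝ, ‖F (c + t * I)‖ ≤ P * (1 + |t|) ^ p) → ‖F w * cexp ((w - z) ^ 2)‖ ≤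
        Real.exp ((b - a) ^ 2) * Real.exp (p ^ 2 / 4) * P * (1 + |z.im|) ^ p := by
    intro c P p w hP hp c1 c2 hw h
    have h1 := h w.im
    rw [← hw, re_add_im] at h1
    rw [norm_mul, ne]
    calc _ ≤ P * (1 + |w.im|) ^ p * (Real.exp ((b - a) ^ 2) * Real.exp (-(w.im - z.im) ^ 2)) := by
          exact mul_le_mul h1 (mul_le_mul_of_nonneg_right (sq w (hw ▸ c1) (hw ▸ c2)) (by positivity))
            (by positivity) (by positivity)
      _ = Real.exp ((b - a) ^ 2) * P * ((1 + |w.im|) ^ p * Real.exp (-(w.im - z.im) ^ 2)) := by ring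
      _ ≤ Real.exp ((b - a) ^ 2) * P * (Real.exp (p ^ 2 / 4) * (1 + |z.im|) ^ p) := by
          exact mul_le_mul_of_nonneg_left (pe hp _ _) (by positivity)
      _ = _ := by ring
  have x1 : 1 ≤ Real.exp (p ^ 2 / 4) := Real.one_le_exp (by positivity)
  have x2 : 1 ≤ Real.exp (q ^ 2 / 4) := Real.one_le_exp (by positivity)
  have key := norm_le_interp_of_mem_verticalClosedStrip' (f := fun w => F w * cexp ((w - z) ^ 2))
    (z := z) (a := E * P * (1 + |z.im|) ^ p) (b := E * Q * (1 + |z.im|) ^ q) hab ⟨z1, z2⟩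
    (by
      refine DifferentiableOn.diffContOnCl (hd.mono ?_)
      rw [verticalStrip, closure_preimage_re, closure_Ioo hab.ne]
      exact fun s hs => hs)
    (by
      refine ⟨|K| * Real.exp ((b - a) ^ 2) * Real.exp (8 * |z.im| + 16), ?_⟩
      rintro _ ⟨w, hw, rfl⟩
      have h1 := (hK w hw.1 hw.2).trans (mul_le_mul_of_nonneg_right (le_abs_self K) (by positivity))
      have h2 : Real.exp (8 * |w.im|) * Real.exp (-(w.im - z.im) ^ 2) ≤ Real.exp (8 * |z.im| + 16) := by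
        rw [← Real.exp_add]
        refine Real.exp_le_exp.2 ?_
        have := abs_add_le z.im (w.im - z.im)
        rw [add_sub_cancel] at this
        nlinarith [sq_abs (w.im - z.im), sq_nonneg (|w.im - z.im| - 4)]
      simp only [Function.comp, norm_mul, ne]
      calc _ ≤ |K| * Real.exp (8 * |w.im|) * (Real.exp ((b - a) ^ 2) *
            Real.exp (-(w.im - z.im) ^ 2)) :=
            mul_le_mul h1 (mul_le_mul_of_nonneg_right (sq w hw.1 hw.2) (by positivity))
              (by positivity) (by positivity)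
        _ = |K| * Real.exp ((b - a) ^ 2) * (Real.exp (8 * |w.im|) *
            Real.exp (-(w.im - z.im) ^ 2)) := by ring
        _ ≤ _ := by gcongr)
    (fun w hw => (e1 a P p w hP hp le_rfl hab.le hw hl).trans (by
      refine mul_le_mul_of_nonneg_right (mul_le_mul_of_nonneg_right ?_ hP) (by positivity)
      exact le_mul_of_one_le_right (by positivity) x2))
    (fun w hw => (e1 b Q q w hQ hq hab.le le_rfl hw hr).trans (by
      refine mul_le_mul_of_nonneg_right (mul_le_mul_of_nonneg_right ?_ hQ) (by positivity)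
      exact mul_le_mul_of_nonneg_right (le_mul_of_one_le_right (by positivity) x1) (by positivity)))
  have hu : (z.re - a) / (b - a) = u := by rw [hz]; field_simp; ring
  have h0 : 0 < 1 + |z.im| := by positivity
  simp only [sub_self, hu] at key
  rw [Real.mul_rpow (x := E * P) (by positivity) (by positivity), Real.mul_rpow hE0.le hP,
    Real.mul_rpow (x := E * Q) (by positivity) (by positivity), Real.mul_rpow hE0.le hQ,
    ← Real.rpow_mul h0.le, ← Real.rpow_mul h0.le] at key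
  rw [Real.rpow_add h0]
  have e2 : E = E ^ (1 - u) * E ^ u := by rw [← Real.rpow_add hE0]; simp
  refine le_trans (by simp) (key.trans (le_of_eq ?_))
  conv_rhs => rw [e2]
  ring

lemma gg_strip : ∃ C : ℝ, ∀ s : ℂ, -1 / 2 ≤ s.re → s.re ≤ 1 / 2 →
    ‖gg s‖ ≤ C * Real.exp (8 * |s.im|) := by
  obtain ⟨C, h0, hC⟩ := GAMM.strip_bd (1 / 3) 3 (by norm_num)
  obtain ⟨D, h1, hD⟩ := GAMM.inv_bd (-1) 2
  refine ⟨1 * (C * C) * (D * D), fun s ha hb => ?_⟩
  unfold gg
  rw [norm_mul, norm_mul, norm_mul, norm_mul]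
  have e1 : ‖(sg : ℂ) ^ (2 * s - 1)‖ ≤ 1 := GAMM.norm_sg_le _ (by simp; linarith)
  have e2 := hC (5 / 6 - s) (by simp; linarith) (by simp; linarith)
  have e3 := hC (7 / 6 - s) (by simp; linarith) (by simp; linarith)
  have e4 := hD (s - 1 / 6) (by simp; linarith) (by simp; linarith)
  have e5 := hD (s + 1 / 6) (by simp; linarith) (by simp; linarith)
  rw [show (s - 1 / 6).im = s.im by simp] at e4
  rw [show (s + 1 / 6).im = s.im by simp] at e5
  calc _ ≤ 1 * (C * C) * ((D * Real.exp (7 / 2 * |s.im|)) * (D * Real.exp (7 / 2 * |s.im|))) :=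
        mul_le_mul (mul_le_mul e1 (mul_le_mul e2 e3 (norm_nonneg _) h0) (by positivity) zero_le_one)
          (mul_le_mul e4 e5 (norm_nonneg _) (by positivity)) (by positivity) (by positivity)
    _ = 1 * (C * C) * (D * D) * Real.exp (7 / 2 * |s.im| + 7 / 2 * |s.im|) := by
        rw [Real.exp_add]; ring
    _ ≤ _ := by
        gcongr
        linarith [abs_nonneg s.im]

/-- the gamma factor on the lines between `-1/2` and `1/2` -/
def GDStmt : Prop := ∃ C : ℝ, 0 < C ∧ ∀ d t : ℝ, -1 / 2 ≤ d → d ≤ 1 / 2 →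
  ‖gg (-d + t * I)‖ ≤ C * (1 + |t|) ^ (2 + 4 * d)

theorem gdS (hG : GAM) : GDStmt := by
  obtain ⟨C, hC, h⟩ := cvx (-1 / 2) (1 / 2) 4 0 (by norm_num) (by norm_num) le_rfl
  obtain ⟨K, hK⟩ := gg_strip
  obtain ⟨P, hP⟩ := hG.ln 1
  refine ⟨C * max P 1, by positivity, fun d t h1 h2 => ?_⟩
  have := h gg K (max P 1) 1 (by positivity) zero_le_one
    (hG.diff.mono fun s hs => lt_of_le_of_lt hs.2 (by norm_num)) hK
    (fun t => by
      have := hP t
      rw [show (1 / 2 : ℂ) - (1 : ℕ) + t * I = ((-1 / 2 : ℝ) : ℂ) + t * I by push_cast; ring] at this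
      refine this.trans ?_
      rw [show (4 : ℝ) = (4 * 1 : ℕ) by norm_num, Real.rpow_natCast]
      gcongr
      exact le_max_left _ _)
    (fun t => by simpa using hG.half t) (1 / 2 - d) (-d + t * I) (by linarith) (by linarith)
    (by simp; ring)
  refine this.trans ?_
  rw [Real.one_rpow, mul_one, show (-(d : ℂ) + t * I).im = t by simp,
    show 4 * (1 - (1 / 2 - d)) + 0 * (1 / 2 - d) = 2 + 4 * d by ring]
  gcongr
  exact (Real.rpow_le_rpow_of_exponent_le (le_max_right P 1) (by linarith : _ ≤ (1 : ℝ))).trans_eq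
    (Real.rpow_one _)

end Vale.Agent.P026.Z
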