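import Vale.Agent.P006.A.TIGa

/-! Type I estimate with the exponential weight. -/

noncomputable section
open Complex MeasureTheory Filter Topology
open scoped Classical ComplexConjugate

namespace Vale.Agent.P026.Z
open Vale.Agent.P006 W1

namespace TIGM

def W (σ M : ℝ) (z : ℂ) : ℂ := Gamma (z - σ) * (M : ℂ) ^ (z - σ)

theorem W_diff (σ : ℝ) {M : ℝ} (hM : 0 < M) : DifferentiableOn ℂ (W σ M) {s | σ < s.re} := by
  intro s hs
  refine DifferentiableAt.differentiableWithinAt (DifferentiableAt.mul ?_ ?_)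
  · exact (GAMM.dG (s - σ) (by simpa using hs)).comp s (by fun_prop)
  · exact DifferentiableAt.const_cpow (by fun_prop) (Or.inl (by exact_mod_cast hM.ne'))

theorem W_norm (σ : ℝ) {M : ℝ} (hM : 0 < M) (z : ℂ) :
    ‖W σ M z‖ = ‖Gamma (z - σ)‖ * M ^ (z.re - σ) := by
  rw [W, norm_mul, Complex.norm_cpow_eq_rpow_re_of_pos hM]; simp

theorem W_bd {σ a M : ℝ} (h : σ < a) (hM : 1 ≤ M) : ∃ C : ℝ, 0 ≤ C ∧ ∀ s : ℂ, a ≤ s.re →
    s.re ≤ 5 / 4 → ‖W σ M s‖ ≤ C := by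
  obtain ⟨C, hC, h1⟩ := GAMM.strip_bd (a - σ) (5 / 4 - σ) (by linarith)
  refine ⟨C * M ^ (5 / 4 - σ), by positivity, fun s s1 s2 => ?_⟩
  rw [W_norm σ (by linarith)]
  exact mul_le_mul (h1 _ (by simpa using s1) (by simp; linarith))
    (Real.rpow_le_rpow_of_exponent_le hM (by linarith)) (by positivity) hC

theorem lineG {σ c : ℝ} (h1 : σ < c) (h2 : c ≠ 5 / 6) : ∃ K : ℝ, 0 ≤ K ∧ ∀ (f : ℝ → ℂ) (M P : ℝ),
    Continuous f → 0 < M → (∀ t : ℝ, ‖f t‖ ≤ P * (1 + |t|) ^ 4) →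
    (Integrable fun t : ℝ => W σ M (c + t * I) * f t / (c + t * I - 5 / 6)) ∧
      ‖∫ t : ℝ, W σ M (c + t * I) * f t / (c + t * I - 5 / 6)‖ ≤ K * M ^ (c - σ) * P := by
  obtain ⟨C, hC⟩ := W2.gamm.dec (c - σ) 6 (by linarith)
  have C0 : 0 ≤ C := le_trans (by positivity) (hC 0)
  have p : 0 < |c - 5 / 6| := abs_pos.2 (sub_ne_zero.2 h2)
  refine ⟨C / |c - 5 / 6| * Real.pi, by positivity, fun f M P hf hM hb => ?_⟩
  have P0 : 0 ≤ P := by simpa using (norm_nonneg _).trans (hb 0)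
  have hg : Continuous fun t : ℝ => (c : ℂ) + t * I := by fun_prop
  have hc : Continuous fun t : ℝ => W σ M (c + t * I) :=
    (W_diff σ hM).continuousOn.comp_continuous hg fun t => by simpa using h1
  have bd : ∀ t : ℝ, ‖W σ M (c + t * I) * f t / (c + t * I - 5 / 6)‖ ≤
      C / |c - 5 / 6| * M ^ (c - σ) * P * (1 + t ^ 2)⁻¹ := fun t => by
    have q : |c - 5 / 6| ≤ ‖(c : ℂ) + t * I - 5 / 6‖ := by
      have := Complex.abs_re_le_norm ((c : ℂ) + t * I - 5 / 6)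
      simpa using this
    have e : (c : ℂ) + t * I - σ = ((c - σ : ℝ) : ℂ) + t * I := by push_cast; ring
    have r : ((c : ℂ) + t * I).re = c := by simp
    have g1 : ‖Gamma (((c - σ : ℝ) : ℂ) + t * I)‖ * (1 + |t|) ^ 4 ≤ C * (1 + t ^ 2)⁻¹ := by
      rw [← div_eq_mul_inv, le_div_iff₀ (by positivity)]
      refine le_trans ?_ (hC t)
      have : 1 + t ^ 2 ≤ (1 + |t|) ^ 2 := by nlinarith [sq_abs t, abs_nonneg t]
      calc _ ≤ ‖Gamma (((c - σ : ℝ) : ℂ) + t * I)‖ * (1 + |t|) ^ 4 * (1 + |t|) ^ 2 := by gcongr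
        _ = _ := by ring
    rw [norm_div, norm_mul, W_norm σ hM, e, r]
    calc _ ≤ ‖Gamma (((c - σ : ℝ) : ℂ) + t * I)‖ * M ^ (c - σ) * (P * (1 + |t|) ^ 4) /
          |c - 5 / 6| := by
          have := hb t
          gcongr
      _ = M ^ (c - σ) * P / |c - 5 / 6| *
          (‖Gamma (((c - σ : ℝ) : ℂ) + t * I)‖ * (1 + |t|) ^ 4) := by ring
      _ ≤ M ^ (c - σ) * P / |c - 5 / 6| * (C * (1 + t ^ 2)⁻¹) := by gcongr
      _ = _ := by ring
  have ii := integrable_inv_one_add_sq.const_mul (C / |c - 5 / 6| * M ^ (c - σ) * P)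
  refine ⟨ii.mono' ((hc.mul hf).div (by fun_prop) (RESM.ne56 h2)).aestronglyMeasurable
    (.of_forall bd), (norm_integral_le_of_norm_le ii (.of_forall bd)).trans (le_of_eq ?_)⟩
  rw [integral_const_mul, integral_univ_inv_one_add_sq]
  ring

def tk (s : O) (z : ℂ) (k : O) : ℂ := if Prim k then K.cc k * cub s k * (N k : ℂ) ^ (-z) else 0

theorem tk_le (s : O) {z : ℂ} (hz : z.re = 5 / 4) (k : O) :
    ‖tk s z k‖ ≤ ‖bb k‖ * N k ^ (-(7 / 4 : ℝ)) := by
  have := VIM.N0 k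
  unfold tk
  split_ifs with c
  · have n0 : 0 < N k := lt_of_lt_of_le one_pos (bas.b1.N_one_le k (bas.b2.ne _ c))
    have e : N k ^ (-(7 / 4 : ℝ)) = N k ^ (-(5 / 4 : ℝ)) / Real.sqrt (N k) := by
      rw [Real.sqrt_eq_rpow, ← Real.rpow_sub n0]; norm_num
    rw [K.cc, norm_mul, norm_mul, norm_div, norm_mul, Complex.norm_cpow_eq_rpow_re_of_pos n0,
      Complex.neg_re, hz, e, Complex.norm_real, Real.norm_of_nonneg (Real.sqrt_nonneg _)]
    have a1 := bas.b6.norm_le lam k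
    have a2 := bas.b6.norm_le s k
    calc _ ≤ 1 * ‖bb k‖ / Real.sqrt (N k) * 1 * N k ^ (-(5 / 4 : ℝ)) := by gcongr
      _ = _ := by ring
  · rw [norm_zero]; positivity

theorem summ : Summable fun k => ‖bb k‖ * N k ^ (-(7 / 4 : ℝ)) := W1.bb.summ _ (by norm_num)

def DD : ℝ := ∑' k, ‖bb k‖ * N k ^ (-(7 / 4 : ℝ))

theorem DD0 : 0 ≤ DD := tsum_nonneg fun k => by have := VIM.N0 k; positivity

theorem LS_le (s : O) {z : ℂ} (hz : z.re = 5 / 4) : ‖LS s z‖ ≤ DD :=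
  tsum_of_norm_bounded summ.hasSum (tk_le s hz)

theorem mel (s : O) {σ M : ℝ} (h2 : σ ≤ 1 / 4) (hM : 0 < M) :
    (∑' k, if Prim k then K.cc k * cub s k * ((N k ^ (-σ) * Real.exp (-(N k / M)) : ℝ) : ℂ) else 0) =
      ((1 / (2 * Real.pi) : ℝ) : ℂ) *
        ∫ t : ℝ, W σ M ((5 / 4 : ℝ) + t * I) * LS s ((5 / 4 : ℝ) + t * I) := by
  haveI := VIM.cntO
  have c0 : 0 < 5 / 4 - σ := by linarith
  have hg : Continuous fun t : ℝ => ((5 / 4 : ℝ) : ℂ) + t * I := by fun_prop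
  have r : ∀ t : ℝ, (((5 / 4 : ℝ) : ℂ) + t * I).re = 5 / 4 := fun t => by simp
  have e : ∀ t : ℝ, ((5 / 4 : ℝ) : ℂ) + t * I - σ = ((5 / 4 - σ : ℝ) : ℂ) + t * I := fun t => by
    push_cast; ring
  have hc : Continuous fun t : ℝ => W σ M ((5 / 4 : ℝ) + t * I) :=
    (W_diff σ hM).continuousOn.comp_continuous hg fun t => by
      change σ < _
      rw [r]; linarith
  have hi : Integrable fun t : ℝ => ‖W σ M ((5 / 4 : ℝ) + t * I)‖ := by
    simp only [W_norm σ hM, e, r]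
    exact (PS1M.gam_int W2.gamm c0).norm.mul_const _
  have key := hasSum_integral_of_dominated_convergence
    (F := fun (k : O) (t : ℝ) => W σ M ((5 / 4 : ℝ) + t * I) * tk s ((5 / 4 : ℝ) + t * I) k)
    (f := fun t : ℝ => W σ M ((5 / 4 : ℝ) + t * I) * LS s ((5 / 4 : ℝ) + t * I)) (μ := volume)
    (fun k t => ‖W σ M ((5 / 4 : ℝ) + t * I)‖ * (‖bb k‖ * N k ^ (-(7 / 4 : ℝ))))
    (fun k => Continuous.aestronglyMeasurable (hc.mul (by
      unfold tk
      split_ifs with c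
      · have n0 : 0 < N k := lt_of_lt_of_le one_pos (bas.b1.N_one_le k (bas.b2.ne _ c))
        exact continuous_const.mul (Continuous.const_cpow (by fun_prop)
          (Or.inl (by exact_mod_cast n0.ne')))
      · exact continuous_const)))
    (fun k => .of_forall fun t => by
      rw [norm_mul]; exact mul_le_mul_of_nonneg_left (tk_le s (r t) k) (norm_nonneg _))
    (.of_forall fun _ => summ.mul_left _)
    (by simp only [tsum_mul_left]; exact hi.mul_const _)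
    (.of_forall fun t => (Summable.of_norm_bounded summ (tk_le s (r t))).hasSum.mul_left _)
  rw [← key.tsum_eq, ← tsum_mul_left]
  refine tsum_congr fun k => ?_
  unfold tk
  split_ifs with c
  swap
  · simp
  have n0 : 0 < N k := lt_of_lt_of_le one_pos (bas.b1.N_one_le k (bas.b2.ne _ c))
  have m := PS1M.mel W2.gamm c0 (div_pos n0 hM)
  have e2 : ∀ t : ℝ, W σ M ((5 / 4 : ℝ) + t * I) *
      (K.cc k * cub s k * (N k : ℂ) ^ (-(((5 / 4 : ℝ) : ℂ) + t * I))) =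
      K.cc k * cub s k * ((N k ^ (-σ) : ℝ) : ℂ) *
        (((N k / M : ℝ) : ℂ) ^ (-(((5 / 4 - σ : ℝ) : ℂ) + t * I)) *
          Gamma (((5 / 4 - σ : ℝ) : ℂ) + t * I)) := fun t => by
    rw [W, e, Complex.ofReal_cpow n0.le, pw hM, pw n0, pw n0, pw (div_pos n0 hM),
      Real.log_div n0.ne' hM.ne']
    have : cexp ((((5 / 4 - σ : ℝ) : ℂ) + t * I) * Real.log M) *
        cexp (-(((5 / 4 : ℝ) : ℂ) + t * I) * Real.log (N k)) =
        cexp (((-σ : ℝ) : ℂ) * Real.log (N k)) * cexp (-(((5 / 4 - σ : ℝ) : ℂ) + t * I) *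
          ((Real.log (N k) - Real.log M : ℝ) : ℂ)) := by
      rw [← Complex.exp_add, ← Complex.exp_add]; congr 1; push_cast; ring
    linear_combination K.cc k * cub s k * Gamma (((5 / 4 - σ : ℝ) : ℂ) + t * I) * this
  simp only [e2, integral_const_mul]
  rw [Complex.ofReal_mul, Complex.ofReal_exp, Complex.ofReal_neg, m]
  ring

theorem Eint {M : ℝ} (hM : 0 < M) : ((1 / (2 * Real.pi) : ℝ) : ℂ) *
    ∫ t : ℝ, W (-1 / 6) M ((5 / 4 : ℝ) + t * I) * (M : ℂ)⁻¹ / ((5 / 4 : ℝ) + t * I - 5 / 6) =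
      (Real.exp (-M⁻¹) : ℝ) := by
  have m := PS1M.mel W2.gamm (σ := 5 / 12) (by norm_num) (inv_pos.2 hM)
  rw [Complex.ofReal_exp, Complex.ofReal_neg, m]
  congr 1
  refine integral_congr_ae (.of_forall fun t => ?_)
  have e1 : ((5 / 4 : ℝ) : ℂ) + t * I - ((-1 / 6 : ℝ) : ℂ) = ((5 / 12 : ℝ) : ℂ) + t * I + 1 := by
    push_cast; ring
  have e2 : ((5 / 4 : ℝ) : ℂ) + t * I - 5 / 6 = ((5 / 12 : ℝ) : ℂ) + t * I := by push_cast; ring
  have n0 : ((5 / 12 : ℝ) : ℂ) + t * I ≠ 0 := by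
    rw [← e2]; exact RESM.ne56 (by norm_num) t
  have m0 : (M : ℂ) ≠ 0 := by exact_mod_cast hM.ne'
  simp only [W]
  rw [e1, e2, Complex.Gamma_add_one _ n0, Complex.cpow_add _ _ m0, Complex.cpow_one,
    pw (inv_pos.2 hM), pw hM, Real.log_inv, Complex.ofReal_neg, neg_mul_neg]
  field_simp

end TIGM

open TIGM in
theorem tigS : TIGStmt := by
  intro ρ hT σ ε s0 s1 e0
  set d : ℝ := min (ε / 3) (1 / 4) with hd
  have d0 : 0 < d := lt_min (by linarith) (by norm_num)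
  have d1 : d ≤ 1 / 4 := min_le_right _ _
  have d2 : d ≤ ε / 3 := min_le_left _ _
  obtain ⟨C, C0, hC⟩ := hT d d0 d1
  set a : ℝ := σ + d with ha
  have a1 : a < 5 / 6 := by linarith
  obtain ⟨K1, K10, L1⟩ := lineG (σ := σ) (c := a) (by linarith) a1.ne
  obtain ⟨K2, K20, L2⟩ := lineG (σ := -1 / 6) (c := a) (by linarith) a1.ne
  obtain ⟨K3, -, L3⟩ := lineG (σ := σ) (c := 5 / 4) (by linarith) (by norm_num)
  obtain ⟨K4, -, L4⟩ := lineG (σ := -1 / 6) (c := 5 / 4) (by norm_num) (by norm_num)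
  have g0 : 0 < Real.Gamma (5 / 6 - σ) := Real.Gamma_pos_of_pos (by linarith)
  set c0 : ℝ := 1 / (2 * Real.pi) with hc0
  have c00 : 0 ≤ c0 := by positivity
  refine ⟨(c0 * (K1 + Real.Gamma (5 / 6 - σ) * K2) + Real.Gamma (5 / 6 - σ)) *
    (Real.exp 7 * (C + TIGM.DD)), fun s M hs hM => ?_⟩
  have M0 : 0 < M := by linarith
  obtain ⟨F, F1, F2, F3, F4, F5⟩ := hC s hs
  have n1 : 1 ≤ N s := bas.b1.N_one_le s (bas.b2.ne _ hs)
  set n : ℝ := N s ^ (1 / 2 + ε) with hn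
  have n2 : 1 ≤ n := Real.one_le_rpow n1 (by linarith)
  have D0 := TIGM.DD0
  obtain ⟨B, hB⟩ := F2 (-d)
  have hP := pl (P := (C + TIGM.DD) * n) F1 (by linarith) (by linarith) (by positivity) hB
    (fun z hz => by
      have e : z = -d + z.im * I := by
        apply Complex.ext <;> simp [hz]
      have b1 := F5 z.im
      rw [← e] at b1
      have b2 : N s ^ (1 / 2 + 3 * d) ≤ n := Real.rpow_le_rpow_of_exponent_le n1 (by linarith)
      have b3 : (1 + |z.im|) ^ (3 + 4 * d) ≤ (1 + |z.im|) ^ 4 := by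
        rw [← Real.rpow_natCast]
        exact Real.rpow_le_rpow_of_exponent_le (by linarith [abs_nonneg z.im]) (by push_cast; linarith)
      refine b1.trans ?_
      have : C ≤ C + TIGM.DD := by linarith
      gcongr)
    (fun z hz => by
      rw [F4 z (by rw [hz]; norm_num) (by rw [hz]; norm_num), norm_mul]
      have b1 := LS_le s hz
      have b2 : ‖z - 5 / 6‖ ≤ (1 + |z.im|) ^ 4 := by
        refine (Complex.norm_le_abs_re_add_abs_im _).trans (le_trans ?_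
          (le_self_pow₀ (by linarith [abs_nonneg z.im]) (by norm_num)))
        simp [hz]
        norm_num [abs_of_pos]
      have b3 : TIGM.DD ≤ (C + TIGM.DD) * n := by nlinarith
      rw [mul_comm]
      exact mul_le_mul (b1.trans b3) b2 (norm_nonneg _) (by positivity))
  set P : ℝ := Real.exp 7 * ((C + TIGM.DD) * n) with hPd
  have P0 : 0 ≤ P := by positivity
  have cF : ∀ c : ℝ, c < 3 / 2 → Continuous fun t : ℝ => F (c + t * I) := fun c hc =>
    F1.continuousOn.comp_continuous (by fun_prop) fun t => by simpa using hc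
  have bF : ∀ c : ℝ, -d ≤ c → c ≤ 5 / 4 → ∀ t : ℝ, ‖F (c + t * I)‖ ≤ P * (1 + |t|) ^ 4 :=
    fun c c1 c2 t => by simpa using hP (c + t * I) (by simpa using c1) (by simpa using c2)
  have bM : ∀ t : ℝ, ‖(M : ℂ)⁻¹‖ ≤ M⁻¹ * (1 + |t|) ^ 4 := fun t => by
    rw [norm_inv, Complex.norm_real, Real.norm_of_nonneg M0.le]
    exact le_mul_of_one_le_right (by positivity) (one_le_pow₀ (by linarith [abs_nonneg t]))
  obtain ⟨i1, j1⟩ := L1 _ M P (cF a (by linarith)) M0 (bF a (by linarith) (by linarith))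
  obtain ⟨i2, j2⟩ := L2 _ M M⁻¹ continuous_const M0 bM
  obtain ⟨i3, -⟩ := L3 _ M P (cF (5 / 4) (by norm_num)) M0 (bF (5 / 4) (by linarith) le_rfl)
  obtain ⟨i4, -⟩ := L4 _ M M⁻¹ continuous_const M0 bM
  set G0 : ℂ := W σ M (5 / 6) * F (5 / 6) with hG0
  obtain ⟨B1, B10, hB1⟩ := W_bd (σ := σ) (a := a) (by linarith) hM
  obtain ⟨B2, B20, hB2⟩ := W_bd (σ := -1 / 6) (a := a) (by linarith) hM
  have sp : ∀ z : ℂ, (W σ M z * F z - G0 * (W (-1 / 6) M z * (M : ℂ)⁻¹)) / (z - 5 / 6) =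
      W σ M z * F z / (z - 5 / 6) - G0 * (W (-1 / 6) M z * (M : ℂ)⁻¹ / (z - 5 / 6)) := fun z => by
    ring
  have key := cross (G := fun z => W σ M z * F z - G0 * (W (-1 / 6) M z * (M : ℂ)⁻¹)) (a0 := σ)
    (a := a) (C := B1 * |B| + ‖G0‖ * (B2 * ‖(M : ℂ)⁻¹‖)) (by linarith) a1
    ((((W_diff σ M0).mono fun z hz => hz.1).mul (F1.mono fun z hz => hz.2)).sub
      ((((W_diff (-1 / 6) M0).mono fun z hz => by
        have := hz.1
        change -1 / 6 < z.re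
        linarith).mul_const _).const_mul _))
    (by
      have e : (5 / 6 : ℂ) - ((-1 / 6 : ℝ) : ℂ) = 1 := by push_cast; ring
      have m0 : (M : ℂ) ≠ 0 := by exact_mod_cast M0.ne'
      simp only [hG0]
      rw [W.eq_def (-1 / 6), e, Complex.Gamma_one, Complex.cpow_one, one_mul, mul_inv_cancel₀ m0,
        mul_one, sub_self])
    (fun z z1 z2 => by
      have ep : 1 ≤ Real.exp (8 * |z.im|) := Real.one_le_exp (by positivity)
      have b1 := (hB z (by linarith) z2).trans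
        (mul_le_mul_of_nonneg_right (le_abs_self B) (zero_le_one.trans ep))
      have b2 := mul_le_mul (hB1 z z1 z2) b1 (norm_nonneg _) B10
      have b3 : ‖G0‖ * (‖W (-1 / 6) M z‖ * ‖(M : ℂ)⁻¹‖) ≤ ‖G0‖ * (B2 * ‖(M : ℂ)⁻¹‖) := by
        have := hB2 z z1 z2
        gcongr
      have b4 := le_mul_of_one_le_right (show 0 ≤ ‖G0‖ * (B2 * ‖(M : ℂ)⁻¹‖) by positivity) ep
      refine (norm_sub_le _ _).trans ?_
      rw [norm_mul, norm_mul G0, norm_mul (W (-1 / 6) M z), add_mul, mul_assoc B1]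
      exact add_le_add b2 (b3.trans b4))
    (by simp only [sp]; exact i1.sub (i2.const_mul _))
    (by simp only [sp]; exact i3.sub (i4.const_mul _))
  simp only [sp] at key
  rw [integral_sub i1 (i2.const_mul _), integral_sub i3 (i4.const_mul _), integral_const_mul,
    integral_const_mul] at key
  have e1 : ∀ t : ℝ, W σ M ((5 / 4 : ℝ) + t * I) * F ((5 / 4 : ℝ) + t * I) /
      ((5 / 4 : ℝ) + t * I - 5 / 6) =
      W σ M ((5 / 4 : ℝ) + t * I) * LS s ((5 / 4 : ℝ) + t * I) := fun t => by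
    rw [F4 _ (by simp; norm_num) (by simp; norm_num), mul_left_comm,
      mul_div_cancel_left₀ _ (RESM.ne56 (by norm_num) t)]
  simp only [e1] at key
  have e2 : W σ M (5 / 6) = ((Real.Gamma (5 / 6 - σ) * M ^ (5 / 6 - σ) : ℝ) : ℂ) := by
    rw [W, Complex.ofReal_mul, ← Complex.Gamma_ofReal, Complex.ofReal_cpow M0.le]
    push_cast
    rfl
  have e3 := Eint M0
  rw [← hc0] at e3
  set I1 := ∫ t : ℝ, W σ M (a + t * I) * F (a + t * I) / (a + t * I - 5 / 6) with hI1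
  set I2 := ∫ t : ℝ, W (-1 / 6) M (a + t * I) * (M : ℂ)⁻¹ / (a + t * I - 5 / 6) with hI2
  have e4 : (∑' k, if Prim k then K.cc k * cub s k *
      ((N k ^ (-σ) * Real.exp (-(N k / M)) : ℝ) : ℂ) else 0) -
      ρ * K.MM s * ((Real.Gamma (5 / 6 - σ) * M ^ (5 / 6 - σ) : ℝ) : ℂ) =
      (c0 : ℂ) * (I1 - G0 * I2) - G0 * ((1 - Real.exp (-M⁻¹) : ℝ) : ℂ) := by
    rw [mel s s1 M0, ← hc0, ← F3, ← e2, key, Complex.ofReal_sub, ← e3, hG0]
    push_cast
    ring
  have g1 : ‖G0‖ ≤ Real.Gamma (5 / 6 - σ) * M ^ (5 / 6 - σ) * P := by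
    have := hP (5 / 6) (by simp; linarith) (by simp; norm_num)
    simp only [div_ofNat_im, im_ofNat, zero_div, abs_zero, add_zero, one_pow, mul_one] at this
    rw [hG0, norm_mul, e2, Complex.norm_real, Real.norm_of_nonneg (by positivity)]
    exact mul_le_mul_of_nonneg_left this (by positivity)
  have m1 : M ^ (a - σ) ≤ M ^ ε := Real.rpow_le_rpow_of_exponent_le hM (by linarith)
  have m2 : M ^ (5 / 6 - σ) * (M ^ (a - -1 / 6) * M⁻¹) ≤ M ^ ε := by
    rw [← Real.rpow_neg_one, ← Real.rpow_add M0, ← Real.rpow_add M0]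
    exact Real.rpow_le_rpow_of_exponent_le hM (by linarith)
  have m3 : M ^ (5 / 6 - σ) * M⁻¹ ≤ M ^ ε := by
    rw [← Real.rpow_neg_one, ← Real.rpow_add M0]
    exact Real.rpow_le_rpow_of_exponent_le hM (by linarith)
  have x1 : ‖((1 - Real.exp (-M⁻¹) : ℝ) : ℂ)‖ ≤ M⁻¹ := by
    have y1 := Real.add_one_le_exp (-M⁻¹)
    have y2 : Real.exp (-M⁻¹) ≤ 1 := Real.exp_le_one_iff.2 (by simp [M0.le])
    rw [Complex.norm_real, Real.norm_of_nonneg (by linarith)]
    linarith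
  have t1 : ‖I1‖ ≤ K1 * M ^ ε * P := j1.trans (by gcongr)
  have t2 : ‖G0 * I2‖ ≤ Real.Gamma (5 / 6 - σ) * K2 * M ^ ε * P := by
    rw [norm_mul]
    calc _ ≤ Real.Gamma (5 / 6 - σ) * M ^ (5 / 6 - σ) * P * (K2 * M ^ (a - -1 / 6) * M⁻¹) :=
          mul_le_mul g1 j2 (norm_nonneg _) (by positivity)
      _ = Real.Gamma (5 / 6 - σ) * K2 * (M ^ (5 / 6 - σ) * (M ^ (a - -1 / 6) * M⁻¹)) * P := by ring
      _ ≤ _ := by gcongr
  have t3 : ‖G0 * ((1 - Real.exp (-M⁻¹) : ℝ) : ℂ)‖ ≤ Real.Gamma (5 / 6 - σ) * M ^ ε * P := by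
    rw [norm_mul]
    calc _ ≤ Real.Gamma (5 / 6 - σ) * M ^ (5 / 6 - σ) * P * M⁻¹ :=
          mul_le_mul g1 x1 (norm_nonneg _) (by positivity)
      _ = Real.Gamma (5 / 6 - σ) * (M ^ (5 / 6 - σ) * M⁻¹) * P := by ring
      _ ≤ _ := by gcongr
  rw [e4]
  refine (norm_sub_le _ _).trans ?_
  rw [norm_mul (c0 : ℂ), Complex.norm_real, Real.norm_of_nonneg c00]
  have t4 := mul_le_mul_of_nonneg_left ((norm_sub_le I1 (G0 * I2)).trans (add_le_add t1 t2)) c00
  refine (add_le_add t4 t3).trans (le_of_eq ?_)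
  rw [hPd]
  ring

end Vale.Agent.P026.Z
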