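import Vale.Agent.P006.A.CT0
import Vale.Agent.P006.A.RES
import Vale.Agent.P026.M.W2a
import Vale.Agent.P026.M.PS1a

/-! Contour tools: maximum principle in a strip, shifting with integrable ends. -/

noncomputable section
open Complex MeasureTheory Filter Topology
open scoped Classical ComplexConjugate

namespace Vale.Agent.P026.Z.TIGM

theorem pw {x : ℝ} (hx : 0 < x) (w : ℂ) : (x : ℂ) ^ w = cexp (w * Real.log x) := by
  rw [cpow_def_of_ne_zero (by exact_mod_cast hx.ne'), ofReal_log hx.le, mul_comm]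

theorem pl {F : ℂ → ℂ} {a B P : ℝ} (hF : DifferentiableOn ℂ F {s | s.re < 3 / 2}) (ha : -1 / 4 ≤ a)
    (ha2 : a < 5 / 4) (hP : 0 ≤ P)
    (hb : ∀ s : ℂ, a ≤ s.re → s.re ≤ 5 / 4 → ‖F s‖ ≤ B * Real.exp (8 * |s.im|))
    (h1 : ∀ s : ℂ, s.re = a → ‖F s‖ ≤ P * (1 + |s.im|) ^ 4)
    (h2 : ∀ s : ℂ, s.re = 5 / 4 → ‖F s‖ ≤ P * (1 + |s.im|) ^ 4)
    (z : ℂ) (z1 : a ≤ z.re) (z2 : z.re ≤ 5 / 4) : ‖F z‖ ≤ Real.exp 7 * P * (1 + |z.im|) ^ 4 := by
  have nE : ∀ w : ℂ, a ≤ w.re → w.re ≤ 5 / 4 →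
      ‖cexp ((w - z) ^ 2)‖ ≤ Real.exp (9 / 4 - (w.im - z.im) ^ 2) := fun w w1 w2 => by
    rw [Complex.norm_exp]
    refine Real.exp_le_exp.2 ?_
    have e : ((w - z) ^ 2).re = (w.re - z.re) ^ 2 - (w.im - z.im) ^ 2 := by simp [sq]
    rw [e]
    nlinarith
  have tri : ∀ w : ℂ, |w.im| ≤ |w.im - z.im| + |z.im| := fun w => by
    simpa using abs_add_le (w.im - z.im) z.im
  have edge : ∀ w : ℂ, a ≤ w.re → w.re ≤ 5 / 4 → ‖F w‖ ≤ P * (1 + |w.im|) ^ 4 →
      ‖F w * cexp ((w - z) ^ 2)‖ ≤ Real.exp 7 * P * (1 + |z.im|) ^ 4 := fun w w1 w2 hw => by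
    have u0 := abs_nonneg (w.im - z.im)
    have v0 := abs_nonneg z.im
    have b1 : 1 + |w.im| ≤ (1 + |z.im|) * Real.exp |w.im - z.im| := by
      have := Real.add_one_le_exp |w.im - z.im|
      nlinarith [mul_nonneg u0 v0, tri w]
    have b2 := pow_le_pow_left₀ (by positivity) b1 4
    rw [mul_pow, ← Real.exp_nat_mul] at b2
    have b3 : Real.exp (((4 : ℕ) : ℝ) * |w.im - z.im|) * Real.exp (9 / 4 - (w.im - z.im) ^ 2) ≤
        Real.exp 7 := by
      rw [← Real.exp_add]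
      refine Real.exp_le_exp.2 ?_
      push_cast
      nlinarith [sq_abs (w.im - z.im), sq_nonneg (|w.im - z.im| - 2)]
    rw [norm_mul]
    calc _ ≤ P * ((1 + |z.im|) ^ 4 * Real.exp (((4 : ℕ) : ℝ) * |w.im - z.im|)) *
          Real.exp (9 / 4 - (w.im - z.im) ^ 2) :=
          mul_le_mul (hw.trans (mul_le_mul_of_nonneg_left b2 hP)) (nE w w1 w2) (norm_nonneg _)
            (by positivity)
      _ = P * (1 + |z.im|) ^ 4 * (Real.exp (((4 : ℕ) : ℝ) * |w.im - z.im|) *
          Real.exp (9 / 4 - (w.im - z.im) ^ 2)) := by ring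
      _ ≤ P * (1 + |z.im|) ^ 4 * Real.exp 7 := mul_le_mul_of_nonneg_left b3 (by positivity)
      _ = _ := by ring
  have hd : DifferentiableOn ℂ (fun w => F w * cexp ((w - z) ^ 2)) {s | s.re < 3 / 2} :=
    hF.mul (Differentiable.differentiableOn (by fun_prop))
  have key := PhragmenLindelof.vertical_strip (f := fun w => F w * cexp ((w - z) ^ 2)) (a := a)
    (b := 5 / 4) (C := Real.exp 7 * P * (1 + |z.im|) ^ 4) (z := z)
    (DifferentiableOn.diffContOnCl (hd.mono fun s hs => by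
      rw [closure_preimage_re, closure_Ioo ha2.ne] at hs
      have := hs.2
      change s.re < 3 / 2
      linarith))
    ⟨0, div_pos Real.pi_pos (by linarith), 0, Asymptotics.IsBigO.of_bound
      (|B| * Real.exp (8 * |z.im| + 19)) (eventually_inf_principal.2 (.of_forall fun w hw => by
        have w1 : a ≤ w.re := hw.1.le
        have w2 : w.re ≤ 5 / 4 := hw.2.le
        have b1 := (hb w w1 w2).trans (mul_le_mul_of_nonneg_right (le_abs_self B) (Real.exp_pos _).le)
        have b3 : Real.exp (8 * |w.im|) * Real.exp (9 / 4 - (w.im - z.im) ^ 2) ≤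
            Real.exp (8 * |z.im| + 19) := by
          rw [← Real.exp_add]
          refine Real.exp_le_exp.2 ?_
          nlinarith [sq_abs (w.im - z.im), sq_nonneg (|w.im - z.im| - 4), tri w]
        simp only [zero_mul, Real.exp_zero, norm_one, mul_one, norm_mul]
        calc _ ≤ |B| * Real.exp (8 * |w.im|) * Real.exp (9 / 4 - (w.im - z.im) ^ 2) :=
              mul_le_mul b1 (nE w w1 w2) (norm_nonneg _) (by positivity)
          _ ≤ _ := by rw [mul_assoc]; exact mul_le_mul_of_nonneg_left b3 (abs_nonneg _)))⟩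
    (fun w hw => edge w hw.ge (by linarith) (h1 w hw))
    (fun w hw => edge w (by linarith) hw.le (h2 w hw)) z1 z2
  simpa using key

theorem sh2 {f : ℂ → ℂ} {a b C : ℝ} (hab : a ≤ b)
    (hf : DifferentiableOn ℂ f {s | a ≤ s.re ∧ s.re ≤ b})
    (hb : ∀ s : ℂ, a ≤ s.re → s.re ≤ b → ‖f s‖ ≤ C * Real.exp (8 * |s.im|))
    (ia : Integrable fun t : ℝ => f (a + t * I)) (ib : Integrable fun t : ℝ => f (b + t * I)) :
    ∫ t : ℝ, f (a + t * I) = ∫ t : ℝ, f (b + t * I) := by
  set η : ℕ → ℝ := fun n => 1 / ((n : ℝ) + 1) with hη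
  have η0 : ∀ n, 0 < η n := fun n => Nat.one_div_pos_of_nat
  have η1 : ∀ n, η n ≤ 1 := fun n => Nat.one_div_le_one_div (n := 0) (Nat.zero_le n) |>.trans (by simp)
  have ηt : Tendsto η atTop (𝓝 0) := tendsto_one_div_add_atTop_nhds_zero_nat
  have nE : ∀ n (s : ℂ), ‖cexp (η n * s ^ 2)‖ = Real.exp (η n * (s.re ^ 2 - s.im ^ 2)) := fun n s => by
    rw [Complex.norm_exp]; congr 1; simp [sq]
  have lim : ∀ c : ℝ, (Integrable fun t : ℝ => f (c + t * I)) →
      Tendsto (fun n => ∫ t : ℝ, f (c + t * I) * cexp (η n * (c + t * I) ^ 2)) atTop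
        (𝓝 (∫ t : ℝ, f (c + t * I))) := fun c ic => by
    refine tendsto_integral_of_dominated_convergence (fun t => ‖f (c + t * I)‖ * Real.exp (c ^ 2))
      (fun n => ic.aestronglyMeasurable.mul (Continuous.aestronglyMeasurable (by fun_prop)))
      (ic.norm.mul_const _) (fun n => .of_forall fun t => ?_) (.of_forall fun t => ?_)
    · rw [norm_mul, nE]
      refine mul_le_mul_of_nonneg_left (Real.exp_le_exp.2 ?_) (norm_nonneg _)
      simp only [add_re, ofReal_re, mul_re, I_re, mul_zero, ofReal_im, I_im, mul_one, sub_self,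
        add_zero, add_im, mul_im, zero_add]
      nlinarith [η0 n, η1 n, sq_nonneg c, sq_nonneg t, mul_nonneg (η0 n).le (sq_nonneg t)]
    · have h1 : Tendsto (fun n => ((η n : ℝ) : ℂ)) atTop (𝓝 0) := by
        have := (Complex.continuous_ofReal.tendsto 0).comp ηt
        rwa [Complex.ofReal_zero] at this
      have h2 := ((h1.mul_const (((c : ℂ) + t * I) ^ 2)).cexp).const_mul (f (c + t * I))
      simpa using h2
  refine tendsto_nhds_unique (lim a ia) ((lim b ib).congr fun n => Eq.symm ?_)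
  refine W2.sh (fun s => f s * cexp (η n * s ^ 2)) a b
    (|C| * Real.exp (a ^ 2 + b ^ 2 + 81 * (1 / η n))) 1 hab one_pos
    (hf.mul (Differentiable.differentiableOn (by fun_prop))) fun s s1 s2 => ?_
  rw [norm_mul, nE, mul_assoc |C|, ← Real.exp_add]
  refine (mul_le_mul_of_nonneg_right ((hb s s1 s2).trans (mul_le_mul_of_nonneg_right (le_abs_self C)
    (Real.exp_pos _).le)) (Real.exp_pos _).le).trans ?_
  rw [mul_assoc |C|, ← Real.exp_add]
  refine mul_le_mul_of_nonneg_left (Real.exp_le_exp.2 ?_) (abs_nonneg C)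
  have p := η0 n
  have r1 : s.re ^ 2 ≤ a ^ 2 + b ^ 2 := by
    rcases le_total 0 s.re with h | h
    · nlinarith [sq_nonneg a]
    · nlinarith [sq_nonneg b]
  have r2 : η n * s.re ^ 2 ≤ s.re ^ 2 := mul_le_of_le_one_left (sq_nonneg _) (η1 n)
  have r3 : 9 * |s.im| ≤ η n * s.im ^ 2 + 81 * (1 / η n) := by
    have e : η n * (1 / η n) = 1 := by field_simp
    rw [← sq_abs]
    refine le_of_mul_le_mul_left ?_ p
    nlinarith [sq_nonneg (η n * |s.im| - 9 / 2)]
  nlinarith

theorem cross {G : ℂ → ℂ} {a0 a C : ℝ} (h0 : a0 < a) (ha : a < 5 / 6)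
    (hG : DifferentiableOn ℂ G {s | a0 < s.re ∧ s.re < 3 / 2}) (hz : G (5 / 6) = 0)
    (hb : ∀ s : ℂ, a ≤ s.re → s.re ≤ 5 / 4 → ‖G s‖ ≤ C * Real.exp (8 * |s.im|))
    (ia : Integrable fun t : ℝ => G (a + t * I) / (a + t * I - 5 / 6))
    (ib : Integrable fun t : ℝ => G ((5 / 4 : ℝ) + t * I) / ((5 / 4 : ℝ) + t * I - 5 / 6)) :
    ∫ t : ℝ, G (a + t * I) / (a + t * I - 5 / 6) =
      ∫ t : ℝ, G ((5 / 4 : ℝ) + t * I) / ((5 / 4 : ℝ) + t * I - 5 / 6) := by
  have ho : IsOpen {s : ℂ | a0 < s.re ∧ s.re < 3 / 2} :=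
    (isOpen_lt continuous_const Complex.continuous_re).inter
      (isOpen_lt Complex.continuous_re continuous_const)
  have hH : DifferentiableOn ℂ (dslope G (5 / 6)) {s | a0 < s.re ∧ s.re < 3 / 2} :=
    (Complex.differentiableOn_dslope (ho.mem_nhds (by
      have : (5 / 6 : ℂ).re = 5 / 6 := by simp
      refine ⟨?_, ?_⟩ <;> rw [this] <;> linarith))).2 hG
  have e : ∀ s : ℂ, s - 5 / 6 ≠ 0 → dslope G (5 / 6) s = G s / (s - 5 / 6) := fun s hs => by
    rw [dslope_of_ne _ (sub_ne_zero.1 hs), slope_def_field, hz, sub_zero]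
  have hK : IsCompact (Set.Icc a (5 / 4) ×ℂ Set.Icc (-1 : ℝ) 1) := isCompact_Icc.reProdIm isCompact_Icc
  obtain ⟨B, hB⟩ := hK.exists_bound_of_continuousOn (hH.continuousOn.mono fun s hs => by
    have := (Complex.mem_reProdIm.1 hs).1
    exact ⟨by linarith [this.1], by linarith [this.2]⟩)
  have e1 : ∀ t : ℝ, dslope G (5 / 6) (a + t * I) = G (a + t * I) / (a + t * I - 5 / 6) :=
    fun t => e _ (RESM.ne56 ha.ne t)
  have e2 : ∀ t : ℝ, dslope G (5 / 6) ((5 / 4 : ℝ) + t * I) =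
      G ((5 / 4 : ℝ) + t * I) / ((5 / 4 : ℝ) + t * I - 5 / 6) :=
    fun t => e _ (RESM.ne56 (by norm_num) t)
  have key := sh2 (f := dslope G (5 / 6)) (a := a) (b := 5 / 4) (C := |C| + |B|) (by linarith)
    (hH.mono fun s hs => ⟨by linarith [hs.1], by linarith [hs.2]⟩) (fun s a1 a2 => by
      have ep : 1 ≤ Real.exp (8 * |s.im|) := Real.one_le_exp (by positivity)
      by_cases c : |s.im| ≤ 1
      · have b1 := hB s (Complex.mem_reProdIm.2 ⟨⟨a1, a2⟩, abs_le.1 c⟩)
        have b3 := le_abs_self B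
        nlinarith [abs_nonneg B, abs_nonneg C]
      · have q : 1 ≤ ‖s - 5 / 6‖ := by
          have := Complex.abs_im_le_norm (s - 5 / 6)
          simp at this
          linarith [not_le.1 c]
        have n0 : s - 5 / 6 ≠ 0 := by
          intro z; rw [z, norm_zero] at q; linarith
        rw [e s n0, norm_div]
        have b1 := div_le_self (norm_nonneg (G s)) q
        have b2 := hb s a1 a2
        have b3 := mul_le_mul_of_nonneg_right (le_abs_self C) (zero_le_one.trans ep)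
        nlinarith [abs_nonneg B])
    (by simpa only [e1] using ia) (by simpa only [e2] using ib)
  simpa only [e1, e2] using key

end Vale.Agent.P026.Z.TIGM
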