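import Vale.Agent.P026.M.W2a
import Vale.Agent.P006.A.TH1
import Vale.Agent.P006.A.KG
import Vale.Agent.P006.A.GAM
import Vale.Agent.P006.A.MEL
import Vale.Agent.P006.A.FE
import Vale.Agent.P006.A.RES
import Vale.Agent.P006.A.CVX

/-! P006 branch A: closed statements. -/

namespace Vale.Agent.P026.Z

theorem fe : FEStmt :=
  feS W1.bas W1.bb W2.inv1 th1S (kgS W1.bas W2.gf) W2.av0 W2.av1 (melS W2.kk W2.gamm)
theorem res : RESStmt := resS W2.sh
theorem gd : GDStmt := gdS gamS

end Vale.Agent.P026.Z
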